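import Vale.Agent.P073.AB.Spec
import Vale.Agent.P073.LR.Spec

/-!
# P073, block LOC: the local theorem for a low rank differential, and the section output

`V = Fin 3 → ℝ` with the sup norm; the third coordinate is the coordinate `2`.
-/

namespace Vale.Agent.P073.LOC

open MeasureTheory Set Filter Topology Metric Vale.Agent.P073.St
open Vale.Agent.P073.SQ (ev cube Cells)
open Vale.Agent.P073.AB (cl Idx pt edge eInt squ tiles EdgeOf)
open P073.Net (IsTile dyc dyo SizeFn)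
open scoped ContDiff ENNReal

/-- the open unit cube -/
def Q1 : Set V := {x | ∀ i, 0 < x i ∧ x i < 1}

/-- `g - f → 0` at the boundary of `Ω` -/
def BdClose (Ω : Set V) (f g : V → V) : Prop :=
  ∀ δ > 0, ∃ K ⊆ Ω, IsCompact K ∧ ∀ x ∈ Ω \ K, ‖g x - f x‖ ≤ δ

/-- the hypotheses on `f : Q1 → Λ` with weak derivative `F` -/
structure Near (p κ : ℝ) (L : V →L[ℝ] V) (Λ : Set V) (f : V → V) (F : V → Mat) : Prop where
  dom : IsBoundedDomain Λ
  homeo : IsHomeo Q1 Λ f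
  cont : ContinuousOn f (closure Q1)
  sob : IsSobolev p Q1 f F
  near : ∑ j, ∫⁻ x in Q1, ENNReal.ofReal (‖cl (F x) (ev j) - L (ev j)‖ ^ p) ≤ ENNReal.ofReal κ

/-- (LOC) the local theorem for the linear map `L` -/
def LocThm (p : ℝ) (L : V →L[ℝ] V) : Prop :=
  ∀ ε > 0, ∃ κ > 0, ∀ (Λ : Set V) (f : V → V) (F : V → Mat), Near p κ L Λ f F →
    ∃ g : V → V, IsDiffeo Q1 Λ g ∧ BdClose Q1 f g ∧
      ∑ j, ∫⁻ x in Q1, ENNReal.ofReal (‖fderiv ℝ g x (ev j) - cl (F x) (ev j)‖ ^ p) ≤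
        ENNReal.ofReal ε

/-- the core box: the dyadic cubes `z` of generation `n` with `2 ≤ z i < 2 ^ n - 3`, for an origin
`v` with `0 ≤ v i < 1 / 2 ^ n`; it has distance at least `2 / 2 ^ n` to the boundary -/
def core (v : V) (n : ℕ) : Set V :=
  {x | ∀ i, v i + 2 / 2 ^ n ≤ x i ∧ x i ≤ v i + (2 ^ n - 3) / 2 ^ n}

/-- the height of the middle plane of the slab `z` -/
noncomputable def mid (v : V) (n : ℕ) (z : ℤ) : ℝ := v 2 + (2 * z + 1) / 2 ^ (n + 1)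

/-- energy of the diffeomorphism `g` on the edge `e` -/
noncomputable def gInt (p : ℝ) (v : V) (g : V → V) (e : Idx × Fin 3) : ℝ≥0∞ :=
  eInt v e (fun x => ENNReal.ofReal (‖fderiv ℝ g x (ev e.2)‖ ^ p))

/-- the section output, for coarse generation `n`, fine generation `m` -/
structure Sec (p C ε : ℝ) (n m : ℕ) (L : V →L[ℝ] V) (Λ : Set V) (f g : V → V) (v : V) :
    Prop where
  org : ∀ i, 0 ≤ v i ∧ v i < 1 / 2 ^ n
  diffeo : IsDiffeo Q1 Λ g
  close : BdClose Q1 f g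
  /-- horizontal edges of generation `m` in the core, in the interface planes (height
  `v 2 + z / 2 ^ n`) and in the middle planes (height `mid v n z`) -/
  hor : ∀ e : Idx × Fin 3, e.1.1 = m → edge v e ⊆ core v n → e.2 ≠ 2 →
    (2 ^ (m - (n + 1)) : ℤ) ∣ e.1.2 2 → gInt p v g e ≤ ENNReal.ofReal (C / 2 ^ m)
  /-- vertical edges of generation `m` in the core -/
  ver : ∀ e : Idx × Fin 3, e.1.1 = m → edge v e ⊆ core v n → e.2 = 2 →
    gInt p v g e ≤ ENNReal.ofReal ε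
  /-- edges of the Whitney partition outside of the core -/
  out : ∑' e : {e : Idx × Fin 3 // (∃ q ∈ tiles Q1 n v, EdgeOf e q) ∧ ¬ edge v e ⊆ core v n},
    ENNReal.ofReal ((1 / 2 ^ e.1.1.1) ^ 2) * gInt p v g e.1 ≤ ENNReal.ofReal (C / 2 ^ n)
  /-- the middle planes -/
  sec : ∀ z : ℤ, 2 ≤ z → z < 2 ^ n - 3 → ∑ j ∈ Finset.univ.erase (2 : Fin 3),
    ∫⁻ x in core v n,
      ENNReal.ofReal (‖fderiv ℝ g (Function.update x 2 (mid v n z)) (ev j) - L (ev j)‖ ^ p) ≤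
        ENNReal.ofReal ε

/-- (SEC) the section output exists -/
def SpecSec (p : ℝ) (L : V →L[ℝ] V) : Prop :=
  ∃ C > 0, ∀ n m : ℕ, 3 ≤ n → n + 2 ≤ m → ∀ ε > 0, ∃ κ > 0,
    ∀ (Λ : Set V) (f : V → V) (F : V → Mat), Near p κ L Λ f F → ∃ v g, Sec p C ε n m L Λ f g v

/-- (LOC3D) the vertical collapse -/
def SpecLoc3D : Prop :=
  ∀ (p : ℝ) (L : V →L[ℝ] V), 1 ≤ p → p < 2 → L (ev 2) = 0 → SpecSec p L → LocThm p L

end Vale.Agent.P073.LOC
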