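import Vale.Agent.P073.LOC.Geo308c
import Vale.Agent.P073.AB.Sum308d

/-!
# P073, block LOC, cell geometry (helper308): the thick slabs, (Q1), (Q7), assembly
-/

namespace Vale.Agent.P073.LOC.G308

open MeasureTheory Set Filter Topology Metric Vale.Agent.P073.St
open Vale.Agent.P073.SQ (ev cube Cells)
open Vale.Agent.P073.AB
open Vale.Agent.P073.AB.S308
open P073.Net (IsTile dyc dyo SizeFn)
open P073.Net.NC (dyA dyB fine_sub fine_sub' dist_le)
open P86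
open scoped ContDiff ENNReal

variable {v : V} {n m d : ℕ} {w : Fin 3 → ℤ} {z : ℤ} {x : V}

/-! ### The thick slabs -/

/-- corners of the thick slab -/
def ta (d : ℕ) (z : ℤ) : Fin 3 → ℤ := fun k => if k = 2 then z * 2 ^ d + 1 else 2 * 2 ^ d

/-- corners of the thick slab -/
def tb (n d : ℕ) (z : ℤ) : Fin 3 → ℤ :=
  fun k => if k = 2 then (z + 1) * 2 ^ d - 1 else (2 ^ n - 3) * 2 ^ d

theorem four_le (hd : 2 ≤ d) : (4:ℤ) ≤ 2 ^ d := by
  calc (4:ℤ) = 2 ^ 2 := by norm_num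
    _ ≤ 2 ^ d := pow_le_pow_right₀ (by norm_num) hd

theorem thick_eq (hd : 2 ≤ d) (hz : z ∈ Ico (2:ℤ) (2 ^ n - 3)) :
    thick v n (n + d) z = gbox v (n + d) (ta d z) (tb n d z) := by
  obtain ⟨hz1, hz2⟩ := hz
  have h4 := four_le hd
  have hp : (0:ℝ) < 2 ^ (n + d) := by positivity
  have e1 : ((ta d z 2 : ℤ) : ℝ) / 2 ^ (n + d) = z / 2 ^ n + 1 / 2 ^ (n + d) := by
    simp only [ta, if_true]
    push_cast
    rw [pow_add]
    field_simp
  have e2 : ((tb n d z 2 : ℤ) : ℝ) / 2 ^ (n + d) = (z + 1) / 2 ^ n - 1 / 2 ^ (n + d) := by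
    simp only [tb, if_true]
    push_cast
    rw [pow_add]
    field_simp
  have e3 : (2 * (z:ℝ) + 1) / 2 ^ (n + 1) - 1 / 2 ^ (n + 1) = z / 2 ^ n := by
    rw [pow_succ]
    field_simp
    ring
  have e4 : (2 * (z:ℝ) + 1) / 2 ^ (n + 1) + 1 / 2 ^ (n + 1) = (z + 1) / 2 ^ n := by
    rw [pow_succ]
    field_simp
    ring
  ext x
  simp only [thick, Set.mem_ofPred_eq, LOC.mid, abs_le]
  rw [core_fine v n d]
  constructor
  · rintro ⟨hx, h5, h6⟩ k
    by_cases hk : k = 2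
    · subst hk
      rw [e1, e2]
      constructor <;> linarith
    · have := hx k
      simp only [ta, tb, if_neg hk]
      exact this
  · intro hx
    obtain ⟨h5, h6⟩ := hx 2
    rw [e1] at h5
    rw [e2] at h6
    refine ⟨fun k => ?_, by linarith, by linarith⟩
    obtain ⟨h7, h8⟩ := hx k
    by_cases hk : k = 2
    · subst hk
      have h9 : ((2 * 2 ^ d : ℤ) : ℝ) / 2 ^ (n + d) ≤ (ta d z 2 : ℝ) / 2 ^ (n + d) := by
        rw [cast_div_le]
        simp only [ta, if_true]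
        nlinarith
      have h10 : (tb n d z 2 : ℝ) / 2 ^ (n + d) ≤ (((2 ^ n - 3) * 2 ^ d : ℤ) : ℝ) / 2 ^ (n + d) := by
        rw [cast_div_le]
        simp only [tb, if_true]
        nlinarith
      constructor <;> linarith
    · simp only [ta, tb, if_neg hk] at h7 h8
      exact ⟨h7, h8⟩

theorem ta_lt_tb (hn : 3 ≤ n) (hd : 2 ≤ d) (k : Fin 3) : ta d z k < tb n d z k := by
  have h4 := four_le hd
  have h8 := eight_le hn
  unfold ta tb
  split_ifs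
  · nlinarith
  · nlinarith

/-- the protected cubes are the cubes of the thick slabs -/
theorem mem_newP_iff (hd : 2 ≤ d) {q : Idx} : q ∈ newP v n (n + d) ↔
    q.1 = n + d ∧ ∃ z ∈ Ico (2:ℤ) (2 ^ n - 3), dyc v q.1 q.2 ⊆ thick v n (n + d) z := by
  have hp : (0:ℤ) < 2 ^ d := by positivity
  obtain ⟨g, w⟩ := q
  constructor
  · rintro ⟨⟨h1, h2⟩, h3, h4⟩
    simp only at h1 h2 h3 h4
    subst h1
    rw [Nat.add_sub_cancel_left] at h3 h4
    have h2' := h2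
    rw [core_fine v n d, dyc_sub_gbox_iff] at h2'
    have h5 := Int.mul_ediv_add_emod (w 2) (2 ^ d)
    have h6 := Int.emod_nonneg (w 2) hp.ne'
    have h7 := Int.emod_lt_of_pos (w 2) hp
    obtain ⟨h8, h9⟩ := h2' 2
    have hz : w 2 / 2 ^ d ∈ Ico (2:ℤ) (2 ^ n - 3) :=
      ⟨Int.le_ediv_of_mul_le hp h8, Int.ediv_lt_of_lt_mul hp (by omega)⟩
    refine ⟨rfl, w 2 / 2 ^ d, hz, ?_⟩
    rw [thick_eq hd hz, dyc_sub_gbox_iff]
    intro k
    simp only [ta, tb]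
    by_cases hk : k = 2
    · subst hk
      simp only [if_true]
      have h10 : w 2 ≠ w 2 / 2 ^ d * 2 ^ d := fun h => h3 ⟨w 2 / 2 ^ d, by rw [mul_comm]; exact h⟩
      have h11 : w 2 + 1 ≠ (w 2 / 2 ^ d + 1) * 2 ^ d :=
        fun h => h4 ⟨w 2 / 2 ^ d + 1, by rw [mul_comm]; exact h⟩
      have h12 : 2 ^ d * (w 2 / 2 ^ d) = w 2 / 2 ^ d * 2 ^ d := mul_comm _ _
      have h13 : (w 2 / 2 ^ d + 1) * 2 ^ d = w 2 / 2 ^ d * 2 ^ d + 2 ^ d := by ring
      constructor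
      · omega
      · omega
    · simp only [if_neg hk]
      exact h2' k
  · rintro ⟨h1, z, hz, h2⟩
    simp only at h1 h2
    subst h1
    have h3 : dyc v (n + d) w ⊆ core v n := fun y hy => (h2 hy).1
    rw [thick_eq hd hz, dyc_sub_gbox_iff] at h2
    have h4 := h2 2
    simp only [ta, tb, if_true] at h4
    obtain ⟨h5, h6⟩ := h4
    refine ⟨⟨rfl, h3⟩, ?_, ?_⟩
    · rw [Nat.add_sub_cancel_left]
      rintro ⟨c, hc⟩
      simp only at hc
      have hc' : w 2 = c * 2 ^ d := by rw [hc, mul_comm]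
      rw [hc'] at h5 h6
      have h7 : z < c := lt_of_mul_lt_mul_right (a := (2:ℤ) ^ d) (by omega) hp.le
      have h8 : c < z + 1 := lt_of_mul_lt_mul_right (a := (2:ℤ) ^ d) (by omega) hp.le
      omega
    · rw [Nat.add_sub_cancel_left]
      rintro ⟨c, hc⟩
      simp only at hc
      have hc' : w 2 + 1 = c * 2 ^ d := by rw [hc, mul_comm]
      rw [hc'] at h6
      have h7 : z < c := by
        have : z * 2 ^ d < c * 2 ^ d := by rw [← hc']; omega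
        exact lt_of_mul_lt_mul_right this hp.le
      have h8 : c < z + 1 := lt_of_mul_lt_mul_right (a := (2:ℤ) ^ d) (by omega) hp.le
      omega

theorem union_newP (hn : 3 ≤ n) (hd : 2 ≤ d) : ⋃ q ∈ newP v n (n + d), dyc v q.1 q.2 =
    ⋃ z ∈ Ico (2:ℤ) (2 ^ n - 3), thick v n (n + d) z := by
  apply Subset.antisymm
  · refine iUnion₂_subset fun q hq => ?_
    obtain ⟨-, z, hz, h⟩ := (mem_newP_iff hd).1 hq
    exact h.trans (subset_iUnion₂ (s := fun z _ => thick v n (n + d) z) z hz)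
  · refine iUnion₂_subset fun z hz x hx => ?_
    rw [thick_eq hd hz] at hx
    obtain ⟨w, hw, hw'⟩ := exists_dyc_of_mem_gbox (fun k => ta_lt_tb hn hd k) hx
    rw [← thick_eq hd hz] at hw'
    exact mem_iUnion₂.2 ⟨(n + d, w), (mem_newP_iff hd).2 ⟨rfl, z, hz, hw'⟩, hw⟩

/-! ### Volumes -/

theorem volume_Q1 : volume Q1 = 1 := by
  rw [Q1_eq_pi, volume_pi_pi]
  simp

theorem thick_disj (hd : 2 ≤ d) {z z' : ℤ} (hz : z ∈ Ico (2:ℤ) (2 ^ n - 3))
    (hz' : z' ∈ Ico (2:ℤ) (2 ^ n - 3)) (h : z ≠ z') :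
    Disjoint (thick v n (n + d) z) (thick v n (n + d) z') := by
  have hp : (0:ℤ) < 2 ^ d := by positivity
  have key : ∀ z z' : ℤ, z ∈ Ico (2:ℤ) (2 ^ n - 3) → z' ∈ Ico (2:ℤ) (2 ^ n - 3) → z < z' →
      Disjoint (thick v n (n + d) z) (thick v n (n + d) z') := by
    intro z z' hz hz' hlt
    rw [Set.disjoint_left]
    intro x hx hx'
    rw [thick_eq hd hz] at hx
    rw [thick_eq hd hz'] at hx'
    have h1 := (hx 2).2
    have h2 := (hx' 2).1
    have h3 : (ta d z' 2 : ℝ) / 2 ^ (n + d) ≤ (tb n d z 2 : ℝ) / 2 ^ (n + d) := by linarith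
    rw [cast_div_le] at h3
    simp only [ta, tb, if_true] at h3
    nlinarith
  rcases lt_or_gt_of_ne h with h | h
  · exact key _ _ hz hz' h
  · exact (key _ _ hz' hz h).symm

theorem volume_thick (hn : 3 ≤ n) (hd : 2 ≤ d) (hz : z ∈ Ico (2:ℤ) (2 ^ n - 3)) :
    volume (thick v n (n + d) z) =
      ENNReal.ofReal ((1 - 5 / 2 ^ n) ^ 2 * ((1 - 2 / 2 ^ d) / 2 ^ n)) := by
  have h8 : (8:ℝ) ≤ 2 ^ n := by exact_mod_cast eight_le hn
  have h4 : (4:ℝ) ≤ 2 ^ d := by exact_mod_cast four_le hd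
  have h5 : (0:ℝ) ≤ 1 - 5 / 2 ^ n := by
    rw [sub_nonneg, div_le_one (by positivity)]; linarith
  have h6 : (0:ℝ) ≤ (1 - 2 / 2 ^ d) / 2 ^ n := by
    apply div_nonneg _ (by positivity)
    rw [sub_nonneg, div_le_one (by positivity)]; linarith
  rw [thick_eq hd hz, volume_gbox, Fin.prod_univ_three]
  have e0 : ((tb n d z 0 : ℝ) - ta d z 0) / 2 ^ (n + d) = 1 - 5 / 2 ^ n := by
    simp only [ta, tb, show (0 : Fin 3) ≠ 2 by decide, if_false]
    push_cast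
    rw [pow_add]
    field_simp
    ring
  have e1 : ((tb n d z 1 : ℝ) - ta d z 1) / 2 ^ (n + d) = 1 - 5 / 2 ^ n := by
    simp only [ta, tb, show (1 : Fin 3) ≠ 2 by decide, if_false]
    push_cast
    rw [pow_add]
    field_simp
    ring
  have e2 : ((tb n d z 2 : ℝ) - ta d z 2) / 2 ^ (n + d) = (1 - 2 / 2 ^ d) / 2 ^ n := by
    simp only [ta, tb, if_true]
    push_cast
    rw [pow_add]
    field_simp
    ring
  rw [e0, e1, e2, ← ENNReal.ofReal_mul h5, ← ENNReal.ofReal_mul (mul_nonneg h5 h5)]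
  congr 1
  ring

theorem volume_rest (h : Dat v n (n + d)) (hd : 2 ≤ d) :
    volume (Q1 \ ⋃ z ∈ Ico (2:ℤ) (2 ^ n - 3), thick v n (n + d) z) ≤
      ENNReal.ofReal (15 / 2 ^ n + 2 / 2 ^ d) := by
  have hn := h.hn
  have h8z := eight_le hn
  have h8 : (8:ℝ) ≤ 2 ^ n := by exact_mod_cast h8z
  have h4 : (4:ℝ) ≤ 2 ^ d := by exact_mod_cast four_le hd
  have h5 : (0:ℝ) ≤ 1 - 5 / 2 ^ n := by
    rw [sub_nonneg, div_le_one (by positivity)]; linarith
  have h6 : (0:ℝ) ≤ 1 - 2 / 2 ^ d := by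
    rw [sub_nonneg, div_le_one (by positivity)]; linarith
  have hU : (⋃ z ∈ Ico (2:ℤ) (2 ^ n - 3), thick v n (n + d) z) =
      ⋃ z ∈ Finset.Ico (2:ℤ) (2 ^ n - 3), thick v n (n + d) z := by
    simp only [Finset.mem_Ico, Set.mem_Ico]
  have hmeas : ∀ z ∈ Finset.Ico (2:ℤ) (2 ^ n - 3), MeasurableSet (thick v n (n + d) z) := by
    intro z hz
    rw [thick_eq hd (Finset.mem_Ico.1 hz)]
    exact (isClosed_gbox _ _ _ _).measurableSet
  have hvol : volume (⋃ z ∈ Ico (2:ℤ) (2 ^ n - 3), thick v n (n + d) z) =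
      ENNReal.ofReal ((1 - 5 / 2 ^ n) ^ 3 * (1 - 2 / 2 ^ d)) := by
    rw [hU, measure_biUnion_finset]
    · rw [Finset.sum_congr rfl fun z hz => volume_thick hn hd (Finset.mem_Ico.1 hz),
        Finset.sum_const, nsmul_eq_mul, Int.card_Ico, ← ENNReal.ofReal_natCast,
        ← ENNReal.ofReal_mul (by positivity)]
      congr 1
      have : (((2 ^ n - 3 - 2 : ℤ).toNat : ℕ) : ℝ) = 2 ^ n - 5 := by
        have h9 : (((2 ^ n - 3 - 2 : ℤ).toNat : ℕ) : ℤ) = 2 ^ n - 3 - 2 :=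
          Int.toNat_of_nonneg (by omega)
        have h10 : (((2 ^ n - 3 - 2 : ℤ).toNat : ℕ) : ℝ) = ((2 ^ n - 3 - 2 : ℤ) : ℝ) := by
          rw [← h9]; push_cast; rfl
        rw [h10]; push_cast; ring
      rw [this]
      field_simp
    · intro z hz z' hz' hne
      exact thick_disj hd (Finset.mem_Ico.1 hz) (Finset.mem_Ico.1 hz') hne
    · exact hmeas
  have hsub : (⋃ z ∈ Ico (2:ℤ) (2 ^ n - 3), thick v n (n + d) z) ⊆ Q1 :=
    iUnion₂_subset fun z _ x hx => h.core_sub hx.1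
  have hm : MeasurableSet (⋃ z ∈ Ico (2:ℤ) (2 ^ n - 3), thick v n (n + d) z) := by
    rw [hU]; exact Finset.measurableSet_biUnion _ hmeas
  rw [measure_diff hsub hm.nullMeasurableSet (by rw [hvol]; exact ENNReal.ofReal_ne_top),
    volume_Q1, hvol, ← ENNReal.ofReal_one, ← ENNReal.ofReal_sub _ (by positivity)]
  apply ENNReal.ofReal_le_ofReal
  set a : ℝ := 5 / 2 ^ n with ha
  set b : ℝ := 2 / 2 ^ d with hb
  have ha0 : 0 ≤ a := by positivity
  have hb0 : 0 ≤ b := by positivity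
  have ha3 : (15:ℝ) / 2 ^ n = 3 * a := by rw [ha]; ring
  rw [ha3]
  have c1 : (1 - a) ^ 3 ≤ 1 := pow_le_one₀ h5 (by linarith)
  have c2 : 1 - 3 * a ≤ (1 - a) ^ 3 := by
    nlinarith [mul_nonneg ha0 ha0, mul_nonneg (mul_nonneg ha0 ha0) h5]
  nlinarith [mul_nonneg hb0 (sub_nonneg.2 c1)]

/-! ### (Q7) -/

/-- the edges of the outer part are in the planes which are not moved, all directions -/
theorem awayK (h : Dat v n m) (k : Fin 3) {e : Idx × Fin 3} (he : e ∈ OE v n)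
    (hx : x ∈ edge v e) :
    (∃ i : Fin 3, i ≠ k ∧ (x i ≤ v i + 1 / 2 ^ n ∨ v i + (2 ^ n - 2) / 2 ^ n ≤ x i)) ∨
      x k ≤ v k + 2 / 2 ^ n ∨ v k + (2 ^ n - 3) / 2 ^ n ≤ x k ∨
        ∃ z : ℤ, x k = v k + z / 2 ^ n := by
  obtain ⟨⟨q, hq, hE⟩, hnc⟩ := he
  by_contra hcon
  push Not at hcon
  obtain ⟨h1, h2, h3, h4⟩ := hcon
  apply hnc
  have hxq := Gr.edge_subset_dyc hE hx
  obtain ⟨d, hd⟩ := Nat.exists_eq_add_of_le (h.gen hq)
  have hanc : dyc v q.1 q.2 ⊆ dyc v n (anc d q.2) := by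
    rw [hd]; exact dyc_sub_anc v n d q.2
  have hxw := hanc hxq
  have hb : ∀ i, 1 ≤ anc d q.2 i ∧ anc d q.2 i ≤ 2 ^ n - 3 := by
    intro i
    obtain ⟨h5, h6⟩ := hxw i
    by_cases hi : i = k
    · subst hi
      have c1 : ((2 : ℤ) : ℝ) / 2 ^ n < ((anc d q.2 i + 1 : ℤ) : ℝ) / 2 ^ n := by
        push_cast; linarith
      have c2 : ((anc d q.2 i : ℤ) : ℝ) / 2 ^ n < ((2 ^ n - 3 : ℤ) : ℝ) / 2 ^ n := by
        push_cast; linarith
      rw [cast_div_lt] at c1 c2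
      omega
    · obtain ⟨h7, h8⟩ := h1 i hi
      have c1 : ((1 : ℤ) : ℝ) / 2 ^ n < ((anc d q.2 i + 1 : ℤ) : ℝ) / 2 ^ n := by
        push_cast; linarith
      have c2 : ((anc d q.2 i : ℤ) : ℝ) / 2 ^ n < ((2 ^ n - 2 : ℤ) : ℝ) / 2 ^ n := by
        push_cast; linarith
      rw [cast_div_lt] at c1 c2
      omega
  have hqn : q = (n, anc d q.2) := eq_of_sub h.part0 hq (h.tile hb) hanc
  have hg : e.1.1 = n := by rw [hE.1, hqn]
  have hk : k = e.2 := by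
    by_contra hk
    have := (Gr.mem_edge.1 hx).1 k hk
    rw [hg] at this
    exact h4 _ this
  subst hk
  obtain ⟨hx1, hx2, hx3⟩ := Gr.mem_edge.1 hx
  rw [hg] at hx1 hx2 hx3
  intro y hy
  obtain ⟨hy1, hy2, hy3⟩ := Gr.mem_edge.1 hy
  rw [hg] at hy1 hy2 hy3
  rw [core_eq]
  intro i
  by_cases hi : i = e.2
  · subst hi
    have c1 : ((2 : ℤ) : ℝ) / 2 ^ n < ((e.1.2 e.2 + 1 : ℤ) : ℝ) / 2 ^ n := by
      push_cast; linarith
    have c2 : ((e.1.2 e.2 : ℤ) : ℝ) / 2 ^ n < ((2 ^ n - 3 : ℤ) : ℝ) / 2 ^ n := by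
      push_cast; linarith
    rw [cast_div_lt] at c1 c2
    have c3 : ((2 : ℤ) : ℝ) / 2 ^ n ≤ ((e.1.2 e.2 : ℤ) : ℝ) / 2 ^ n := cast_div_le.2 (by omega)
    have c4 : ((e.1.2 e.2 + 1 : ℤ) : ℝ) / 2 ^ n ≤ ((2 ^ n - 3 : ℤ) : ℝ) / 2 ^ n :=
      cast_div_le.2 (by omega)
    push_cast at c3 c4
    push_cast
    constructor <;> linarith
  · obtain ⟨h7, h8⟩ := h1 i hi
    have e1 := hx1 i hi
    have e2 := hy1 i hi
    have c1 : ((1 : ℤ) : ℝ) / 2 ^ n < ((e.1.2 i : ℤ) : ℝ) / 2 ^ n := by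
      push_cast; linarith
    have c2 : ((e.1.2 i : ℤ) : ℝ) / 2 ^ n < ((2 ^ n - 2 : ℤ) : ℝ) / 2 ^ n := by
      push_cast; linarith
    rw [cast_div_lt] at c1 c2
    have c3 : ((2 : ℤ) : ℝ) / 2 ^ n ≤ ((e.1.2 i : ℤ) : ℝ) / 2 ^ n := cast_div_le.2 (by omega)
    have c4 : ((e.1.2 i : ℤ) : ℝ) / 2 ^ n ≤ ((2 ^ n - 3 : ℤ) : ℝ) / 2 ^ n :=
      cast_div_le.2 (by omega)
    rw [e2]
    constructor <;> linarith

theorem q7 (h : Dat v n m) {e : Idx × Fin 3} (he : e ∈ OE v n) :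
    edge v e ⊆ Q1 ∧ n ≤ e.1.1 ∧ ∀ x ∈ edge v e, Away v n x := by
  obtain ⟨⟨q, hq, hE⟩, -⟩ := id he
  refine ⟨(Gr.edge_subset_dyc hE).trans (h.part0.sub q hq), ?_, fun x hx => awayK h 2 he hx⟩
  rw [hE.1]
  exact h.gen hq

theorem q7fin (h : Dat v n m) {K : Set V} (hK : K ⊆ Q1) (hKc : IsCompact K) :
    {e | e ∈ OE v n ∧ (edge v e ∩ K).Nonempty}.Finite := by
  refine (Gr.finite_edges h.part0 hK hKc).subset ?_
  rintro e ⟨⟨he, -⟩, hne⟩
  exact ⟨he, hne⟩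

end G308

open G308 in
open MeasureTheory Set in
open scoped ENNReal in
/-- **(GEOQ)** -/
theorem specGeoQ : SpecGeoQ := by
  refine ⟨18, by norm_num, ?_⟩
  intro v n m hn hm hv
  have h : Dat v n m := ⟨hv, hn, hm⟩
  obtain ⟨d, rfl⟩ := Nat.exists_eq_add_of_le h.lt.le
  have hd : 2 ≤ d := by omega
  have h12 : (12 : ℝ≥0∞) ≤ ENNReal.ofReal 18 := by
    rw [show (12 : ℝ≥0∞) = ENNReal.ofReal 12 by simp]
    exact ENNReal.ofReal_le_ofReal (by norm_num)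
  refine ⟨isOpen_Q1, h.part, newP_sub_newI, G308.union_newP hn hd,
    fun q hq => ((mem_newP_iff hd).1 hq).2, ?_,
    fun q _ hqO s hs hsub hc => q2 h hqO hs hsub hc,
    fun q _ hqO s hs hsub hc => q3 h hqO hs hsub hc,
    fun q hq hqO => q4 h hq hqO, ?_, ?_, ?_, (q6c h).1, ?_,
    fun e he => q7 h he, fun K hK hKc => q7fin h hK hKc⟩
  · rw [G308.union_newP hn hd]
    refine (volume_rest h hd).trans (ENNReal.ofReal_le_ofReal ?_)
    have e1 : (2:ℝ) ^ n / 2 ^ (n + d) = 1 / 2 ^ d := by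
      rw [pow_add]; field_simp
    rw [e1]
    have c1 : (0:ℝ) ≤ 1 / 2 ^ n := by positivity
    have c2 : (0:ℝ) ≤ 1 / 2 ^ d := by positivity
    have c3 : (15:ℝ) / 2 ^ n = 15 * (1 / 2 ^ n) := by ring
    have c4 : (2:ℝ) / 2 ^ d = 2 * (1 / 2 ^ d) := by ring
    rw [c3, c4]
    linarith
  · intro g
    refine (q5 h isOpen_Q1 h.part newP_sub_newI g).trans ?_
    gcongr
  · refine (q6a h isOpen_Q1 h.part newP_sub_newI).trans ?_
    rw [ENNReal.ofReal_mul (by norm_num), ENNReal.ofReal_pow (by norm_num)]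
    have : ENNReal.ofReal 4 = 4 := by simp
    rw [this]
    gcongr
  · refine (q6b h isOpen_Q1 h.part newP_sub_newI).trans ?_
    rw [ENNReal.ofReal_mul (by norm_num), ENNReal.ofReal_mul (by positivity),
      ENNReal.ofReal_pow (by norm_num), ENNReal.ofReal_pow (by norm_num)]
    have : ENNReal.ofReal 4 = 4 := by simp
    rw [this]
    have : ENNReal.ofReal 2 = 2 := by simp
    rw [this]
    gcongr
  · have := (q6c h).2
    have h3 : ((TE v n).ncard : ℝ) ≤ ((18 * 4 ^ n : ℕ) : ℝ) := by exact_mod_cast this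
    refine h3.trans (le_of_eq ?_)
    push_cast
    ring

end Vale.Agent.P073.LOC
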