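import Vale.Agent.P073.LOC.Geo308b

/-!
# P073, block LOC, cell geometry (helper308): multiplicity and counting, (Q5), (Q6)
-/

namespace Vale.Agent.P073.LOC.G308

open MeasureTheory Set Filter Topology Metric Vale.Agent.P073.St
open Vale.Agent.P073.SQ (ev cube Cells)
open Vale.Agent.P073.AB
open Vale.Agent.P073.AB.S308
open P073.Net (IsTile dyc dyo SizeFn)
open P073.Net.NC (dyA dyB fine_sub fine_sub' dist_le)
open P86
open scoped ContDiff ENNReal

variable {v : V} {n m : ℕ} {w z : Fin 3 → ℤ} {x : V}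

/-- multiplicity: general form -/
theorem mult_gen {Ω : Set V} {I P : Set Idx} (hΩ : IsOpen Ω) (hI : Part Ω v I) (hP : P ⊆ I)
    (pI : (P86.cells hΩ hI hP).ι → Prop) (pT : (P86.cells hΩ hI hP).κ → Prop) [DecidablePred pT]
    (E : Set (Idx × Fin 3))
    (hE : ∀ i t, pI i → t ∈ (P86.cells hΩ hI hP).bd i → pT t → ∀ e ∈ sqE t.1, e ∈ E)
    (g : Idx × Fin 3 → ℝ≥0∞) :
    ∑' i : {i : (P86.cells hΩ hI hP).ι // pI i},
          ∑ t ∈ ((P86.cells hΩ hI hP).bd i.1).filter pT, ∑ e ∈ sqE t.1, g e ≤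
        12 * ∑' e : E, g e.1 := by
  classical
  have e1 : ∀ i : {i : (P86.cells hΩ hI hP).ι // pI i},
      ∑ t ∈ ((P86.cells hΩ hI hP).bd i.1).filter pT, ∑ e ∈ sqE t.1, g e =
        ∑' x : Σ t : {t // t ∈ ((P86.cells hΩ hI hP).bd i.1).filter pT},
          {e // e ∈ sqE t.1.1}, g x.2.1 := by
    intro i
    rw [ENNReal.tsum_sigma' (fun x : Σ t : {t // t ∈ ((P86.cells hΩ hI hP).bd i.1).filter pT},
      {e // e ∈ sqE t.1.1} => g x.2.1)]
    rw [← Finset.tsum_subtype (((P86.cells hΩ hI hP).bd i.1).filter pT)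
      (fun t => ∑ e ∈ sqE t.1, g e)]
    refine tsum_congr fun t => ?_
    exact (Finset.tsum_subtype (sqE t.1.1) g).symm
  rw [tsum_congr e1, ← ENNReal.tsum_sigma' (fun x : Σ i : {i : (P86.cells hΩ hI hP).ι //
    pI i}, Σ t : {t // t ∈ ((P86.cells hΩ hI hP).bd i.1).filter pT},
      {e // e ∈ sqE t.1.1} => g x.2.2.1)]
  have hbd : ∀ (i : (P86.cells hΩ hI hP).ι) (t : (P86.cells hΩ hI hP).κ),
      t ∈ ((P86.cells hΩ hI hP).bd i).filter pT → squ v t.1 ⊆ dyc v i.1.1 i.1.2 := by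
    intro i t ht
    exact (Set.Finite.mem_toFinset _).1 (Finset.mem_filter.1 ht).1
  let F : (Σ i : {i : (P86.cells hΩ hI hP).ι // pI i},
      Σ t : {t // t ∈ ((P86.cells hΩ hI hP).bd i.1).filter pT}, {e // e ∈ sqE t.1.1}) →
      E × (Fin 3 × Bool × Bool) := fun x =>
    (⟨x.2.2.1, hE x.1.1 x.2.1.1 x.1.2 (Finset.mem_filter.1 x.2.1.2).1
        (Finset.mem_filter.1 x.2.1.2).2 _ x.2.2.2⟩,
      (x.2.1.1.1.2, decide (x.2.1.1.1.1 = x.2.2.1.1),
        decide (dyc v x.2.1.1.1.1.1 x.2.1.1.1.1.2 ⊆ dyc v x.1.1.1.1 x.1.1.1.2)))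
  have hF : Function.Injective F := by
    rintro ⟨⟨⟨q, hq⟩, hqT⟩, ⟨⟨s, hs⟩, hsb⟩, ⟨e, he⟩⟩ ⟨⟨⟨q', hq'⟩, hqT'⟩, ⟨⟨s', hs'⟩, hsb'⟩, ⟨e', he'⟩⟩ heq
    simp only [F, Prod.mk.injEq, Subtype.mk.injEq, decide_eq_decide] at heq
    obtain ⟨h1, h2, h3, h4⟩ := heq
    subst h1
    have he2 := mem_sqE.1 he
    have he2' := mem_sqE.1 he'
    have hss : s = s' := sq_unique he2 he2' h2 h3
    subst hss
    have hqq : q = q' := cube_unique hΩ hI hs.1 hq.1 hq'.1 (hbd _ _ hsb) (hbd _ _ hsb') h4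
    subst hqq
    rfl
  calc ∑' x : (Σ i : {i : (P86.cells hΩ hI hP).ι // pI i},
        Σ t : {t // t ∈ ((P86.cells hΩ hI hP).bd i.1).filter pT}, {e // e ∈ sqE t.1.1}), g x.2.2.1
      = ∑' x, (fun y : E × (Fin 3 × Bool × Bool) => g y.1.1) (F x) := rfl
    _ ≤ ∑' y : E × (Fin 3 × Bool × Bool), g y.1.1 :=
        ENNReal.tsum_comp_le_tsum_of_injective hF _
    _ = ∑' (e : E) (_ : Fin 3 × Bool × Bool), g e.1 :=
        ENNReal.tsum_prod (f := fun (e : E) (_ : Fin 3 × Bool × Bool) => g e.1)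
    _ = ∑' e : E, 12 * g e.1 := by
        refine tsum_congr fun e => ?_
        rw [tsum_fintype, Finset.sum_const]
        simp [Fintype.card_prod]
    _ = 12 * ∑' e : E, g e.1 := ENNReal.tsum_mul_left

/-- number of pairs (cube, square): general form -/
theorem count_gen {Ω : Set V} {I P : Set Idx} (hΩ : IsOpen Ω) (hI : Part Ω v I) (hP : P ⊆ I)
    (pI : (P86.cells hΩ hI hP).ι → Prop) (pT : (P86.cells hΩ hI hP).κ → Prop) [DecidablePred pT]
    (S : Finset (Idx × Fin 3))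
    (hS : ∀ i t, pI i → t ∈ (P86.cells hΩ hI hP).bd i → pT t → t.1 ∈ S) :
    ∑' i : {i : (P86.cells hΩ hI hP).ι // pI i},
        ((((P86.cells hΩ hI hP).bd i.1).filter pT).card : ℝ≥0∞) ≤ 2 * (S.card : ℝ≥0∞) := by
  classical
  have e1 : ∀ i : {i : (P86.cells hΩ hI hP).ι // pI i},
      ((((P86.cells hΩ hI hP).bd i.1).filter pT).card : ℝ≥0∞) =
        ∑' _ : {t // t ∈ ((P86.cells hΩ hI hP).bd i.1).filter pT}, (1:ℝ≥0∞) := by
    intro i
    rw [Finset.tsum_subtype (((P86.cells hΩ hI hP).bd i.1).filter pT) (fun _ => (1:ℝ≥0∞))]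
    simp
  rw [tsum_congr e1, ← ENNReal.tsum_sigma' (fun _ : Σ i : {i : (P86.cells hΩ hI hP).ι //
    pI i}, {t // t ∈ ((P86.cells hΩ hI hP).bd i.1).filter pT} => (1:ℝ≥0∞))]
  have hbd : ∀ (i : (P86.cells hΩ hI hP).ι) (t : (P86.cells hΩ hI hP).κ),
      t ∈ ((P86.cells hΩ hI hP).bd i).filter pT → squ v t.1 ⊆ dyc v i.1.1 i.1.2 := by
    intro i t ht
    exact (Set.Finite.mem_toFinset _).1 (Finset.mem_filter.1 ht).1
  let F : (Σ i : {i : (P86.cells hΩ hI hP).ι // pI i},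
      {t // t ∈ ((P86.cells hΩ hI hP).bd i.1).filter pT}) → {s // s ∈ S} × Bool := fun x =>
    (⟨x.2.1.1, hS x.1.1 x.2.1 x.1.2 (Finset.mem_filter.1 x.2.2).1 (Finset.mem_filter.1 x.2.2).2⟩,
      decide (dyc v x.2.1.1.1.1 x.2.1.1.1.2 ⊆ dyc v x.1.1.1.1 x.1.1.1.2))
  have hF : Function.Injective F := by
    rintro ⟨⟨⟨q, hq⟩, hqT⟩, ⟨⟨s, hs⟩, hsb⟩⟩ ⟨⟨⟨q', hq'⟩, hqT'⟩, ⟨⟨s', hs'⟩, hsb'⟩⟩ heq
    simp only [F, Prod.mk.injEq, Subtype.mk.injEq, decide_eq_decide] at heq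
    obtain ⟨h1, h4⟩ := heq
    subst h1
    have hqq : q = q' := cube_unique hΩ hI hs.1 hq.1 hq'.1 (hbd _ _ hsb) (hbd _ _ hsb') h4
    subst hqq
    rfl
  calc ∑' _ : (Σ i : {i : (P86.cells hΩ hI hP).ι // pI i},
        {t // t ∈ ((P86.cells hΩ hI hP).bd i.1).filter pT}), (1:ℝ≥0∞)
      = ∑' x, (fun _ : {s // s ∈ S} × Bool => (1:ℝ≥0∞)) (F x) := rfl
    _ ≤ ∑' _ : {s // s ∈ S} × Bool, (1:ℝ≥0∞) :=
        ENNReal.tsum_comp_le_tsum_of_injective hF _
    _ = 2 * (S.card : ℝ≥0∞) := by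
        rw [tsum_fintype, Finset.sum_const, Finset.card_univ, Fintype.card_prod, Fintype.card_coe,
          Fintype.card_bool, nsmul_eq_mul, mul_one]
        push_cast
        ring

/-- the core in the grid of generation `n + d` -/
theorem core_fine (v : V) (n d : ℕ) : core v n =
    gbox v (n + d) (fun _ => 2 * 2 ^ d) (fun _ => (2 ^ n - 3) * 2 ^ d) := by
  rw [core_eq, gbox_refine v n d (fun _ => 2) (fun _ => 2 ^ n - 3)]

/-- the squares of generation `g` in the frontier of a grid box -/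
theorem frontier_squares {g : ℕ} {a b : Fin 3 → ℤ} {s : Idx × Fin 3} (hg : s.1.1 = g)
    (hc : squ v s ⊆ gbox v g a b) (hd : sc v s ∉ obox v g a b) :
    s ∈ (Finset.univ : Finset (Fin 3)).biUnion fun κ =>
      (slab κ {a κ, b κ} (fun k => Finset.Ico (a k) (b k))).image
        (fun w' => (((g, w'), κ) : Idx × Fin 3)) := by
  subst hg
  have hp : (0:ℝ) < 1 / 2 ^ s.1.1 := by positivity
  have h1 : (fun k => v k + s.1.2 k / 2 ^ s.1.1 : V) ∈ squ v s :=
    ⟨rfl, fun j _ => ⟨le_rfl, by rw [P86.div_add_one]; linarith⟩⟩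
  have h2 : (fun k => if k = s.2 then v k + s.1.2 k / 2 ^ s.1.1 else
      v k + (s.1.2 k + 1) / 2 ^ s.1.1 : V) ∈ squ v s := by
    refine ⟨by simp, fun j hj => ?_⟩
    simp only [if_neg hj]
    exact ⟨by rw [P86.div_add_one]; linarith, le_rfl⟩
  have a1 := hc h1
  have a2 := hc h2
  have hplane : a s.2 ≤ s.1.2 s.2 ∧ s.1.2 s.2 ≤ b s.2 := by
    have := a1 s.2
    simp only [add_le_add_iff_left] at this
    exact ⟨cast_div_le.1 this.1, cast_div_le.1 this.2⟩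
  have hoth : ∀ l, l ≠ s.2 → a l ≤ s.1.2 l ∧ s.1.2 l < b l := by
    intro l hl
    have b1 := (a1 l).1
    have b2 := (a2 l).2
    simp only [if_neg hl] at b2
    simp only [add_le_add_iff_left] at b1 b2
    have b3 : ((s.1.2 l + 1 : ℤ) : ℝ) / 2 ^ s.1.1 ≤ (b l : ℝ) / 2 ^ s.1.1 := by
      push_cast; exact b2
    refine ⟨cast_div_le.1 b1, ?_⟩
    have := cast_div_le.1 b3
    omega
  rw [Finset.mem_biUnion]
  refine ⟨s.2, Finset.mem_univ _, Finset.mem_image.2 ⟨s.1.2, mem_slab.2 ⟨?_, fun k hk => ?_⟩,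
    Prod.ext (Prod.ext rfl rfl) rfl⟩⟩
  · simp only [Finset.mem_insert, Finset.mem_singleton]
    by_contra hcon
    push Not at hcon
    apply hd
    intro k
    by_cases hk : k = s.2
    · subst hk
      have e : sc v s s.2 = v s.2 + s.1.2 s.2 / 2 ^ s.1.1 := by simp [sc]
      rw [e, add_lt_add_iff_left, add_lt_add_iff_left, cast_div_lt, cast_div_lt]
      omega
    · obtain ⟨c1, c2⟩ := hoth k hk
      obtain ⟨d1, d2⟩ := (sc_mem (v := v) (s := s)).2 k hk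
      have f1 : (a k : ℝ) / 2 ^ s.1.1 ≤ s.1.2 k / 2 ^ s.1.1 := cast_div_le.2 c1
      have f2 : ((s.1.2 k : ℝ) + 1) / 2 ^ s.1.1 ≤ b k / 2 ^ s.1.1 := by
        have : ((s.1.2 k + 1 : ℤ) : ℝ) / 2 ^ s.1.1 ≤ b k / 2 ^ s.1.1 := cast_div_le.2 (by omega)
        push_cast at this
        exact this
      constructor <;> linarith
  · rw [Finset.mem_Ico]
    exact hoth k hk

theorem card_frontier_squares {g A : ℕ} {a b : Fin 3 → ℤ} (hab : ∀ k, b k - a k ≤ A) :
    ((Finset.univ : Finset (Fin 3)).biUnion fun κ =>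
      (slab κ {a κ, b κ} (fun k => Finset.Ico (a k) (b k))).image
        (fun w' => (((g, w'), κ) : Idx × Fin 3))).card ≤ 6 * A ^ 2 := by
  refine Finset.card_biUnion_le.trans ?_
  calc _ ≤ ∑ _κ : Fin 3, 2 * A ^ 2 := by
        refine Finset.sum_le_sum fun κ _ => ?_
        refine Idx_card_image _ _ (card_slab Finset.card_le_two fun k => ?_)
        rw [Int.card_Ico]
        have := hab k
        omega
    _ = 6 * A ^ 2 := by
        rw [Finset.sum_const, Finset.card_univ, Fintype.card_fin, smul_eq_mul]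
        ring

section

variable (h : Dat v n m) (hQ : IsOpen Q1) (hI : Part Q1 v (LOC.newI v n m))
  (hP : newP v n m ⊆ LOC.newI v n m)

include h

theorem bd_sub_dyc (i : (P86.cells hQ hI hP).ι) (t : (P86.cells hQ hI hP).κ)
    (ht : t ∈ (P86.cells hQ hI hP).bd i) : squ v t.1 ⊆ dyc v i.1.1 i.1.2 :=
  (Set.Finite.mem_toFinset _).1 ht

open Classical in
/-- (Q5) -/
theorem q5 (g : Idx × Fin 3 → ℝ≥0∞) :
    ∑' i : {i : (P86.cells hQ hI hP).ι // i.1 ∈ IO v n},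
          ∑ t ∈ ((P86.cells hQ hI hP).bd i.1).filter (fun t => ¬ squ v t.1 ⊆ core v n),
            ∑ e ∈ sqE t.1, g e ≤
        12 * ∑' e : ↥(OE v n ∪ TE v n), g e.1 :=
  mult_gen hQ hI hP (fun i => i.1 ∈ IO v n) (fun t => ¬ squ v t.1 ⊆ core v n) _
    (fun i t hi ht hc => (q2 h hi t.2.1 (bd_sub_dyc h hQ hI hP i t ht) hc).2.2.2) g

open Classical in
/-- (Q6), first part -/
theorem q6a : ∑' i : {i : (P86.cells hQ hI hP).ι // i.1 ∈ IO v n},
        ((((P86.cells hQ hI hP).bd i.1).filter (fun t => squ v t.1 ⊆ core v n)).card : ℝ≥0∞) ≤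
          12 * 4 ^ m := by
  obtain ⟨d, hd⟩ := Nat.exists_eq_add_of_le h.lt.le
  have hcore : core v n = gbox v m (fun _ => 2 * 2 ^ d) (fun _ => (2 ^ n - 3) * 2 ^ d) := by
    rw [core_fine v n d, ← hd]
  refine (count_gen hQ hI hP (fun i => i.1 ∈ IO v n) (fun t => squ v t.1 ⊆ core v n)
    ((Finset.univ : Finset (Fin 3)).biUnion fun κ =>
      (slab κ {2 * 2 ^ d, (2 ^ n - 3) * 2 ^ d}
        (fun _ => Finset.Ico (2 * 2 ^ d) ((2 ^ n - 3) * 2 ^ d))).image
        (fun w' => (((m, w'), κ) : Idx × Fin 3))) (fun i t hi ht hc => ?_)).trans ?_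
  · have hsub := bd_sub_dyc h hQ hI hP i t ht
    obtain ⟨h1, h2, -⟩ := q3 h hi t.2.1 hsub hc
    refine frontier_squares (v := v) (a := fun _ => 2 * 2 ^ d) (b := fun _ => (2 ^ n - 3) * 2 ^ d) h2 ?_ ?_
    · rw [← hcore]; exact hc
    · intro hx
      refine Set.disjoint_left.1 (IO_disj h hi) (hsub sc_mem_squ) ?_
      rw [hcore, interior_gbox]
      exact hx
  · have hc := card_frontier_squares (g := m) (A := 2 ^ m) (a := fun _ => 2 * 2 ^ d)
      (b := fun _ => (2 ^ n - 3) * 2 ^ d) (fun k => by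
        rw [hd]; push_cast; rw [pow_add]
        have : (0:ℤ) < 2 ^ d := by positivity
        nlinarith)
    have hc' : (((Finset.univ : Finset (Fin 3)).biUnion fun κ =>
      (slab κ {2 * 2 ^ d, (2 ^ n - 3) * 2 ^ d}
        (fun _ => Finset.Ico (2 * 2 ^ d) ((2 ^ n - 3) * 2 ^ d))).image
        (fun w' => (((m, w'), κ) : Idx × Fin 3))).card : ℝ≥0∞) ≤ ((6 * (2 ^ m) ^ 2 : ℕ) : ℝ≥0∞) := by
      exact_mod_cast hc
    calc _ ≤ 2 * ((6 * (2 ^ m) ^ 2 : ℕ) : ℝ≥0∞) := by gcongr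
      _ = 12 * 4 ^ m := by
        push_cast
        rw [← pow_mul, mul_comm m 2, pow_mul, ← mul_assoc]
        norm_num

/-- the layer cubes -/
noncomputable def layers (n d : ℕ) : Finset (Fin 3 → ℤ) :=
  (Finset.Ico (0:ℤ) (2 ^ n)).biUnion fun z =>
    slab 2 {z * 2 ^ d, z * 2 ^ d + 2 ^ d - 1} (fun _ => Finset.Ico (0:ℤ) (2 ^ (n + d)))

omit h in
theorem card_layers (n d : ℕ) : (layers n d).card ≤ 2 * (2 ^ n * 4 ^ (n + d)) := by
  refine Finset.card_biUnion_le.trans ?_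
  calc _ ≤ ∑ _z ∈ Finset.Ico (0:ℤ) (2 ^ n), 2 * (2 ^ (n + d)) ^ 2 := by
        refine Finset.sum_le_sum fun z _ => card_slab Finset.card_le_two fun k => ?_
        rw [Int.card_Ico, sub_zero]
        have : (2 ^ (n + d) : ℤ) = ((2 ^ (n + d) : ℕ) : ℤ) := by push_cast; rfl
        rw [this, Int.toNat_natCast]
    _ = 2 * (2 ^ n * 4 ^ (n + d)) := by
        have : (2 ^ n : ℤ) = ((2 ^ n : ℕ) : ℤ) := by push_cast; rfl
        rw [Finset.sum_const, Int.card_Ico, sub_zero, this, Int.toNat_natCast, smul_eq_mul,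
          ← pow_mul, mul_comm (n + d) 2, pow_mul]
        norm_num
        ring

theorem mem_layers {d : ℕ} (hd : m = n + d) {q : Idx} (hq : q ∈ IC v n m)
    (hqP : q ∉ newP v n m) : q.2 ∈ layers n d := by
  have h8 := h.eight
  obtain ⟨m', w⟩ := q
  obtain ⟨h1, h2⟩ := hq
  simp only at h1 h2
  subst h1
  have hp : (0:ℤ) < 2 ^ d := by positivity
  have h2' := h2
  rw [core_fine v n d, hd, dyc_sub_gbox_iff] at h2'
  have hdiv : (2 ^ d : ℤ) ∣ w 2 ∨ (2 ^ d : ℤ) ∣ w 2 + 1 := by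
    by_contra hcon
    push Not at hcon
    apply hqP
    refine ⟨⟨rfl, h2⟩, ?_, ?_⟩
    · rw [hd, Nat.add_sub_cancel_left]; exact hcon.1
    · rw [hd, Nat.add_sub_cancel_left]; exact hcon.2
  have hbnd : ∀ k, 0 ≤ w k ∧ w k < 2 ^ (n + d) := by
    intro k
    obtain ⟨h3, h4⟩ := h2' k
    rw [pow_add]
    constructor
    · nlinarith
    · nlinarith
  simp only [layers, Finset.mem_biUnion, Finset.mem_Ico]
  rcases hdiv with ⟨z, hz⟩ | ⟨z, hz⟩
  · refine ⟨z, ⟨?_, ?_⟩, mem_slab.2 ⟨?_, fun k _ => Finset.mem_Ico.2 (hbnd k)⟩⟩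
    · have := (hbnd 2).1; rw [hz] at this
      exact nonneg_of_mul_nonneg_right this hp
    · have := (hbnd 2).2; rw [hz, pow_add, mul_comm (2 ^ n : ℤ)] at this
      exact lt_of_mul_lt_mul_left this hp.le
    · simp only [Finset.mem_insert, Finset.mem_singleton]
      left; rw [hz]; ring
  · refine ⟨z - 1, ⟨?_, ?_⟩, mem_slab.2 ⟨?_, fun k _ => Finset.mem_Ico.2 (hbnd k)⟩⟩
    · have := (hbnd 2).1
      have h5 : (0:ℤ) < 2 ^ d * z := by omega
      have := pos_of_mul_pos_right h5 hp.le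
      omega
    · have := (hbnd 2).2
      have h5 : (2 ^ d : ℤ) * z ≤ 2 ^ d * 2 ^ n := by
        rw [← hz, pow_add, mul_comm (2 ^ n : ℤ)] at *
        omega
      have := le_of_mul_le_mul_left h5 hp
      omega
    · simp only [Finset.mem_insert, Finset.mem_singleton]
      right
      have : (z - 1) * 2 ^ d + 2 ^ d = 2 ^ d * z := by ring
      omega

open Classical in
/-- (Q6), second part -/
theorem q6b : ∑' i : {i : (P86.cells hQ hI hP).ι // i.1 ∉ IO v n},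
        (((P86.cells hQ hI hP).bd i.1).card : ℝ≥0∞) ≤ 12 * (2 ^ n * 4 ^ m) := by
  obtain ⟨d, hd⟩ := Nat.exists_eq_add_of_le h.lt.le
  have hIC : ∀ i : {i : (P86.cells hQ hI hP).ι // i.1 ∉ IO v n}, i.1.1 ∈ IC v n m :=
    fun i => i.1.2.1.resolve_left i.2
  have h6 : ∀ i : {i : (P86.cells hQ hI hP).ι // i.1 ∉ IO v n},
      (((P86.cells hQ hI hP).bd i.1).card : ℝ≥0∞) ≤ 6 := by
    intro i
    have hi := hIC i
    have hc : ((P86.cells hQ hI hP).bd i.1).card ≤ 6 * 4 ^ 0 := by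
      refine le_trans ?_ (card_squares m 0 i.1.1.2)
      refine Finset.card_le_card_of_injOn (fun t => t.1) ?_ (Subtype.val_injective.injOn)
      intro t ht
      rw [Finset.mem_coe] at ht
      have hsub := bd_sub_dyc h hQ hI hP i.1 t ht
      have hs1 : t.1.1.1 = m := ((q4 h i.1.2 i.2).2 t.1 t.2.1 hsub).1
      have hmem : ((m, i.1.1.2) : Idx) ∈ LOC.newI v n m := by
        have : ((m, i.1.1.2) : Idx) = i.1.1 := Prod.ext hi.1.symm rfl
        rw [this]; exact i.1.2.1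
      refine squares_in_bd hI hmem t.2.1 (by rw [hs1, add_zero]) ?_
      rw [hi.1] at hsub
      exact hsub
    have : (((P86.cells hQ hI hP).bd i.1).card : ℝ≥0∞) ≤ ((6 * 4 ^ 0 : ℕ) : ℝ≥0∞) := by
      exact_mod_cast hc
    simpa using this
  let F : {i : (P86.cells hQ hI hP).ι // i.1 ∉ IO v n} → {w // w ∈ layers n d} := fun i =>
    ⟨i.1.1.2, mem_layers h hd (hIC i) i.1.2.2⟩
  have hF : Function.Injective F := by
    intro i j hij
    have h1 : i.1.1.2 = j.1.1.2 := congrArg Subtype.val hij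
    have h2 : i.1.1.1 = j.1.1.1 := (hIC i).1.trans (hIC j).1.symm
    exact Subtype.ext (Subtype.ext (Prod.ext h2 h1))
  calc _ ≤ ∑' i : {i : (P86.cells hQ hI hP).ι // i.1 ∉ IO v n}, (6:ℝ≥0∞) :=
        ENNReal.tsum_le_tsum h6
    _ = ∑' i, (fun _ : {w // w ∈ layers n d} => (6:ℝ≥0∞)) (F i) := rfl
    _ ≤ ∑' _ : {w // w ∈ layers n d}, (6:ℝ≥0∞) := ENNReal.tsum_comp_le_tsum_of_injective hF _
    _ = (layers n d).card * 6 := by
        rw [tsum_fintype, Finset.sum_const, Finset.card_univ, Fintype.card_coe, nsmul_eq_mul]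
    _ ≤ ((2 * (2 ^ n * 4 ^ (n + d)) : ℕ) : ℝ≥0∞) * 6 := by
        gcongr
        exact card_layers n d
    _ = 12 * (2 ^ n * 4 ^ m) := by
        rw [hd]; push_cast; ring

omit h in
/-- (Q6), third part -/
theorem q6c (h : Dat v n m) : (TE v n).Finite ∧ (TE v n).ncard ≤ 18 * 4 ^ n := by
  have h8 := h.eight
  set S : Finset (Idx × Fin 3) := (Finset.univ : Finset (Fin 3)).biUnion fun j =>
    (Finset.univ : Finset (Fin 3)).biUnion fun κ =>
      (slab κ {2, 2 ^ n - 3} (fun _ => Finset.Icc (2:ℤ) (2 ^ n - 3))).image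
        (fun w' => (((n, w'), j) : Idx × Fin 3)) with hS
  have hsub : TE v n ⊆ (S : Set (Idx × Fin 3)) := by
    rintro e ⟨hg, hfr⟩
    have h1 : pt v n e.1.2 ∈ edge v e := by
      rw [← hg]; exact pt_mem_edge e
    have h2 := hfr h1
    rw [core_eq, frontier_gbox] at h2
    obtain ⟨h3, h4⟩ := h2
    rw [pt_mem_gbox] at h3
    rw [pt_mem_obox] at h4
    push Not at h4
    obtain ⟨κ, hκ⟩ := h4
    rw [Finset.mem_coe, hS, Finset.mem_biUnion]
    refine ⟨e.2, Finset.mem_univ _, ?_⟩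
    rw [Finset.mem_biUnion]
    refine ⟨κ, Finset.mem_univ _, ?_⟩
    rw [Finset.mem_image]
    refine ⟨e.1.2, mem_slab.2 ⟨?_, fun k _ => Finset.mem_Icc.2 (h3 k)⟩,
      Prod.ext (Prod.ext hg.symm rfl) rfl⟩
    simp only [Finset.mem_insert, Finset.mem_singleton]
    obtain ⟨c1, c2⟩ := h3 κ
    by_cases h5 : 2 < e.1.2 κ
    · right
      exact le_antisymm c2 (hκ h5)
    · left; omega
  refine ⟨(Finset.finite_toSet S).subset hsub, ?_⟩
  refine (Set.ncard_le_ncard hsub (Finset.finite_toSet S)).trans ?_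
  rw [Set.ncard_coe_finset]
  refine Finset.card_biUnion_le.trans ?_
  calc _ ≤ ∑ _j : Fin 3, ∑ _κ : Fin 3, 2 * (2 ^ n) ^ 2 := by
        refine Finset.sum_le_sum fun j _ => ?_
        refine Finset.card_biUnion_le.trans (Finset.sum_le_sum fun κ _ => ?_)
        refine Idx_card_image _ _ (card_slab Finset.card_le_two fun k => ?_)
        rw [Int.card_Icc]
        have : (2 ^ n : ℤ) = ((2 ^ n : ℕ) : ℤ) := by push_cast; rfl
        omega
    _ = 18 * 4 ^ n := by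
        simp only [Finset.sum_const, Finset.card_univ, Fintype.card_fin, smul_eq_mul]
        rw [← pow_mul, mul_comm n 2, pow_mul]
        norm_num
        ring

end

end Vale.Agent.P073.LOC.G308
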