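import Vale.Agent.P073.LOC.CollSpec
import Vale.Agent.P073.LOC865.Spec
import Vale.Agent.P073.LOC560.En
import Vale.Agent.P073.Spec.Gauge
import Vale.Agent.P073.Net.NearDefs

/-!
# P073, block LOC: the reference file

* `LOC/Spec752.lean`  : `Near`, `LocThm`, `core`, `mid`, `Sec`, `SpecSec`, `SpecLoc3D`
* `LOC/Defs752.lean`  : the partition `newI v n m`, `SpecGeoQ` (owner 308)
* `LOC/CollSpec.lean` : split of `SpecLoc3D`: `SpecCollOut` (752), `SpecSumQ` (293)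
* `LOC865/Spec.lean`  : `Net1`, `SpecNet1`, `SpecColl1` (865)
* `LOC560/*`          : `Org`, `exists_org`: the choice of the origin
* `LOC/Strips.lean`   : the collapse of many strips in any direction

Here:

* `SpecGaugeH`, `SpecGaugeHOf`: a diffeomorphism which approximates `f` on the edges of a
  partition, from NET and SM (owner 894);
* `SpecNetOf`: `SpecNet1` from `Org`, `SpecPartQ`, `SpecGaugeH` (owner 114);
* `specLoc1_of`, `specLoc2_of`: the bridge to `RED/Spec.lean`.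
-/

namespace Vale.Agent.P073.LOC

open MeasureTheory Set Filter Topology Metric Vale.Agent.P073.St
open Vale.Agent.P073.SQ (ev cube Cells)
open Vale.Agent.P073.AB (cl Idx pt edge eInt squ tiles EdgeOf Part RatGood)
open P073.Net (IsTile dyc dyo SizeFn)
open scoped ContDiff ENNReal

/-- (PQ) the partition of the cube (part of `SpecGeoQ`, owner 308) -/
def SpecPartQ : Prop :=
  ∀ (v : V) (n m : ℕ), 3 ≤ n → n + 2 ≤ m → (∀ i, 0 ≤ v i ∧ v i < 1 / 2 ^ n) →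
    Part Q1 v (newI v n m)

theorem specPartQ_of (h : SpecGeoQ) : SpecPartQ := by
  obtain ⟨C, -, H⟩ := h
  intro v n m hn hm hv
  obtain ⟨_, hI, _⟩ := H v n m hn hm hv
  exact hI

/-! ## Diffeomorphisms which approximate `f` on the edges of a partition -/

/-- (GH) NET and smoothing, no plates: `G` approximates `f` uniformly with any positive continuous
accuracy `σ`, and in energy on the edges of the partition `I` -/
def SpecGaugeH : Prop :=
  ∀ (p : ℝ) (Ω Λ : Set V) (f : V → V) (F : V → Mat) (v : V) (I : Set Idx), 1 ≤ p → p < 2 →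
    IsBoundedDomain Ω → IsBoundedDomain Λ → IsHomeo Ω Λ f → IsSobolev p Ω f F →
    RatGood v Ω f F → Part Ω v I →
    (∀ e : Idx × Fin 3, (∃ q ∈ I, EdgeOf e q) →
      eInt v e (fun x => ENNReal.ofReal (‖cl (F x) (ev e.2)‖ ^ p)) ≠ ⊤) →
    ∀ δ : Idx × Fin 3 → ℝ, (∀ e, 0 < δ e) → ∀ σ : V → ℝ, ContinuousOn σ Ω → (∀ x ∈ Ω, 0 < σ x) →
    ∃ G : V → V, IsDiffeo Ω Λ G ∧ (∀ x ∈ Ω, ‖G x - f x‖ ≤ σ x) ∧
      ∀ e : Idx × Fin 3, (∃ q ∈ I, EdgeOf e q) →
        eInt v e (fun x => ENNReal.ofReal (‖fderiv ℝ G x (ev e.2) - cl (F x) (ev e.2)‖ ^ p)) ≤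
          ENNReal.ofReal (δ e)

/-- (GH-of) owner 894 -/
def SpecGaugeHOf : Prop :=
  P073.Top.NetOutN → AB.SpecGraph → P073.Gauge.SpecLin → P073.Gauge.SpecSmV → SpecGaugeH

/-- (NET1-of) owner 114 -/
def SpecNetOf : Prop :=
  SpecPartQ → SpecGaugeH → ∀ (p : ℝ) (L : V →L[ℝ] V), 1 ≤ p → p < 2 → SpecNet1 p L

/-! ## The bridge -/

/-- rank one -/
theorem specLoc1_of (h3 : SpecLoc3D) (h1 : SpecColl1)
    (hN : ∀ (p : ℝ) (L : V →L[ℝ] V), 1 ≤ p → p < 2 → SpecNet1 p L) : RED.SpecLoc1 := by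
  intro p L hp1 hp2 hL1 hL2 _
  exact loc_of_locThm (h3 p L hp1 hp2 hL2 (h1 p L hp1 hp2 hL1 hL2 (hN p L hp1 hp2)))

/-- rank two -/
theorem specLoc2_of (h3 : SpecLoc3D)
    (h2 : ∀ (p : ℝ) (L : V →L[ℝ] V), 1 ≤ p → p < 2 → L (ev 2) = 0 →
      (∀ s t : ℝ, s • L (ev 0) + t • L (ev 1) = 0 → s = 0 ∧ t = 0) → SpecSec p L) :
    RED.SpecLoc2 := by
  intro p L hp1 hp2 hL2 hi
  exact loc_of_locThm (h3 p L hp1 hp2 hL2 (h2 p L hp1 hp2 hL2 hi))

end Vale.Agent.P073.LOC
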