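import Vale.Agent.P073.LOC.Edges752

/-!
# P073, block LOC-3D: assembly of SpecCollOut
-/

namespace Vale.Agent.P073.LOC.L3

open MeasureTheory Set Filter Topology Metric Vale.Agent.P073.St
open Vale.Agent.P073.SQ (ev cube SuppDiffeo faceE)
open Vale.Agent.P073.AB (Idx pt eInt squ subEdge)
open Vale.Agent.P073.AB.P86 (sc)
open P073.Net (dyc dyo)
open scoped ContDiff ENNReal

variable {v : V} {n m : ℕ}

/-- finitely many points of generation `m` in the core -/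
theorem finite_pt (hm : n ≤ m) : {z : Fin 3 → ℤ | pt v m z ∈ core v n}.Finite := by
  refine (Set.Finite.pi' (fun _ : Fin 3 => Set.finite_Icc (2 * 2 ^ (m - n) : ℤ)
    ((2 ^ n - 3) * 2 ^ (m - n)))).subset ?_
  intro z hz i
  exact (pt_mem_core hm).1 hz i

theorem finite_idx (hm : n ≤ m) : {e : Idx × Fin 3 | e.1.1 = m ∧ pt v m e.1.2 ∈ core v n}.Finite := by
  refine (((finite_singleton m).prod (finite_pt (v := v) hm)).prod
    (finite_univ (α := Fin 3))).subset ?_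
  rintro ⟨⟨a, z⟩, j⟩ ⟨h1, h2⟩
  exact ⟨⟨h1, h2⟩, mem_univ _⟩

theorem finite_ME (hm : n ≤ m) : (ME v n m).Finite := by
  refine (finite_idx (v := v) hm).subset ?_
  rintro e ⟨h1, h2, -⟩
  refine ⟨h1, ?_⟩
  have h3 := h2 (left_mem_segment ℝ _ _)
  rwa [h1] at h3

theorem finite_ctrl (hm : n ≤ m) :
    {s : Idx × Fin 3 | s.1.1 = m ∧ ∃ r ∈ newP v n m, squ v s ⊆ dyc v r.1 r.2}.Finite := by
  refine (finite_idx (v := v) hm).subset ?_
  rintro s ⟨h1, r, hr, h2⟩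
  refine ⟨h1, hr.1.2 (h2 ?_)⟩
  subst h1
  refine ⟨rfl, fun k _ => ⟨le_rfl, ?_⟩⟩
  show v k + (s.1.2 k : ℝ) / 2 ^ s.1.1 ≤ _
  gcongr
  linarith

/-- **(L3A)** from the controlled squares -/
theorem specCollOut_of (hCtrl : SpecCtrl) : SpecCollOut := by
  intro p L C hp hp2 hL hC
  obtain ⟨C1, hC1, H1⟩ := hCtrl p L C hp hp2 hL hC
  obtain ⟨C2, hC2, H2⟩ := specEdges p L C hp hp2 hL hC
  obtain ⟨C₀, -, hG⟩ := specGeoQ
  refine ⟨max C1 C2, lt_max_of_lt_left hC1, fun n m hn hm δ hδ => ?_⟩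
  obtain ⟨e1, he1, H1⟩ := H1 n m hn hm
  obtain ⟨e2, he2, H2⟩ := H2 n m hn hm
  obtain ⟨e3, he3, H3⟩ := T67.specVol p L C hp hp2 hL hC n m hn hm δ hδ
  refine ⟨min e1 (min e2 e3), lt_min he1 (lt_min he2 he3), fun Λ f g v h => ?_⟩
  have hε : 0 < min e1 (min e2 e3) := lt_min he1 (lt_min he2 he3)
  obtain ⟨S, hS⟩ := exists_CS (N := n) (M := m) 2 v hn le_rfl hm
  obtain ⟨hQ, hI, hP, -, -, -, -, -, -, -, -, -, hTE, -⟩ := hG v n m hn hm h.org
  have hnm : n ≤ m := by omega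
  have K1 := H1 _ hε (min_le_left _ _) Λ f g v S h hS
  obtain ⟨K2, K3, K4⟩ := H2 _ hε ((min_le_right _ _).trans (min_le_left _ _)) Λ f g v S h hS
  have K5 := H3 _ hε ((min_le_right _ _).trans (min_le_right _ _)) Λ f g v S h hS
  have hmono : ∀ {c : ℝ} (q : ℝ), 0 < q → c ≤ max C1 C2 →
      ENNReal.ofReal (c / q) ≤ ENNReal.ofReal (max C1 C2 / q) := fun q hq hc =>
    ENNReal.ofReal_le_ofReal (div_le_div_of_nonneg_right hc hq.le)
  have A1 : ∀ᶠ i in atTop, ∀ e ∈ ME v n m,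
      gInt p v (g ∘ S i) e ≤ ENNReal.ofReal (C2 / 2 ^ m) :=
    (Filter.eventually_all_finite (finite_ME hnm)).2 K2
  have A2 : ∀ᶠ i in atTop, ∀ e ∈ TE v n,
      gInt p v (g ∘ S i) e ≤ ENNReal.ofReal (C2 / 2 ^ n) :=
    (Filter.eventually_all_finite hTE).2 K3
  have A3 : ∀ᶠ i in atTop, ∀ s ∈ {s : Idx × Fin 3 | s.1.1 = m ∧ ∃ r ∈ newP v n m,
      squ v s ⊆ dyc v r.1 r.2}, faceE p (g ∘ S i) (sc v s) s.2 (1 / 2 / 2 ^ m) ≤
        ENNReal.ofReal (C1 / 8 ^ m) :=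
    (Filter.eventually_all_finite (finite_ctrl hnm)).2 fun s hs => K1 s hs.1 hs.2
  obtain ⟨i, a1, a2, a3, a4, a5⟩ := (A1.and (A2.and (A3.and (K4.and K5)))).exists
  exact ⟨g ∘ S i, h.org, hS.diffeo h.org h.diffeo i, hS.close h.org h.close i,
    fun e he => (a1 e he).trans (hmono _ (by positivity) (le_max_right _ _)),
    fun e he => (a2 e he).trans (hmono _ (by positivity) (le_max_right _ _)),
    a4.trans (hmono _ (by positivity) (le_max_right _ _)),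
    fun s hs1 hs2 => (a3 s ⟨hs1, hs2⟩).trans (hmono _ (by positivity) (le_max_left _ _)), a5⟩

end Vale.Agent.P073.LOC.L3
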