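import Vale.Agent.P073.LOC.Lim752b

/-!
# P073, block LOC-3D: the parts of the vertical collapse (SpecCollOut)
-/

namespace Vale.Agent.P073.LOC.L3

open MeasureTheory Set Filter Topology Metric Vale.Agent.P073.St
open Vale.Agent.P073.SQ (ev cube SuppDiffeo faceE)
open Vale.Agent.P073.AB (Idx pt edge eInt squ)
open Vale.Agent.P073.AB.P86 (sc)
open P073.Net (dyc dyo)
open scoped ContDiff ENNReal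

/-- (ctrl) owner helper720 -/
def SpecCtrl : Prop :=
  ∀ (p : ℝ) (L : V →L[ℝ] V) (C : ℝ), 1 ≤ p → p < 2 → L (ev 2) = 0 → 0 < C → ∃ C' > 0,
    ∀ n m : ℕ, 3 ≤ n → n + 2 ≤ m → ∃ ε₀ > 0, ∀ ε, 0 < ε → ε ≤ ε₀ →
    ∀ (Λ : Set V) (f g : V → V) (v : V) (S : ℕ → V → V), Sec p C ε n m L Λ f g v →
      CS 2 v n n m S → ∀ s : Idx × Fin 3, s.1.1 = m → (∃ r ∈ newP v n m, squ v s ⊆ dyc v r.1 r.2) →
      ∀ᶠ i in atTop, faceE p (g ∘ S i) (sc v s) s.2 (1 / 2 / 2 ^ m) ≤ ENNReal.ofReal (C' / 8 ^ m)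

/-- (vol) owner helper67 -/
def SpecVol : Prop :=
  ∀ (p : ℝ) (L : V →L[ℝ] V) (C : ℝ), 1 ≤ p → p < 2 → L (ev 2) = 0 → 0 < C →
    ∀ n m : ℕ, 3 ≤ n → n + 2 ≤ m → ∀ δ > 0, ∃ ε₀ > 0, ∀ ε, 0 < ε → ε ≤ ε₀ →
    ∀ (Λ : Set V) (f g : V → V) (v : V) (S : ℕ → V → V), Sec p C ε n m L Λ f g v →
      CS 2 v n n m S → ∀ᶠ i in atTop, ∑ j, ∫⁻ x in ⋃ q ∈ newP v n m, dyc v q.1 q.2,
        ENNReal.ofReal (‖fderiv ℝ (g ∘ S i) x (ev j) - L (ev j)‖ ^ p) ≤ ENNReal.ofReal δ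

/-- (edges) owner helper752 -/
def SpecEdges : Prop :=
  ∀ (p : ℝ) (L : V →L[ℝ] V) (C : ℝ), 1 ≤ p → p < 2 → L (ev 2) = 0 → 0 < C → ∃ C' > 0,
    ∀ n m : ℕ, 3 ≤ n → n + 2 ≤ m → ∃ ε₀ > 0, ∀ ε, 0 < ε → ε ≤ ε₀ →
    ∀ (Λ : Set V) (f g : V → V) (v : V) (S : ℕ → V → V), Sec p C ε n m L Λ f g v →
      CS 2 v n n m S →
      (∀ e ∈ ME v n m, ∀ᶠ i in atTop, gInt p v (g ∘ S i) e ≤ ENNReal.ofReal (C' / 2 ^ m)) ∧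
      (∀ e ∈ TE v n, ∀ᶠ i in atTop, gInt p v (g ∘ S i) e ≤ ENNReal.ofReal (C' / 2 ^ n)) ∧
      ∀ᶠ i in atTop, ∑' e : ↥(OE v n), ENNReal.ofReal ((1 / 2 ^ e.1.1.1) ^ 2) *
        gInt p v (g ∘ S i) e.1 ≤ ENNReal.ofReal (C' / 2 ^ n)

end Vale.Agent.P073.LOC.L3
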