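import Vale.Agent.P073.LOC.Defs752
import Vale.Agent.P073.RED.Spec

/-!
# P073, block LOC-3D: the output of the vertical collapse, and the sum of the energies
-/

namespace Vale.Agent.P073.LOC

open MeasureTheory Set Filter Topology Metric Vale.Agent.P073.St
open Vale.Agent.P073.SQ (ev cube Cells faceE)
open Vale.Agent.P073.AB (cl Idx pt edge eInt squ tiles EdgeOf MinSq Part sqE)
open Vale.Agent.P073.AB.P86 (sc)
open P073.Net (IsTile dyc dyo SizeFn)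
open scoped ContDiff ENNReal

/-- Output of the collapse: the diffeomorphism `G = g ∘ S` has controlled energies on the edges
and squares of the partition `newI v n m` and is close to `L` on the protected set. -/
structure CollOut (p C δ : ℝ) (n m : ℕ) (L : V →L[ℝ] V) (Λ : Set V) (f G : V → V) (v : V) :
    Prop where
  org : ∀ i, 0 ≤ v i ∧ v i < 1 / 2 ^ n
  diffeo : IsDiffeo Q1 Λ G
  close : BdClose Q1 f G
  me : ∀ e ∈ ME v n m, gInt p v G e ≤ ENNReal.ofReal (C / 2 ^ m)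
  te : ∀ e ∈ TE v n, gInt p v G e ≤ ENNReal.ofReal (C / 2 ^ n)
  oe : ∑' e : ↥(OE v n), ENNReal.ofReal ((1 / 2 ^ e.1.1.1) ^ 2) * gInt p v G e.1 ≤
    ENNReal.ofReal (C / 2 ^ n)
  ctrl : ∀ s : Idx × Fin 3, s.1.1 = m → (∃ r ∈ newP v n m, squ v s ⊆ dyc v r.1 r.2) →
    faceE p G (sc v s) s.2 (1 / 2 / 2 ^ m) ≤ ENNReal.ofReal (C / 8 ^ m)
  vol : ∑ j, ∫⁻ x in ⋃ q ∈ newP v n m, dyc v q.1 q.2,
    ENNReal.ofReal (‖fderiv ℝ G x (ev j) - L (ev j)‖ ^ p) ≤ ENNReal.ofReal δ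

/-- (L3A) the vertical collapse, owner helper752 -/
def SpecCollOut : Prop :=
  ∀ (p : ℝ) (L : V →L[ℝ] V) (C : ℝ), 1 ≤ p → p < 2 → L (ev 2) = 0 → 0 < C → ∃ C' > 0,
    ∀ n m : ℕ, 3 ≤ n → n + 2 ≤ m → ∀ δ > 0, ∃ ε > 0, ∀ (Λ : Set V) (f g : V → V) (v : V),
      Sec p C ε n m L Λ f g v → ∃ G, CollOut p C' δ n m L Λ f G v

/-- (L3B) the sum of the energies, the squeeze, and the final estimate -/
def SpecSumQ : Prop :=
  SpecGeoQ → SQ.SpecSQ → ∀ (p : ℝ) (L : V →L[ℝ] V) (C : ℝ), 1 ≤ p → p < 2 → 0 < C →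
    (∀ n m : ℕ, 3 ≤ n → n + 2 ≤ m → ∀ δ > 0, ∃ κ > 0, ∀ (Λ : Set V) (f : V → V) (F : V → Mat),
      Near p κ L Λ f F → ∃ v G, CollOut p C δ n m L Λ f G v) → LocThm p L

/-- (LOC3D), from (L3A) and (L3B) -/
theorem specLoc3D_of (hA : SpecCollOut) (hB : SpecSumQ) (hG : SpecGeoQ) (hS : SQ.SpecSQ) :
    SpecLoc3D := by
  intro p L hp hp2 hL hSec
  obtain ⟨C, hC, hSec⟩ := hSec
  obtain ⟨C', hC', hA⟩ := hA p L C hp hp2 hL hC
  refine hB hG hS p L C' hp hp2 hC' fun n m hn hm δ hδ => ?_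
  obtain ⟨ε, hε, hA⟩ := hA n m hn hm δ hδ
  obtain ⟨κ, hκ, hSec⟩ := hSec n m hn hm ε hε
  refine ⟨κ, hκ, fun Λ f F h => ?_⟩
  obtain ⟨v, g, hg⟩ := hSec Λ f F h
  obtain ⟨G, hG⟩ := hA Λ f g v hg
  exact ⟨v, G, hG⟩

/-- `LocThm` gives the form of block RED -/
theorem loc_of_locThm {p : ℝ} {L : V →L[ℝ] V} (h : LocThm p L) : RED.Loc p L := by
  intro ε hε
  obtain ⟨κ, hκ, H⟩ := h ε hε
  refine ⟨κ, hκ, fun Λ f F h1 h2 h3 h4 h5 => ?_⟩
  obtain ⟨g, hg, hc, he⟩ := H Λ f F ⟨h1, h2, h3, h4, h5⟩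
  refine ⟨g, hg, he, fun x hx => ?_⟩
  rw [Metric.tendsto_nhds]
  intro δ hδ
  obtain ⟨K, hKQ, hK, hKδ⟩ := hc (δ / 2) (by positivity)
  have hopen : IsOpen RED.Q0 := by
    have : RED.Q0 = Set.pi univ fun _ : Fin 3 => Ioo (0:ℝ) 1 := by
      ext y; exact ⟨fun h k _ => h k, fun h k => h k (mem_univ k)⟩
    rw [this]
    exact isOpen_set_pi finite_univ fun _ _ => isOpen_Ioo
  have hxK : x ∉ K := fun hxK => by
    have h6 : x ∈ RED.Q0 := hKQ hxK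
    rw [hopen.frontier_eq] at hx
    exact hx.2 h6
  filter_upwards [self_mem_nhdsWithin,
    mem_nhdsWithin_of_mem_nhds (hK.isClosed.isOpen_compl.mem_nhds hxK)] with y hy hyK
  rw [dist_zero_right]
  exact (hKδ y ⟨hy, hyK⟩).trans_lt (by linarith)

end Vale.Agent.P073.LOC
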