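import Vale.Agent.P073.LOC.Spec752
import Vale.Agent.P073.AB.SumDefs

/-!
# P073, block LOC-3D: shared definitions and the geometric statement

`T = 1 / 2 ^ n` (coarse), `w = 1 / 2 ^ m` (fine), `n + 2 ≤ m`.
-/

namespace Vale.Agent.P073.LOC

open MeasureTheory Set Filter Topology Metric Vale.Agent.P073.St
open Vale.Agent.P073.SQ (ev cube Cells)
open Vale.Agent.P073.AB (cl Idx pt edge eInt squ tiles EdgeOf MinSq Part sqE)
open P073.Net (IsTile dyc dyo SizeFn)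
open scoped ContDiff ENNReal

section

variable (v : V) (n m : ℕ)

/-- cubes of the Whitney partition outside of the core -/
def IO : Set Idx := {q | q ∈ tiles Q1 n v ∧ ¬ dyc v q.1 q.2 ⊆ core v n}

/-- cubes of generation `m` in the core -/
def IC : Set Idx := {q | q.1 = m ∧ dyc v q.1 q.2 ⊆ core v n}

/-- the protected cubes: the cubes of `IC` which are not the first or the last of their slab -/
def newP : Set Idx :=
  {q | q ∈ IC v n m ∧ ¬ (2 ^ (m - n) : ℤ) ∣ q.2 2 ∧ ¬ (2 ^ (m - n) : ℤ) ∣ q.2 2 + 1}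

/-- the new partition -/
def newI : Set Idx := IO v n ∪ IC v n m

/-- edges of tiles, not in the core -/
def OE : Set (Idx × Fin 3) :=
  {e | (∃ q ∈ tiles Q1 n v, EdgeOf e q) ∧ ¬ edge v e ⊆ core v n}

/-- edges of generation `n` in the frontier of the core -/
def TE : Set (Idx × Fin 3) := {e | e.1.1 = n ∧ edge v e ⊆ frontier (core v n)}

/-- edges of generation `m` of the layers: in the interface planes, in the surface of the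
protected set, or vertical in a layer -/
def ME : Set (Idx × Fin 3) :=
  {e | e.1.1 = m ∧ edge v e ⊆ core v n ∧
    ((e.2 ≠ 2 ∧ ((2 ^ (m - n) : ℤ) ∣ e.1.2 2 ∨ (2 ^ (m - n) : ℤ) ∣ e.1.2 2 - 1 ∨
      (2 ^ (m - n) : ℤ) ∣ e.1.2 2 + 1)) ∨
    (e.2 = 2 ∧ ((2 ^ (m - n) : ℤ) ∣ e.1.2 2 ∨ (2 ^ (m - n) : ℤ) ∣ e.1.2 2 + 1)))}

/-- the thick part of the slab `z` -/
def thick (z : ℤ) : Set V := {x | x ∈ core v n ∧ |x 2 - mid v n z| ≤ 1 / 2 ^ (n + 1) - 1 / 2 ^ m}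

/-- points which are not moved by the collapse -/
def Away (x : V) : Prop :=
  (∃ i : Fin 3, i ≠ 2 ∧ (x i ≤ v i + 1 / 2 ^ n ∨ v i + (2 ^ n - 2) / 2 ^ n ≤ x i)) ∨
    x 2 ≤ v 2 + 2 / 2 ^ n ∨ v 2 + (2 ^ n - 3) / 2 ^ n ≤ x 2 ∨ ∃ z : ℤ, x 2 = v 2 + z / 2 ^ n

end

open Classical in
/-- **(GEOQ)** the geometric part of LOC-3D, owner helper308 -/
def SpecGeoQ : Prop :=
  ∃ C₀ : ℝ, 0 < C₀ ∧ ∀ (v : V) (n m : ℕ), 3 ≤ n → n + 2 ≤ m → (∀ i, 0 ≤ v i ∧ v i < 1 / 2 ^ n) →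
    ∃ (hQ : IsOpen Q1) (hI : Part Q1 v (newI v n m)) (hP : newP v n m ⊆ newI v n m),
      -- (Q1) the protected set
      (⋃ q ∈ newP v n m, dyc v q.1 q.2 = ⋃ z ∈ Ico (2:ℤ) (2 ^ n - 3), thick v n m z) ∧
      (∀ q ∈ newP v n m, ∃ z ∈ Ico (2:ℤ) (2 ^ n - 3), dyc v q.1 q.2 ⊆ thick v n m z) ∧
      volume (Q1 \ ⋃ q ∈ newP v n m, dyc v q.1 q.2) ≤
        ENNReal.ofReal (C₀ * (1 / 2 ^ n + 2 ^ n / 2 ^ m)) ∧
      -- (Q2) squares of outer cubes, not in the core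
      (∀ q ∈ newI v n m \ newP v n m, q ∈ IO v n → ∀ s, MinSq v (newI v n m) s →
        squ v s ⊆ dyc v q.1 q.2 → ¬ squ v s ⊆ core v n →
        q.1 ≤ s.1.1 ∧ s.1.1 ≤ q.1 + 2 ∧ (∀ r ∈ newP v n m, ¬ squ v s ⊆ dyc v r.1 r.2) ∧
        ∀ e ∈ sqE s, e ∈ OE v n ∪ TE v n) ∧
      -- (Q3) squares of outer cubes, in the core
      (∀ q ∈ newI v n m \ newP v n m, q ∈ IO v n → ∀ s, MinSq v (newI v n m) s →
        squ v s ⊆ dyc v q.1 q.2 → squ v s ⊆ core v n → q.1 = n ∧ s.1.1 = m ∧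
        ((∃ r ∈ newP v n m, squ v s ⊆ dyc v r.1 r.2) ∨
          (∀ r ∈ newP v n m, ¬ squ v s ⊆ dyc v r.1 r.2) ∧ ∀ e ∈ sqE s, e ∈ ME v n m)) ∧
      -- (Q4) squares of the layers
      (∀ q ∈ newI v n m \ newP v n m, q ∉ IO v n → q.1 = m ∧ ∀ s, MinSq v (newI v n m) s →
        squ v s ⊆ dyc v q.1 q.2 → s.1.1 = m ∧
        ((∃ r ∈ newP v n m, squ v s ⊆ dyc v r.1 r.2) ∨
          (∀ r ∈ newP v n m, ¬ squ v s ⊆ dyc v r.1 r.2) ∧ ∀ e ∈ sqE s, e ∈ ME v n m)) ∧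
      -- (Q5) multiplicity
      (∀ g : Idx × Fin 3 → ℝ≥0∞,
        ∑' i : {i : (AB.P86.cells hQ hI hP).ι // i.1 ∈ IO v n},
          ∑ t ∈ ((AB.P86.cells hQ hI hP).bd i.1).filter (fun t => ¬ squ v t.1 ⊆ core v n),
            ∑ e ∈ sqE t.1, g e ≤
        ENNReal.ofReal C₀ * ∑' e : ↥(OE v n ∪ TE v n), g e.1) ∧
      -- (Q6) counting
      (∑' i : {i : (AB.P86.cells hQ hI hP).ι // i.1 ∈ IO v n},
        ((((AB.P86.cells hQ hI hP).bd i.1).filter (fun t => squ v t.1 ⊆ core v n)).card : ℝ≥0∞) ≤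
          ENNReal.ofReal (C₀ * 4 ^ m)) ∧
      (∑' i : {i : (AB.P86.cells hQ hI hP).ι // i.1 ∉ IO v n},
        (((AB.P86.cells hQ hI hP).bd i.1).card : ℝ≥0∞) ≤
          ENNReal.ofReal (C₀ * (2 ^ n * 4 ^ m))) ∧
      (TE v n).Finite ∧ ((TE v n).ncard : ℝ) ≤ C₀ * 4 ^ n ∧
      -- (Q7) the outer edges are not moved; local finiteness
      (∀ e ∈ OE v n, edge v e ⊆ Q1 ∧ n ≤ e.1.1 ∧ ∀ x ∈ edge v e, Away v n x) ∧
      (∀ K ⊆ Q1, IsCompact K → {e | e ∈ OE v n ∧ (edge v e ∩ K).Nonempty}.Finite)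

end Vale.Agent.P073.LOC
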