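import Vale.Agent.P073.LOC.CollParts
import Vale.Agent.P073.AB.Sum293a

/-!
# P073, block LOC-3D: energies of the edges under the vertical collapse
-/

namespace Vale.Agent.P073.LOC.L3

open MeasureTheory Set Filter Topology Metric Vale.Agent.P073.St
open Vale.Agent.P073.SQ (ev cube SuppDiffeo faceE)
open Vale.Agent.P073.AB (Idx pt edge eInt squ subEdge)
open Vale.Agent.P073.LR (AffNear nu mu lam specMu specColl)
open scoped ContDiff ENNReal

variable {k : Fin 3} {v : V} {n N M m : ℕ} {S : ℕ → V → V}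

/-! ### dyadic points of the core -/

theorem pt_shift (v : V) (m : ℕ) (z : Fin 3 → ℤ) (j : Fin 3) (a : ℤ) :
    pt v m (Function.update z j (z j + a)) = pt v m z + ((a:ℝ) * (1 / 2 ^ m)) • ev j := by
  funext i
  by_cases h : i = j
  · subst h
    simp only [pt, Function.update_self, Pi.add_apply, Pi.smul_apply, ev, Pi.single_eq_same,
      smul_eq_mul]
    push_cast
    ring
  · simp [pt, ev, h]

theorem pt_mem_core (hm : n ≤ m) {z : Fin 3 → ℤ} :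
    pt v m z ∈ core v n ↔
      ∀ i, 2 * 2 ^ (m - n) ≤ z i ∧ z i ≤ (2 ^ n - 3) * 2 ^ (m - n) := by
  refine forall_congr' fun i => ?_
  have hp : (2:ℝ) ^ m = 2 ^ n * 2 ^ (m - n) := by rw [← pow_add]; congr 1; omega
  have h0 : (0:ℝ) < 2 ^ m := by positivity
  have e1 : (2:ℝ) / 2 ^ n = 2 * 2 ^ (m - n) / 2 ^ m := by rw [hp]; field_simp
  have e2 : ((2:ℝ) ^ n - 3) / 2 ^ n = (2 ^ n - 3) * 2 ^ (m - n) / 2 ^ m := by
    rw [hp]; field_simp
  show v i + 2 / 2 ^ n ≤ v i + (z i : ℝ) / 2 ^ m ∧ v i + (z i : ℝ) / 2 ^ m ≤ _ ↔ _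
  rw [e1, e2, add_le_add_iff_left, add_le_add_iff_left, div_le_div_iff_of_pos_right h0,
    div_le_div_iff_of_pos_right h0]
  constructor
  · rintro ⟨a, b⟩
    exact ⟨by exact_mod_cast a, by exact_mod_cast b⟩
  · rintro ⟨a, b⟩
    exact ⟨by exact_mod_cast a, by exact_mod_cast b⟩

theorem convex_core (v : V) (n : ℕ) : Convex ℝ (core v n) := by
  have : core v n = Set.pi univ
      (fun i => Icc (v i + 2 / 2 ^ n) (v i + (2 ^ n - 3) / 2 ^ n)) := by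
    ext x; exact ⟨fun h k _ => h k, fun h k => h k (mem_univ k)⟩
  rw [this]
  exact convex_pi fun i _ => convex_Icc _ _

theorem edge_sub_core {e : Idx × Fin 3} (hm : n ≤ e.1.1) :
    edge v e ⊆ core v n ↔
      (∀ i, 2 * 2 ^ (e.1.1 - n) ≤ e.1.2 i ∧ e.1.2 i ≤ (2 ^ n - 3) * 2 ^ (e.1.1 - n)) ∧
      e.1.2 e.2 + 1 ≤ (2 ^ n - 3) * 2 ^ (e.1.1 - n) := by
  have hb : pt v e.1.1 e.1.2 + (1 / 2 ^ e.1.1 : ℝ) • ev e.2 =
      pt v e.1.1 (Function.update e.1.2 e.2 (e.1.2 e.2 + 1)) := by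
    rw [pt_shift]; norm_num
  unfold edge
  rw [hb]
  constructor
  · intro h
    have h1 := (pt_mem_core hm).1 (h (left_mem_segment ℝ _ _))
    have h2 := (pt_mem_core hm).1 (h (right_mem_segment ℝ _ _)) e.2
    rw [Function.update_self] at h2
    exact ⟨h1, h2.2⟩
  · rintro ⟨h1, h2⟩
    refine (convex_core v n).segment_subset ((pt_mem_core hm).2 h1) ((pt_mem_core hm).2 fun i => ?_)
    by_cases h : i = e.2
    · subst h
      rw [Function.update_self]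
      exact ⟨by linarith [(h1 e.2).1], h2⟩
    · rw [Function.update_of_ne h]
      exact h1 i

/-! ### splitting a segment -/

theorem split_line {H : V → ℝ≥0∞} (hH : Measurable H) (x0 w : V) (ℓ : ℝ) {K : ℕ} (hK : 0 < K) :
    ∫⁻ t in Icc (0:ℝ) 1, H (x0 + t • ((K * ℓ) • w)) ≤
      ∑ j ∈ Finset.range K, ENNReal.ofReal (1 / K) *
        ∫⁻ t in Icc (0:ℝ) 1, H (x0 + ((j:ℝ) * ℓ) • w + t • (ℓ • w)) := by
  have hK0 : (0:ℝ) < K := by exact_mod_cast hK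
  have hm : Measurable fun t : ℝ => H (x0 + t • ((K * ℓ) • w)) := by
    have : Continuous fun t : ℝ => x0 + t • ((K * ℓ) • w) := by fun_prop
    exact hH.comp this.measurable
  have hcov : Icc (0:ℝ) 1 ⊆ ⋃ j : Fin K, Icc ((j:ℕ) / K : ℝ) ((j:ℕ) / K + 1 / K) := by
    intro t ht
    obtain ⟨j, hj, hj1, hj2⟩ : ∃ j : ℕ, j < K ∧ (j:ℝ) ≤ t * K ∧ t * K ≤ j + 1 := by
      rcases lt_or_eq_of_le ht.2 with h | h
      · refine ⟨⌊t * K⌋₊, ?_, Nat.floor_le (mul_nonneg ht.1 hK0.le),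
          (Nat.lt_floor_add_one _).le⟩
        have : (⌊t * K⌋₊ : ℝ) < K := (Nat.floor_le (mul_nonneg ht.1 hK0.le)).trans_lt (by nlinarith)
        exact_mod_cast this
      · refine ⟨K - 1, by omega, ?_, ?_⟩
        · rw [h]; push_cast [Nat.cast_sub hK]; linarith
        · rw [h]; push_cast [Nat.cast_sub hK]; linarith
    refine mem_iUnion.2 ⟨⟨j, hj⟩, ?_, ?_⟩
    · show (j:ℝ) / K ≤ t
      rwa [div_le_iff₀ hK0]
    · show t ≤ (j:ℝ) / K + 1 / K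
      rw [← add_div, le_div_iff₀ hK0]; exact hj2
  refine (lintegral_mono_set hcov).trans ((lintegral_iUnion_le _ _).trans ?_)
  rw [tsum_fintype, Finset.sum_range]
  refine Finset.sum_le_sum fun j _ => ?_
  rw [AB.S293.aff_lintegral hm _ (by positivity : (0:ℝ) < 1 / K)]
  refine le_of_eq ?_
  congr 1
  refine lintegral_congr fun t => ?_
  congr 1
  rw [add_assoc, smul_smul, smul_smul, ← add_smul]
  congr 2
  field_simp

theorem measurable_H (p : ℝ) (g : V → V) (w : V) :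
    Measurable fun x => ENNReal.ofReal (‖fderiv ℝ g x w‖ ^ p) :=
  ((measurable_fderiv_apply_const ℝ g w).norm.pow_const p).ennreal_ofReal

/-- the energy of a stretched segment -/
theorem stretch_le {p : ℝ} (hp2 : p ≤ 2) (g : V → V) (x0 w : V) {ℓ : ℝ}
    {K : ℕ} (hK : 0 < K) {ε : ℝ≥0∞}
    (h : ∀ j < K, ENNReal.ofReal ℓ * ∫⁻ t in Icc (0:ℝ) 1, ENNReal.ofReal
      (‖fderiv ℝ g (x0 + ((j:ℝ) * ℓ) • w + t • (ℓ • w)) w‖ ^ p) ≤ ε) :
    ENNReal.ofReal ℓ * ∫⁻ t in Icc (0:ℝ) 1, ENNReal.ofReal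
      (‖fderiv ℝ g (x0 + t • ((K * ℓ) • w)) ((K:ℝ) • w)‖ ^ p) ≤ ENNReal.ofReal (K ^ 2) * ε := by
  have hK0 : (0:ℝ) < K := by exact_mod_cast hK
  have hK1 : (1:ℝ) ≤ K := by exact_mod_cast hK
  have e1 : ∀ t : ℝ, ENNReal.ofReal (‖fderiv ℝ g (x0 + t • ((K * ℓ) • w)) ((K:ℝ) • w)‖ ^ p) =
      ENNReal.ofReal ((K:ℝ) ^ p) *
        ENNReal.ofReal (‖fderiv ℝ g (x0 + t • ((K * ℓ) • w)) w‖ ^ p) := by
    intro t
    rw [map_smul, norm_smul, Real.norm_eq_abs, abs_of_pos hK0,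
      Real.mul_rpow hK0.le (norm_nonneg _), ENNReal.ofReal_mul (by positivity)]
  simp only [e1]
  rw [lintegral_const_mul' _ _ ENNReal.ofReal_ne_top]
  have h1 := split_line (measurable_H p g w) x0 w ℓ hK
  calc ENNReal.ofReal ℓ * (ENNReal.ofReal ((K:ℝ) ^ p) * ∫⁻ t in Icc (0:ℝ) 1,
        ENNReal.ofReal (‖fderiv ℝ g (x0 + t • ((K * ℓ) • w)) w‖ ^ p))
      ≤ ENNReal.ofReal ℓ * (ENNReal.ofReal ((K:ℝ) ^ p) * ∑ j ∈ Finset.range K,
          ENNReal.ofReal (1 / K) * ∫⁻ t in Icc (0:ℝ) 1, ENNReal.ofReal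
            (‖fderiv ℝ g (x0 + ((j:ℝ) * ℓ) • w + t • (ℓ • w)) w‖ ^ p)) := by gcongr
    _ = ENNReal.ofReal ((K:ℝ) ^ p) * ENNReal.ofReal (1 / K) * ∑ j ∈ Finset.range K,
          ENNReal.ofReal ℓ * ∫⁻ t in Icc (0:ℝ) 1, ENNReal.ofReal
            (‖fderiv ℝ g (x0 + ((j:ℝ) * ℓ) • w + t • (ℓ • w)) w‖ ^ p) := by
        simp only [Finset.mul_sum]
        refine Finset.sum_congr rfl fun j _ => ?_
        ring
    _ ≤ ENNReal.ofReal ((K:ℝ) ^ p) * ENNReal.ofReal (1 / K) * ∑ _j ∈ Finset.range K, ε := by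
        gcongr with j hj
        exact h j (Finset.mem_range.1 hj)
    _ = ENNReal.ofReal ((K:ℝ) ^ p) * (ENNReal.ofReal (1 / K) * K) * ε := by
        rw [Finset.sum_const, Finset.card_range, nsmul_eq_mul]; ring
    _ ≤ ENNReal.ofReal (K ^ 2) * ε := by
        have h2 : ENNReal.ofReal (1 / K) * (K : ℝ≥0∞) = 1 := by
          rw [← ENNReal.ofReal_natCast, ← ENNReal.ofReal_mul (by positivity)]
          rw [one_div, inv_mul_cancel₀ hK0.ne', ENNReal.ofReal_one]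
        rw [h2, mul_one]
        gcongr
        calc (K:ℝ) ^ p ≤ (K:ℝ) ^ (2:ℝ) := Real.rpow_le_rpow_of_exponent_le hK1 hp2
          _ = (K:ℝ) ^ 2 := by norm_num

/-! ### limits of edge energies -/

/-- edges which are translated in the direction `k` -/
theorem CS.edge_shift (hS : CS k v n N M S) (hn : 3 ≤ n) (hM : N + 2 ≤ M)
    (hv : ∀ i, 0 ≤ v i ∧ v i < 1 / 2 ^ n) {p : ℝ} (hp : 0 < p) {Λ : Set V} {g : V → V}
    (hg : IsDiffeo Q1 Λ g) {e : Idx × Fin 3} (he : AB.edge v e ⊆ Q1) {a : ℤ}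
    (h : ∀ x ∈ AB.edge v e, muC k v n N M x = (a:ℝ) * (1 / 2 ^ e.1.1)) :
    Tendsto (fun i => gInt p v (g ∘ S i) e) atTop
      (𝓝 (gInt p v g ((e.1.1, Function.update e.1.2 k (e.1.2 k + a)), e.2))) := by
  have h1 := hS.edge hn hM hv hp hg he (α := (a:ℝ) * (1 / 2 ^ e.1.1)) (β := 0) fun t ht => by
    rw [h _ (line_mem ht)]; ring
  simp only [mul_zero, add_zero, zero_smul] at h1
  have h2 : gInt p v g ((e.1.1, Function.update e.1.2 k (e.1.2 k + a)), e.2) =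
      ENNReal.ofReal (1 / 2 ^ e.1.1) * ∫⁻ t in Icc (0:ℝ) 1, ENNReal.ofReal
        (‖fderiv ℝ g (pt v e.1.1 e.1.2 + t • ((1 / 2 ^ e.1.1 : ℝ) • ev e.2) +
          ((a:ℝ) * (1 / 2 ^ e.1.1)) • ev k) (ev e.2)‖ ^ p) := by
    unfold gInt eInt
    simp only [pt_shift]
    congr 1
    refine lintegral_congr fun t => ?_
    rw [add_right_comm]
  rw [h2]
  exact h1

/-- vertical edges in a layer -/
theorem CS.edge_layer (hS : CS k v n N M S) (hn : 3 ≤ n) (hM : N + 2 ≤ M)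
    (hv : ∀ i, 0 ≤ v i ∧ v i < 1 / 2 ^ n) {p : ℝ} (hp : 0 < p) (hp2 : p ≤ 2) {Λ : Set V}
    {g : V → V} (hg : IsDiffeo Q1 Λ g) {z : Fin 3 → ℤ} (he : AB.edge v ((M, z), k) ⊆ Q1) (b : ℤ)
    (h : ∀ t ∈ Icc (0:ℝ) 1, muC k v n N M (pt v M z + t • ((1 / 2 ^ M : ℝ) • ev k)) =
      -(b:ℝ) * (1 / 2 ^ M) + t * (1 / 2 ^ M) * md N M) {ε : ℝ≥0∞}
    (hε : ∀ j < md N M + 1,
      gInt p v g ((M, Function.update z k (z k + ((j:ℤ) - b))), k) ≤ ε)
    {δ : ℝ≥0∞} (hδ : ENNReal.ofReal ((md N M + 1 : ℝ) ^ 2) * ε < δ) :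
    ∀ᶠ i in atTop, gInt p v (g ∘ S i) ((M, z), k) ≤ δ := by
  have h1 := hS.edge hn hM hv hp hg he (α := -(b:ℝ) * (1 / 2 ^ M)) (β := md N M)
    fun t ht => h t ht
  have h2 : (ENNReal.ofReal (1 / 2 ^ M) * ∫⁻ t in Icc (0:ℝ) 1, ENNReal.ofReal
        (‖fderiv ℝ g (pt v M z + t • ((1 / 2 ^ M : ℝ) • ev k) +
          (-(b:ℝ) * (1 / 2 ^ M) + t * (1 / 2 ^ M) * md N M) • ev k)
          (ev k + (md N M : ℝ) • ev k)‖ ^ p)) < δ := by
    refine lt_of_le_of_lt ?_ hδ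
    have h3 := stretch_le hp2 g (pt v M z + (-(b:ℝ) * (1 / 2 ^ M)) • ev k) (ev k)
      (ℓ := 1 / 2 ^ M) (K := md N M + 1) (Nat.succ_pos _) (ε := ε) ?_
    · push_cast at h3
      refine le_trans (le_of_eq ?_) h3
      congr 1
      refine lintegral_congr fun t => ?_
      have e1 : ev k + (md N M : ℝ) • ev k = ((md N M : ℝ) + 1) • ev k := by
        rw [add_smul, one_smul, add_comm]
      have e2 : pt v M z + t • ((1 / 2 ^ M : ℝ) • ev k) +
          (-(b:ℝ) * (1 / 2 ^ M) + t * (1 / 2 ^ M) * md N M) • ev k =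
          pt v M z + (-(b:ℝ) * (1 / 2 ^ M)) • ev k +
            t • ((((md N M : ℝ) + 1) * (1 / 2 ^ M)) • ev k) := by
        rw [smul_smul, smul_smul, add_assoc, add_assoc, ← add_smul, ← add_smul]
        congr 2
        ring
      rw [e1, e2]
    · intro j hj
      refine le_trans (le_of_eq ?_) (hε j hj)
      unfold gInt eInt
      simp only [pt_shift]
      congr 1
      refine lintegral_congr fun t => ?_
      have e3 : pt v M z + (-(b:ℝ) * (1 / 2 ^ M)) • ev k + ((j:ℝ) * (1 / 2 ^ M)) • ev k =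
          pt v M z + ((((j:ℤ) - b : ℤ) : ℝ) * (1 / 2 ^ M)) • ev k := by
        rw [add_assoc, ← add_smul]
        congr 2
        push_cast
        ring
      rw [e3]
  filter_upwards [h1.eventually_lt_const h2] with i hi
  exact hi.le

/-- vertical edges in the main part -/
theorem CS.edge_main (hS : CS k v n N M S) (hn : 3 ≤ n) (hM : N + 2 ≤ M)
    (hv : ∀ i, 0 ≤ v i ∧ v i < 1 / 2 ^ n) {p : ℝ} (hp : 0 < p) {Λ : Set V}
    {g : V → V} (hg : IsDiffeo Q1 Λ g) {z : Fin 3 → ℤ} (he : AB.edge v ((M, z), k) ⊆ Q1) (α : ℝ)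
    (h : ∀ t ∈ Icc (0:ℝ) 1, muC k v n N M (pt v M z + t • ((1 / 2 ^ M : ℝ) • ev k)) =
      α + t * (1 / 2 ^ M) * (-1)) {δ : ℝ≥0∞} (hδ : 0 < δ) :
    ∀ᶠ i in atTop, gInt p v (g ∘ S i) ((M, z), k) ≤ δ := by
  have h1 := hS.edge hn hM hv hp hg he (α := α) (β := -1) fun t ht => h t ht
  have h2 : (ENNReal.ofReal (1 / 2 ^ M) * ∫⁻ t in Icc (0:ℝ) 1, ENNReal.ofReal
        (‖fderiv ℝ g (pt v M z + t • ((1 / 2 ^ M : ℝ) • ev k) +
          (α + t * (1 / 2 ^ M) * (-1)) • ev k) (ev k + (-1 : ℝ) • ev k)‖ ^ p)) = 0 := by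
    have e1 : ev k + (-1 : ℝ) • ev k = (0 : V) := by
      rw [neg_smul, one_smul, add_neg_cancel]
    simp only [e1, map_zero, norm_zero, Real.zero_rpow hp.ne', ENNReal.ofReal_zero,
      lintegral_zero, mul_zero]
  rw [← h2] at hδ
  filter_upwards [h1.eventually_lt_const hδ] with i hi
  exact hi.le

end Vale.Agent.P073.LOC.L3
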