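import Vale.Agent.P073.LOC.Edge752

/-!
# P073, block LOC-3D: all fine edges of the core
-/

namespace Vale.Agent.P073.LOC.L3

open MeasureTheory Set Filter Topology Metric Vale.Agent.P073.St
open Vale.Agent.P073.SQ (ev cube SuppDiffeo faceE)
open Vale.Agent.P073.AB (Idx pt eInt squ subEdge)
open Vale.Agent.P073.LR (AffNear nu mu lam specMu specColl)
open scoped ContDiff ENNReal

variable {k : Fin 3} {v : V} {n N M m : ℕ} {S : ℕ → V → V}

/-- numbers -/
theorem two_md (hM : N + 2 ≤ M) : (2 ^ (M - N) : ℤ) = 2 * ((md N M : ℤ) + 1) := by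
  have h : ((md N M : ℕ) : ℤ) + 1 = 2 ^ (M - (N + 1)) := by
    unfold md
    have h1 : 1 ≤ 2 ^ (M - (N + 1)) := Nat.one_le_two_pow
    push_cast [Nat.cast_sub h1]
    ring
  rw [h, ← pow_succ']
  congr 1
  omega

/-- division of the index of a height by the number of layers of a slab -/
theorem slab_index (hN : n ≤ N) (hM : N + 2 ≤ M) {a : ℤ} (h1 : 2 * 2 ^ (M - n) ≤ a)
    (h2 : a < (2 ^ n - 3) * 2 ^ (M - n)) :
    ∃ q ∈ slabs n N, ∃ r : ℤ, 0 ≤ r ∧ r < 2 * ((md N M : ℤ) + 1) ∧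
      a = q * (2 * ((md N M : ℤ) + 1)) + r := by
  have hD : (0:ℤ) < 2 * ((md N M : ℤ) + 1) := by positivity
  have hp : (2:ℤ) ^ (M - n) = 2 ^ (N - n) * (2 * ((md N M : ℤ) + 1)) := by
    rw [← two_md hM, ← pow_add]; congr 1; omega
  rw [hp, ← mul_assoc] at h1 h2
  refine ⟨a / (2 * ((md N M : ℤ) + 1)), ?_, a % (2 * ((md N M : ℤ) + 1)),
    Int.emod_nonneg _ hD.ne', Int.emod_lt_of_pos _ hD, ?_⟩
  · rw [slabs, Finset.mem_Ico]
    constructor
    · rw [Int.le_ediv_iff_mul_le hD]; exact h1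
    · exact Int.ediv_lt_of_lt_mul hD h2
  · have := Int.emod_add_mul_ediv a (2 * ((md N M : ℤ) + 1))
    linarith

/-- the height of a point over the middle of its slab -/
theorem height_sub (hM : N + 2 ≤ M) (q r : ℤ) (t : ℝ) :
    v k + ((q * (2 * ((md N M : ℤ) + 1)) + r : ℤ) + t : ℝ) / 2 ^ M - midC k v N q =
      ((r:ℝ) + t - (md N M + 1)) * (1 / 2 ^ M) := by
  have h1 := md_mul (N := N) (M := M) hM
  have h2 := half_eq (N := N)
  rw [midC_eq, ← h1]
  have h3 : (q:ℝ) / 2 ^ N = q * (2 * ((md N M + 1) * (1 / 2 ^ M))) := by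
    rw [h1, ← h2]; ring
  rw [h3]
  push_cast
  ring

theorem edge_pt_k {z : Fin 3 → ℤ} {j : Fin 3} (hj : j ≠ k) {x : V}
    (hx : x ∈ AB.edge v ((M, z), j)) : x k = v k + (z k : ℝ) / 2 ^ M := by
  unfold AB.edge at hx
  rw [segment_eq_image'] at hx
  obtain ⟨t, -, rfl⟩ := hx
  simp [pt, ev, Ne.symm hj]

/-- horizontal edges of the core -/
theorem CS.edge_hor (hS : CS k v n N M S) (hn : 3 ≤ n) (hN : n ≤ N) (hM : N + 2 ≤ M)
    (hv : ∀ i, 0 ≤ v i ∧ v i < 1 / 2 ^ n) {p : ℝ} (hp : 0 < p) {Λ : Set V} {g : V → V}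
    (hg : IsDiffeo Q1 Λ g) {z : Fin 3 → ℤ} {j : Fin 3} (hj : j ≠ k)
    (he : AB.edge v ((M, z), j) ⊆ core v n) :
    ∃ a : ℤ, (2 ^ (M - (N + 1)) : ℤ) ∣ a ∧
      AB.edge v ((M, Function.update z k a), j) ⊆ core v n ∧
      Tendsto (fun i => gInt p v (g ∘ S i) ((M, z), j)) atTop
        (𝓝 (gInt p v g ((M, Function.update z k a), j))) := by
  have hnM : n ≤ M := by omega
  have heQ := he.trans (core_sub hv)
  have hz := (edge_sub_core (e := ((M, z), j)) hnM).1 he
  simp only at hz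
  have hmd : (2 ^ (M - (N + 1)) : ℤ) = (md N M : ℤ) + 1 := by
    have := md_cast (N := N) (M := M)
    exact_mod_cast this.symm
  have hp : (2:ℤ) ^ (M - n) = 2 ^ (N - n) * (2 * ((md N M : ℤ) + 1)) := by
    rw [← two_md hM, ← pow_add]; congr 1; omega
  -- interface
  by_cases hdvd : (2 * ((md N M : ℤ) + 1)) ∣ z k
  · refine ⟨z k, ?_, ?_, ?_⟩
    · rw [hmd]; exact (Dvd.intro_left 2 rfl).trans hdvd
    · rw [Function.update_eq_self]; exact he
    · have h0 : ∀ x ∈ AB.edge v ((M, z), j), muC k v n N M x = 0 := by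
        intro x hx
        apply muC_away hn hN hM
        right; right; left
        obtain ⟨c, hc⟩ := hdvd
        refine ⟨c, ?_⟩
        rw [edge_pt_k hj hx, hc]
        have h1 := md_mul (N := N) (M := M) hM
        have h2 := half_eq (N := N)
        have h3 : (c:ℝ) / 2 ^ N = c * (2 * ((md N M + 1) * (1 / 2 ^ M))) := by
          rw [h1, ← h2]; ring
        rw [h3]
        push_cast
        ring
      have h1 := hS.edge_zero hn hM hv ‹_› hg heQ h0
      rwa [Function.update_eq_self]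
  -- main part
  have hlt : z k < (2 ^ n - 3) * 2 ^ (M - n) := by
    refine lt_of_le_of_ne (hz.1 k).2 fun h => hdvd ?_
    rw [h, hp, ← mul_assoc]
    exact Dvd.intro_left _ rfl
  obtain ⟨q, hq, r, hr0, hr1, hqr⟩ := slab_index hN hM (hz.1 k).1 hlt
  have hr : 1 ≤ r := by
    rcases eq_or_lt_of_le hr0 with h | h
    · exfalso; apply hdvd; rw [hqr, ← h, add_zero]; exact Dvd.intro_left _ rfl
    · exact h
  refine ⟨z k + ((md N M : ℤ) + 1 - r), ?_, ?_, ?_⟩
  · rw [hmd, hqr]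
    refine ⟨2 * q + 1, by ring⟩
  · rw [edge_sub_core (e := ((M, Function.update z k (z k + ((md N M : ℤ) + 1 - r))), j)) hnM]
    simp only
    obtain ⟨hq1, hq2⟩ := Finset.mem_Ico.1 hq
    have hD : (0:ℤ) < (md N M : ℤ) + 1 := by positivity
    have hb : 2 * 2 ^ (M - n) ≤ z k + ((md N M : ℤ) + 1 - r) ∧
        z k + ((md N M : ℤ) + 1 - r) ≤ (2 ^ n - 3) * 2 ^ (M - n) := by
      rw [hqr, hp]
      constructor
      · have := mul_le_mul_of_nonneg_right hq1 (by linarith : (0:ℤ) ≤ 2 * ((md N M : ℤ) + 1))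
        nlinarith
      · have h3 : q + 1 ≤ (2 ^ n - 3) * 2 ^ (N - n) := hq2
        have := mul_le_mul_of_nonneg_right h3 (by linarith : (0:ℤ) ≤ 2 * ((md N M : ℤ) + 1))
        nlinarith
    refine ⟨fun i => ?_, ?_⟩
    · by_cases hi : i = k
      · subst hi; rw [Function.update_self]; exact hb
      · rw [Function.update_of_ne hi]; exact hz.1 i
    · rw [Function.update_of_ne hj]; exact hz.2
  · refine hS.edge_shift hn hM hv ‹_› hg heQ fun x hx => ?_
    have hxk := edge_pt_k hj hx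
    have hsub := height_sub (k := k) (v := v) (N := N) (M := M) hM q r 0
    rw [← hqr, add_zero, ← hxk, add_zero] at hsub
    have hxc := mem_core_iff.1 (he hx)
    have hw : (0:ℝ) < 1 / 2 ^ M := by positivity
    have hr' : (1:ℝ) ≤ r := by exact_mod_cast hr
    have hr1' : (r:ℝ) + 1 ≤ 2 * (md N M + 1) := by exact_mod_cast hr1
    have habs : |x k - midC k v N q| ≤ md N M * (1 / 2 ^ M) := by
      rw [hsub, abs_mul, abs_of_pos hw]
      apply mul_le_mul_of_nonneg_right _ hw.le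
      rw [abs_le]; constructor <;> linarith
    rw [muC_slab hn hM hq (habs.trans (by rw [← md_mul hM]; nlinarith)),
      muZ_main (by rw [lamC_eq fun i _ => hxc i]; exact habs), hsub]
    push_cast
    ring

/-- vertical edges of the core -/
theorem CS.edge_ver (hS : CS k v n N M S) (hn : 3 ≤ n) (hN : n ≤ N) (hM : N + 2 ≤ M)
    (hv : ∀ i, 0 ≤ v i ∧ v i < 1 / 2 ^ n) {p : ℝ} (hp : 0 < p) (hp2 : p ≤ 2) {Λ : Set V}
    {g : V → V} (hg : IsDiffeo Q1 Λ g) {z : Fin 3 → ℤ}
    (he : AB.edge v ((M, z), k) ⊆ core v n) {ε δ : ℝ≥0∞}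
    (hε : ∀ z' : Fin 3 → ℤ, AB.edge v ((M, z'), k) ⊆ core v n →
      gInt p v g ((M, z'), k) ≤ ε)
    (hδ : ENNReal.ofReal ((md N M + 1 : ℝ) ^ 2) * ε < δ) :
    ∀ᶠ i in atTop, gInt p v (g ∘ S i) ((M, z), k) ≤ δ := by
  have hnM : n ≤ M := by omega
  have heQ := he.trans (core_sub hv)
  have hz := (edge_sub_core (e := ((M, z), k)) hnM).1 he
  simp only at hz
  have hpp : (2:ℤ) ^ (M - n) = 2 ^ (N - n) * (2 * ((md N M : ℤ) + 1)) := by
    rw [← two_md hM, ← pow_add]; congr 1; omega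
  obtain ⟨q, hq, r, hr0, hr1, hqr⟩ := slab_index hN hM (hz.1 k).1 (by linarith [hz.2])
  obtain ⟨hq1, hq2⟩ := Finset.mem_Ico.1 hq
  have hq2' : q + 1 ≤ (2 ^ n - 3) * 2 ^ (N - n) := hq2
  have hD : (0:ℤ) < (md N M : ℤ) + 1 := by positivity
  have hw : (0:ℝ) < 1 / 2 ^ M := by positivity
  have hmdw := md_mul (N := N) (M := M) hM
  have hmdw' := md_mul' (N := N) (M := M) hM
  -- the height along the edge
  have hxk : ∀ t : ℝ, (pt v M z + t • ((1 / 2 ^ M : ℝ) • ev k)) k - midC k v N q =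
      ((r:ℝ) + t - (md N M + 1)) * (1 / 2 ^ M) := by
    intro t
    rw [← height_sub hM q r t, ← hqr]
    simp [pt, ev]
    ring
  have hxc : ∀ t ∈ Icc (0:ℝ) 1, ∀ i, i ≠ k →
      |(pt v M z + t • ((1 / 2 ^ M : ℝ) • ev k)) i - cc v n i| ≤ hl n := fun t ht i _ =>
    mem_core_iff.1 (he (line_mem (e := ((M, z), k)) ht)) i
  have hr1' : (r:ℝ) + 1 ≤ 2 * (md N M + 1) := by exact_mod_cast hr1
  have hr0' : (0:ℝ) ≤ r := by exact_mod_cast hr0
  have hmd0 : (1:ℝ) ≤ md N M := by exact_mod_cast md_pos hM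
  -- other vertical edges over the same point
  have hother : ∀ a : ℤ, q * (2 * ((md N M : ℤ) + 1)) ≤ a →
      a + 1 ≤ (q + 1) * (2 * ((md N M : ℤ) + 1)) →
      gInt p v g ((M, Function.update z k a), k) ≤ ε := by
    intro a h1 h2
    apply hε
    rw [edge_sub_core (e := ((M, Function.update z k a), k)) hnM]
    simp only
    have h3 := mul_le_mul_of_nonneg_right hq1 (by linarith : (0:ℤ) ≤ 2 * ((md N M : ℤ) + 1))
    have h4 := mul_le_mul_of_nonneg_right hq2' (by linarith : (0:ℤ) ≤ 2 * ((md N M : ℤ) + 1))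
    rw [hpp, ← mul_assoc, ← mul_assoc]
    refine ⟨fun i => ?_, ?_⟩
    · by_cases hi : i = k
      · subst hi; rw [Function.update_self]; constructor <;> linarith
      · rw [Function.update_of_ne hi]
        have := hz.1 i
        rwa [hpp, ← mul_assoc, ← mul_assoc] at this
    · rw [Function.update_self]; linarith
  rcases eq_or_lt_of_le hr0 with h0 | h0
  · -- lower layer
    have hr : (r:ℝ) = 0 := by exact_mod_cast h0.symm
    refine hS.edge_layer hn hM hv hp hp2 hg heQ 0 (fun t ht => ?_) (fun j hj => ?_) hδ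
    · have h1 := hxk t
      rw [hr] at h1
      have ha : |(pt v M z + t • ((1 / 2 ^ M : ℝ) • ev k)) k - midC k v N q| =
          (md N M + 1 - t) * (1 / 2 ^ M) := by
        rw [h1, abs_mul, abs_of_pos hw, abs_of_nonpos (by linarith [ht.2])]
        ring
      have hle : |(pt v M z + t • ((1 / 2 ^ M : ℝ) • ev k)) k - midC k v N q| ≤
          1 / 2 ^ (N + 1) := by
        rw [ha, ← hmdw]
        exact mul_le_mul_of_nonneg_right (by linarith [ht.1]) hw.le
      have hge : 1 / 2 ^ (N + 1) - 1 / 2 ^ M ≤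
          |(pt v M z + t • ((1 / 2 ^ M : ℝ) • ev k)) k - midC k v N q| := by
        rw [ha, ← hmdw']
        exact mul_le_mul_of_nonneg_right (by linarith [ht.2]) hw.le
      rw [muC_slab hn hM hq hle, (muZ_layer hM (hxc t ht) hge hle).2 (by
        have : ((0:ℝ) + t - (md N M + 1)) * (1 / 2 ^ M) ≤ 0 :=
          mul_nonpos_of_nonpos_of_nonneg (by linarith [ht.2]) hw.le
        linarith)]
      have h2 : (pt v M z + t • ((1 / 2 ^ M : ℝ) • ev k)) k - (midC k v N q - 1 / 2 ^ (N + 1)) =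
          t * (1 / 2 ^ M) := by
        rw [← hmdw]; linarith
      rw [h2]; push_cast; ring
    · apply hother
      · rw [hqr]; simp only [sub_zero]; linarith [Int.natCast_nonneg j]
      · rw [hqr, ← h0]
        have hj' : (j:ℤ) + 1 ≤ (md N M : ℤ) + 1 := by exact_mod_cast hj
        have e1 : (q + 1) * (2 * ((md N M : ℤ) + 1)) =
            q * (2 * ((md N M : ℤ) + 1)) + 2 * ((md N M : ℤ) + 1) := by ring
        rw [e1]
        linarith
  rcases eq_or_lt_of_le (show r ≤ 2 * ((md N M : ℤ) + 1) - 1 by linarith) with h1 | h1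
  · -- upper layer
    have hr : (r:ℝ) = 2 * (md N M + 1) - 1 := by rw [h1]; push_cast; ring
    refine hS.edge_layer hn hM hv hp hp2 hg heQ (md N M) (fun t ht => ?_) (fun j hj => ?_) hδ
    · have h1 := hxk t
      rw [hr] at h1
      have ha : |(pt v M z + t • ((1 / 2 ^ M : ℝ) • ev k)) k - midC k v N q| =
          (md N M + t) * (1 / 2 ^ M) := by
        rw [h1, abs_mul, abs_of_pos hw, abs_of_nonneg (by linarith [ht.1])]
        ring
      have hle : |(pt v M z + t • ((1 / 2 ^ M : ℝ) • ev k)) k - midC k v N q| ≤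
          1 / 2 ^ (N + 1) := by
        rw [ha, ← hmdw]
        exact mul_le_mul_of_nonneg_right (by linarith [ht.2]) hw.le
      have hge : 1 / 2 ^ (N + 1) - 1 / 2 ^ M ≤
          |(pt v M z + t • ((1 / 2 ^ M : ℝ) • ev k)) k - midC k v N q| := by
        rw [ha, ← hmdw']
        exact mul_le_mul_of_nonneg_right (by linarith [ht.1]) hw.le
      rw [muC_slab hn hM hq hle, (muZ_layer hM (hxc t ht) hge hle).1 (by
        have : 0 ≤ ((2 * ((md N M : ℝ) + 1) - 1) + t - (md N M + 1)) * (1 / 2 ^ M) :=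
          mul_nonneg (by linarith [ht.1]) hw.le
        linarith)]
      have h2 : (pt v M z + t • ((1 / 2 ^ M : ℝ) • ev k)) k - (midC k v N q + 1 / 2 ^ (N + 1)) =
          (t - 1) * (1 / 2 ^ M) := by
        rw [← hmdw]; linarith
      rw [h2]; push_cast; ring
    · apply hother
      · rw [hqr, h1]
        linarith [Int.natCast_nonneg j]
      · rw [hqr, h1]
        have hj' : (j:ℤ) + 1 ≤ (md N M : ℤ) + 1 := by exact_mod_cast hj
        have e1 : (q + 1) * (2 * ((md N M : ℤ) + 1)) =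
            q * (2 * ((md N M : ℤ) + 1)) + 2 * ((md N M : ℤ) + 1) := by ring
        rw [e1]
        linarith
  · -- main part
    have hr2 : (1:ℝ) ≤ r := by exact_mod_cast h0
    have hr3 : (r:ℝ) + 1 ≤ 2 * (md N M + 1) - 1 := by exact_mod_cast h1
    refine hS.edge_main hn hM hv hp hg heQ ((md N M + 1 - r) * (1 / 2 ^ M)) (fun t ht => ?_)
      (lt_of_le_of_lt zero_le hδ)
    have h1 := hxk t
    have ha : |(pt v M z + t • ((1 / 2 ^ M : ℝ) • ev k)) k - midC k v N q| ≤
        md N M * (1 / 2 ^ M) := by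
      rw [h1, abs_mul, abs_of_pos hw]
      apply mul_le_mul_of_nonneg_right _ hw.le
      rw [abs_le]
      constructor <;> linarith [ht.1, ht.2]
    rw [muC_slab hn hM hq (ha.trans (by rw [hmdw']; linarith)),
      muZ_main (by rw [lamC_eq (hxc t ht)]; exact ha), h1]
    ring

end Vale.Agent.P073.LOC.L3
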