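import Vale.Agent.P073.LOC.CollSpec
import Vale.Agent.P073.AB.Sum293a
import Vale.Agent.P073.AB.Sum308d

/-!
# P073, block LOC-3D (L3A): the collapse on the thick part

`SForm`: the form of the collapse `S` near the thick part; `thick_key`: the derivative of `g ∘ S` is
close to the derivative of `g` on the middle plane; `ctrl_of`, `vol_of`: the fields `ctrl` and `vol`
of `CollOut`.
-/

namespace Vale.Agent.P073.LOC.T67

open MeasureTheory Set Filter Topology Metric Vale.Agent.P073.St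
open Vale.Agent.P073.SQ (ev cube Cells faceE dE)
open Vale.Agent.P073.AB (cl Idx pt edge eInt squ tiles EdgeOf MinSq Part sqE)
open Vale.Agent.P073.AB.P86 (sc)
open Vale.Agent.P073.AB.S293 (measurable_dE eInt_eq faceE_eq)
open P073.Net (IsTile dyc dyo SizeFn)
open scoped ContDiff ENNReal

/-- form of the collapse `S` near the thick part -/
def SForm (v : V) (n m : ℕ) (μ : ℝ) (S : V → V) : Prop :=
  ∀ z : ℤ, 2 ≤ z → z < 2 ^ n - 3 → ∀ x ∈ thick v n m z,
    S =ᶠ[𝓝 x] fun y => Function.update y 2 (mid v n z + μ * (y 2 - mid v n z))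

/-- the derivative of `G` is `η`-close to the one of `g` on the middle planes -/
def Key (v : V) (n m : ℕ) (η : ℝ) (g G : V → V) : Prop :=
  ∀ z : ℤ, 2 ≤ z → z < 2 ^ n - 3 → ∀ x ∈ thick v n m z,
    (∀ j : Fin 3, j ≠ 2 →
      ‖fderiv ℝ G x (ev j) - fderiv ℝ g (Function.update x 2 (mid v n z)) (ev j)‖ ≤ η) ∧
    ‖fderiv ℝ G x (ev 2)‖ ≤ η

theorem isOpen_Q1 : IsOpen Q1 := by
  have : Q1 = Set.pi univ fun _ : Fin 3 => Ioo (0:ℝ) 1 := by
    ext y; exact ⟨fun h k _ => h k, fun h k => h k (mem_univ k)⟩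
  rw [this]
  exact isOpen_set_pi finite_univ fun _ _ => isOpen_Ioo

theorem core_sub {v : V} {n : ℕ} (hv : ∀ i, 0 ≤ v i ∧ v i < 1 / 2 ^ n) : core v n ⊆ Q1 := by
  intro x hx i
  have h2 : (0:ℝ) < 2 ^ n := by positivity
  have h3 := (hv i).1
  have h4 := (hv i).2
  have h5 := (hx i).1
  have h6 := (hx i).2
  have h7 : (0:ℝ) < 2 / 2 ^ n := by positivity
  have h8 : ((2:ℝ) ^ n - 3) / 2 ^ n = 1 - 3 / 2 ^ n := by field_simp
  have h9 : (3:ℝ) / 2 ^ n = 3 * (1 / 2 ^ n) := by ring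
  have h10 : (0:ℝ) < 1 / 2 ^ n := by positivity
  constructor
  · linarith
  · rw [h8, h9] at h6; linarith

theorem isCompact_core (v : V) (n : ℕ) : IsCompact (core v n) := by
  have : core v n = Set.pi univ fun i : Fin 3 => Icc (v i + 2 / 2 ^ n) (v i + (2 ^ n - 3) / 2 ^ n) := by
    ext y; exact ⟨fun h k _ => h k, fun h k => h k (mem_univ k)⟩
  rw [this]
  exact isCompact_univ_pi fun _ => isCompact_Icc

/-- the slab `z` is in the range of the core -/
theorem slab_range {v : V} {n : ℕ} {z : ℤ} (hz : 2 ≤ z) (hz' : z < 2 ^ n - 3) {t : ℝ}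
    (ht : |t - mid v n z| ≤ 1 / 2 ^ (n + 1)) :
    v 2 + 2 / 2 ^ n ≤ t ∧ t ≤ v 2 + (2 ^ n - 3) / 2 ^ n := by
  have h2 : (0:ℝ) < 2 ^ n := by positivity
  rw [abs_le] at ht
  have h1 : mid v n z = v 2 + z / 2 ^ n + 1 / 2 ^ (n + 1) := by
    unfold mid; rw [pow_succ]; field_simp; ring
  have h3 : (1:ℝ) / 2 ^ n = 2 * (1 / 2 ^ (n + 1)) := by rw [pow_succ]; field_simp
  have h4 : (2:ℝ) / 2 ^ n ≤ z / 2 ^ n := by
    rw [div_le_div_iff_of_pos_right h2]; exact_mod_cast hz
  have h5 : ((z:ℝ) + 1) / 2 ^ n ≤ (2 ^ n - 3) / 2 ^ n := by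
    rw [div_le_div_iff_of_pos_right h2]
    have : z + 1 ≤ 2 ^ n - 3 := by omega
    exact_mod_cast this
  have h6 : ((z:ℝ) + 1) / 2 ^ n = z / 2 ^ n + 1 / 2 ^ n := by ring
  constructor <;> linarith [ht.1, ht.2]

theorem update_core {v : V} {n : ℕ} {z : ℤ} (hz : 2 ≤ z) (hz' : z < 2 ^ n - 3) {x : V}
    (hx : x ∈ core v n) {t : ℝ} (ht : |t - mid v n z| ≤ 1 / 2 ^ (n + 1)) :
    Function.update x 2 t ∈ core v n := by
  intro i
  by_cases hi : i = 2
  · subst hi
    rw [Function.update_self]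
    exact slab_range hz hz' ht
  · rw [Function.update_of_ne hi]
    exact hx i

theorem contDiffOn_of_diffeo {Ω Λ : Set V} {g : V → V} (h : IsDiffeo Ω Λ g) :
    ContDiffOn ℝ ∞ g Ω := by
  obtain ⟨h', _, h2, _⟩ := h
  exact contDiffOn_pi.2 h2

theorem norm_ev (j : Fin 3) : ‖(ev j : V)‖ = 1 := by
  rw [ev, Pi.norm_single, norm_one]

/-- the linear part of the collapse -/
noncomputable def lin (μ : ℝ) : V →L[ℝ] V :=
  ContinuousLinearMap.pi fun i => if i = 2 then μ • ContinuousLinearMap.proj 2 else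
    ContinuousLinearMap.proj i

theorem hasFDerivAt_upd (c μ : ℝ) (x : V) :
    HasFDerivAt (fun y : V => Function.update y 2 (c + μ * (y 2 - c))) (lin μ) x := by
  rw [hasFDerivAt_pi']
  intro i
  by_cases hi : i = 2
  · subst hi
    simp only [Function.update_self]
    have h1 : HasFDerivAt (fun y : V => y 2) (ContinuousLinearMap.proj 2 : V →L[ℝ] ℝ) x :=
      hasFDerivAt_apply 2 x
    have h2 : HasFDerivAt (fun y : V => c + μ * (y 2 - c))
        (μ • (ContinuousLinearMap.proj 2 : V →L[ℝ] ℝ)) x :=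
      ((h1.sub_const c).const_mul μ).const_add c
    have h3 : (ContinuousLinearMap.proj 2).comp (lin μ) =
        μ • (ContinuousLinearMap.proj 2 : V →L[ℝ] ℝ) := by
      ext w; simp [lin]
    rw [h3]; exact h2
  · simp only [Function.update_of_ne hi]
    have h3 : (ContinuousLinearMap.proj i).comp (lin μ) =
        (ContinuousLinearMap.proj i : V →L[ℝ] ℝ) := by
      ext w; simp [lin, hi]
    rw [h3]; exact hasFDerivAt_apply i x

theorem lin_ev {μ : ℝ} {j : Fin 3} (hj : j ≠ 2) : lin μ (ev j) = ev j := by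
  funext i
  by_cases hi : i = 2
  · subst hi
    simp [lin, ev, Pi.single_eq_of_ne hj.symm]
  · simp [lin, hi]

theorem lin_ev2 {μ : ℝ} : lin μ (ev 2) = μ • ev 2 := by
  funext i
  by_cases hi : i = 2
  · subst hi
    simp [lin, ev]
  · simp [lin, hi, ev]

/-- **the key estimate** -/
theorem thick_key {g : V → V} {v : V} {n : ℕ} {Λ : Set V} (hv : ∀ i, 0 ≤ v i ∧ v i < 1 / 2 ^ n)
    (hg : IsDiffeo Q1 Λ g) {η : ℝ} (hη : 0 < η) :
    ∃ μ₀ > 0, ∀ (m : ℕ) (μ : ℝ), 0 ≤ μ → μ ≤ μ₀ → ∀ S, SForm v n m μ S → Key v n m η g (g ∘ S) := by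
  have hc := contDiffOn_of_diffeo hg
  have hcd : ContinuousOn (fderiv ℝ g) Q1 :=
    hc.continuousOn_fderiv_of_isOpen isOpen_Q1 (by norm_num)
  have hK := isCompact_core v n
  have hsub := core_sub hv
  obtain ⟨M, hM⟩ := (hK.image_of_continuousOn (hcd.mono hsub)).isBounded.exists_norm_le
  have hM' : ∀ x ∈ core v n, ‖fderiv ℝ g x‖ ≤ M := fun x hx => hM _ (mem_image_of_mem _ hx)
  have huc := hK.uniformContinuousOn_of_continuous (hcd.mono hsub)
  rw [Metric.uniformContinuousOn_iff] at huc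
  obtain ⟨r, hr, huc⟩ := huc η hη
  have hM0 : 0 < |M| + 1 := by positivity
  refine ⟨min 1 (min (r / 2) (η / (|M| + 1))), by positivity, ?_⟩
  intro m μ hμ hμ0 S hS z hz hz' x hx
  have hμ1 : μ ≤ 1 := hμ0.trans (min_le_left _ _)
  have hμr : μ ≤ r / 2 := hμ0.trans ((min_le_right _ _).trans (min_le_left _ _))
  have hμM : μ ≤ η / (|M| + 1) := hμ0.trans ((min_le_right _ _).trans (min_le_right _ _))
  set c := mid v n z with hcdef
  set A : V → V := fun y => Function.update y 2 (c + μ * (y 2 - c)) with hA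
  have hxt : |x 2 - c| ≤ 1 / 2 ^ (n + 1) := by
    have := hx.2
    have h1 : (0:ℝ) < 1 / 2 ^ m := by positivity
    linarith
  have hAx : A x ∈ core v n := by
    refine update_core hz hz' hx.1 ?_
    rw [← hcdef, add_sub_cancel_left, abs_mul, abs_of_nonneg hμ]
    calc μ * |x 2 - c| ≤ 1 * |x 2 - c| := mul_le_mul_of_nonneg_right hμ1 (abs_nonneg _)
      _ ≤ _ := by rw [one_mul]; exact hxt
  have hBx : Function.update x 2 c ∈ core v n := by
    refine update_core hz hz' hx.1 ?_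
    rw [← hcdef, sub_self, abs_zero]; positivity
  have hAB : dist (A x) (Function.update x 2 c) < r := by
    have h1 : (1:ℝ) / 2 ^ (n + 1) ≤ 1 := by
      rw [div_le_one (by positivity)]
      exact one_le_pow₀ (by norm_num)
    refine lt_of_le_of_lt ((dist_pi_le_iff (by positivity : (0:ℝ) ≤ r / 2)).2 fun i => ?_)
      (half_lt_self hr)
    by_cases hi : i = 2
    · subst hi
      rw [hA]
      simp only [Function.update_self]
      rw [Real.dist_eq, add_sub_cancel_left, abs_mul, abs_of_nonneg hμ]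
      calc μ * |x 2 - c| ≤ μ * 1 := mul_le_mul_of_nonneg_left (hxt.trans h1) hμ
        _ ≤ r / 2 := by linarith
    · rw [hA]
      simp only [Function.update_of_ne hi, dist_self]
      positivity
  have hd : HasFDerivAt g (fderiv ℝ g (A x)) (A x) :=
    ((hc.differentiableOn (by norm_num)).differentiableAt
      (isOpen_Q1.mem_nhds (hsub hAx))).hasFDerivAt
  have h1 : HasFDerivAt (g ∘ S) ((fderiv ℝ g (A x)).comp (lin μ)) x := by
    have h2 : HasFDerivAt (g ∘ A) ((fderiv ℝ g (A x)).comp (lin μ)) x :=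
      hd.comp x (hasFDerivAt_upd c μ x)
    refine h2.congr_of_eventuallyEq ?_
    filter_upwards [hS z hz hz' x hx] with y hy
    simp only [Function.comp_apply, hA]
    rw [hy]
  rw [h1.fderiv]
  have hnear : ‖fderiv ℝ g (A x) - fderiv ℝ g (Function.update x 2 c)‖ ≤ η := by
    rw [← dist_eq_norm]
    exact (huc _ hAx _ hBx hAB).le
  constructor
  · intro j hj
    rw [ContinuousLinearMap.comp_apply, lin_ev hj]
    calc ‖fderiv ℝ g (A x) (ev j) - fderiv ℝ g (Function.update x 2 c) (ev j)‖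
        = ‖(fderiv ℝ g (A x) - fderiv ℝ g (Function.update x 2 c)) (ev j)‖ := by
          rw [sub_apply]
      _ ≤ ‖fderiv ℝ g (A x) - fderiv ℝ g (Function.update x 2 c)‖ * ‖(ev j : V)‖ :=
          ContinuousLinearMap.le_opNorm _ _
      _ ≤ η := by rw [norm_ev, mul_one]; exact hnear
  · rw [ContinuousLinearMap.comp_apply, lin_ev2, map_smul, norm_smul, Real.norm_eq_abs,
      abs_of_nonneg hμ]
    calc μ * ‖fderiv ℝ g (A x) (ev 2)‖ ≤ μ * (|M| + 1) := by
          refine mul_le_mul_of_nonneg_left ?_ hμ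
          calc ‖fderiv ℝ g (A x) (ev 2)‖ ≤ ‖fderiv ℝ g (A x)‖ * ‖(ev 2 : V)‖ :=
                ContinuousLinearMap.le_opNorm _ _
            _ ≤ |M| + 1 := by
                rw [norm_ev, mul_one]
                exact (hM' _ hAx).trans ((le_abs_self M).trans (by linarith))
      _ ≤ η := by rwa [← le_div_iff₀ hM0]

/-! ## The protected cubes lie in the thick parts -/

theorem newP_thick {v : V} {n m : ℕ} (hnm : n + 2 ≤ m) {q : Idx} (hq : q ∈ newP v n m) :
    ∃ z : ℤ, 2 ≤ z ∧ z < 2 ^ n - 3 ∧ dyc v q.1 q.2 ⊆ thick v n m z := by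
  obtain ⟨⟨hq1, hqc⟩, hd1, hd2⟩ := hq
  set D : ℤ := 2 ^ (m - n) with hD
  have hDpos : 0 < D := by positivity
  have h2m : (2:ℝ) ^ m = 2 ^ n * (D : ℝ) := by
    rw [hD]; push_cast; rw [← pow_add]; congr 1; omega
  have hn0 : (0:ℝ) < 2 ^ n := by positivity
  have hm0 : (0:ℝ) < 2 ^ m := by positivity
  have hDr : (0:ℝ) < (D:ℝ) := by exact_mod_cast hDpos
  set z : ℤ := q.2 2 / D with hz
  have hmod : D * z + q.2 2 % D = q.2 2 := Int.mul_ediv_add_emod _ _
  have hr0 : 0 ≤ q.2 2 % D := Int.emod_nonneg _ hDpos.ne'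
  have hr1 : q.2 2 % D < D := Int.emod_lt_of_pos _ hDpos
  have hr2 : q.2 2 % D ≠ 0 := fun h => hd1 (Int.dvd_of_emod_eq_zero h)
  have hr3 : q.2 2 % D ≠ D - 1 := fun h => hd2 ⟨z + 1, by rw [← hmod, h]; ring⟩
  have hlo : D * z + 1 ≤ q.2 2 := by omega
  have hup : q.2 2 + 1 ≤ D * z + D - 1 := by omega
  -- the range of z
  have hp1 : pt v q.1 q.2 ∈ dyc v q.1 q.2 := by
    intro k
    simp only [pt]
    refine ⟨le_rfl, ?_⟩
    have : (q.2 k : ℝ) / 2 ^ q.1 ≤ (q.2 k + 1) / 2 ^ q.1 := by gcongr; linarith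
    linarith
  have hp2 : (fun k => v k + ((q.2 k : ℝ) + 1) / 2 ^ q.1) ∈ dyc v q.1 q.2 := by
    intro k
    refine ⟨?_, le_rfl⟩
    have : (q.2 k : ℝ) / 2 ^ q.1 ≤ (q.2 k + 1) / 2 ^ q.1 := by gcongr; linarith
    show v k + (q.2 k : ℝ) / 2 ^ q.1 ≤ v k + ((q.2 k : ℝ) + 1) / 2 ^ q.1
    linarith
  have hc1 := (hqc hp1 2).1
  have hc2 := (hqc hp2 2).2
  simp only [pt] at hc1 hc2
  have hz2 : 2 ≤ z := by
    rw [hz]
    refine Int.le_ediv_of_mul_le hDpos ?_
    have h1 : (2:ℝ) / 2 ^ n ≤ q.2 2 / 2 ^ q.1 := by linarith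
    rw [hq1, h2m, div_le_div_iff₀ hn0 (by positivity)] at h1
    have h2 : (2:ℝ) * D ≤ q.2 2 := by
      have : (2 * D) * 2 ^ n ≤ (q.2 2 : ℝ) * 2 ^ n := by linarith
      exact le_of_mul_le_mul_right this hn0
    exact_mod_cast h2
  have hz3 : z < 2 ^ n - 3 := by
    rw [hz]
    refine Int.ediv_lt_of_lt_mul hDpos ?_
    have h1 : ((q.2 2 : ℝ) + 1) / 2 ^ q.1 ≤ (2 ^ n - 3) / 2 ^ n := by linarith
    rw [hq1, h2m, div_le_div_iff₀ (by positivity) hn0] at h1
    have h2 : (q.2 2 : ℝ) + 1 ≤ (2 ^ n - 3) * D := by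
      have : ((q.2 2 : ℝ) + 1) * 2 ^ n ≤ ((2 ^ n - 3) * D) * 2 ^ n := by linarith
      exact le_of_mul_le_mul_right this hn0
    have h3 : q.2 2 + 1 ≤ (2 ^ n - 3) * D := by exact_mod_cast h2
    omega
  refine ⟨z, hz2, hz3, fun x hx => ⟨hqc hx, ?_⟩⟩
  have hx2 := hx 2
  rw [hq1] at hx2
  have hmid : mid v n z = v 2 + z / 2 ^ n + 1 / 2 ^ (n + 1) := by
    unfold mid; rw [pow_succ]; field_simp; ring
  have h1n : (1:ℝ) / 2 ^ n = 2 * (1 / 2 ^ (n + 1)) := by rw [pow_succ]; field_simp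
  have hlo' : (z:ℝ) / 2 ^ n + 1 / 2 ^ m ≤ q.2 2 / 2 ^ m := by
    have h1 : (z:ℝ) / 2 ^ n = D * z / 2 ^ m := by rw [h2m]; field_simp
    rw [h1, ← add_div, div_le_div_iff_of_pos_right hm0]
    exact_mod_cast hlo
  have hup' : ((q.2 2 : ℝ) + 1) / 2 ^ m ≤ z / 2 ^ n + 1 / 2 ^ n - 1 / 2 ^ m := by
    have h1 : (z:ℝ) / 2 ^ n = D * z / 2 ^ m := by rw [h2m]; field_simp
    have h2 : (1:ℝ) / 2 ^ n = D / 2 ^ m := by rw [h2m]; field_simp
    rw [h1, h2, ← add_div, ← sub_div, div_le_div_iff_of_pos_right hm0]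
    exact_mod_cast hup
  rw [abs_le]
  constructor <;> linarith [hx2.1, hx2.2]

/-! ## Elementary inequalities -/

theorem rpow_add_le4 {p a b : ℝ} (hp : 1 ≤ p) (hp2 : p < 2) (ha : 0 ≤ a) (hb : 0 ≤ b) :
    (a + b) ^ p ≤ 4 * (a ^ p + b ^ p) := by
  have h0 : 0 ≤ p := by linarith
  have key : ∀ {a b : ℝ}, 0 ≤ a → 0 ≤ b → a ≤ b → (a + b) ^ p ≤ 4 * (a ^ p + b ^ p) := by
    intro a b ha hb hab
    calc (a + b) ^ p ≤ (2 * b) ^ p := Real.rpow_le_rpow (by positivity) (by linarith) h0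
      _ = 2 ^ p * b ^ p := Real.mul_rpow (by norm_num) hb
      _ ≤ 4 * b ^ p := by
          refine mul_le_mul_of_nonneg_right ?_ (by positivity)
          calc (2:ℝ) ^ p ≤ 2 ^ (2:ℝ) := Real.rpow_le_rpow_of_exponent_le (by norm_num) hp2.le
            _ = 4 := by norm_num
      _ ≤ 4 * (a ^ p + b ^ p) := by
          have : 0 ≤ a ^ p := by positivity
          linarith
  rcases le_total a b with h | h
  · exact key ha hb h
  · rw [add_comm a b, add_comm (a ^ p)]; exact key hb ha h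

theorem rpow_le_self {p η : ℝ} (hp : 1 ≤ p) (hη : 0 ≤ η) (hη1 : η ≤ 1) : η ^ p ≤ η := by
  rcases hη.eq_or_lt with rfl | h
  · rw [Real.zero_rpow (by linarith)]
  · calc η ^ p ≤ η ^ (1:ℝ) := Real.rpow_le_rpow_of_exponent_ge h hη1 hp
      _ = η := Real.rpow_one η

theorem norm_rpow_le {p η : ℝ} (hp : 1 ≤ p) (hp2 : p < 2) (hη : 0 ≤ η) (hη1 : η ≤ 1) {a b : V}
    (h : ‖a - b‖ ≤ η) : ‖a‖ ^ p ≤ 4 * (η + ‖b‖ ^ p) := by
  have h0 : 0 ≤ p := by linarith
  have h1 : ‖a‖ ≤ η + ‖b‖ := by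
    have := norm_add_le (a - b) b
    rw [sub_add_cancel] at this
    linarith
  calc ‖a‖ ^ p ≤ (η + ‖b‖) ^ p := Real.rpow_le_rpow (norm_nonneg _) h1 h0
    _ ≤ 4 * (η ^ p + ‖b‖ ^ p) := rpow_add_le4 hp hp2 hη (norm_nonneg _)
    _ ≤ 4 * (η + ‖b‖ ^ p) := by
        have := rpow_le_self hp hη hη1
        linarith

theorem volume_Q1_le : volume Q1 ≤ 1 := by
  have : Q1 = Set.pi univ fun _ : Fin 3 => Ioo (0:ℝ) 1 := by
    ext y; exact ⟨fun h k _ => h k, fun h k => h k (mem_univ k)⟩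
  rw [this, volume_pi_pi]
  simp

theorem measurable_mid (p : ℝ) (g : V → V) (L : V →L[ℝ] V) (j : Fin 3) (c : ℝ) :
    Measurable fun x : V =>
      ENNReal.ofReal (‖fderiv ℝ g (Function.update x 2 c) (ev j) - L (ev j)‖ ^ p) := by
  have h1 : Measurable fun x : V => fderiv ℝ g x (ev j) := measurable_fderiv_apply_const ℝ g (ev j)
  have h2 : Measurable fun x : V => Function.update x 2 c := by
    refine measurable_pi_iff.2 fun i => ?_
    by_cases hi : i = 2
    · subst hi; simp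
    · simp only [Function.update_of_ne hi]; exact measurable_pi_apply i
  exact (((h1.comp h2).sub_const _).norm.pow_const p).ennreal_ofReal

/-! ## The volume -/

theorem vol_of {p C ε η : ℝ} {n m : ℕ} {L : V →L[ℝ] V} {Λ : Set V} {f g G : V → V} {v : V}
    (hp : 1 ≤ p) (hp2 : p < 2) (hL : L (ev 2) = 0) (hnm : n + 2 ≤ m)
    (hS : Sec p C ε n m L Λ f g v) (hε : 0 ≤ ε) (hη : 0 ≤ η) (hη1 : η ≤ 1)
    (hK : Key v n m η g G) :
    ∑ j, ∫⁻ x in ⋃ q ∈ newP v n m, dyc v q.1 q.2,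
      ENNReal.ofReal (‖fderiv ℝ G x (ev j) - L (ev j)‖ ^ p) ≤
        ENNReal.ofReal (12 * 2 ^ n * (η + ε)) := by
  have h0 : 0 ≤ p := by linarith
  set J : Finset ℤ := Finset.Ico 2 (2 ^ n - 3) with hJ
  have hJc : (J.card : ℝ) ≤ 2 ^ n := by
    rw [hJ, Int.card_Ico]
    have h1 : (((2:ℤ) ^ n - 3 - 2).toNat : ℤ) ≤ 2 ^ n := by
      have : (0:ℤ) < 2 ^ n := by positivity
      omega
    exact_mod_cast h1
  have hsub : (⋃ q ∈ newP v n m, dyc v q.1 q.2) ⊆ ⋃ z : J, thick v n m z := by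
    refine iUnion₂_subset fun q hq => ?_
    obtain ⟨z, hz, hz', h⟩ := newP_thick hnm hq
    exact h.trans (subset_iUnion_of_subset ⟨z, Finset.mem_Ico.2 ⟨hz, hz'⟩⟩ Subset.rfl)
  have hcore := core_sub hS.org
  have key : ∀ j : Fin 3, ∀ z : J, ∫⁻ x in thick v n m z,
      ENNReal.ofReal (‖fderiv ℝ G x (ev j) - L (ev j)‖ ^ p) ≤ ENNReal.ofReal (4 * (η + ε)) := by
    intro j z
    have hz := Finset.mem_Ico.1 z.2
    by_cases hj : j = 2
    · subst hj
      calc ∫⁻ x in thick v n m z, ENNReal.ofReal (‖fderiv ℝ G x (ev 2) - L (ev 2)‖ ^ p)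
          ≤ ∫⁻ x in thick v n m z, ENNReal.ofReal η := by
            refine setLIntegral_mono measurable_const fun x hx => ENNReal.ofReal_le_ofReal ?_
            rw [hL, sub_zero]
            exact (Real.rpow_le_rpow (norm_nonneg _) (hK z hz.1 hz.2 x hx).2 h0).trans
              (rpow_le_self hp hη hη1)
        _ = ENNReal.ofReal η * volume (thick v n m z) := by
            rw [setLIntegral_const]
        _ ≤ ENNReal.ofReal η * 1 := by
            gcongr
            exact (measure_mono (fun x hx => hcore hx.1)).trans volume_Q1_le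
        _ ≤ ENNReal.ofReal (4 * (η + ε)) := by
            rw [mul_one]; exact ENNReal.ofReal_le_ofReal (by linarith)
    · have hpt : ∀ x ∈ thick v n m z, ENNReal.ofReal (‖fderiv ℝ G x (ev j) - L (ev j)‖ ^ p) ≤
          ENNReal.ofReal 4 * (ENNReal.ofReal η + ENNReal.ofReal
            (‖fderiv ℝ g (Function.update x 2 (mid v n z)) (ev j) - L (ev j)‖ ^ p)) := by
        intro x hx
        rw [← ENNReal.ofReal_add hη (by positivity), ← ENNReal.ofReal_mul (by norm_num)]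
        refine ENNReal.ofReal_le_ofReal (norm_rpow_le hp hp2 hη hη1 ?_)
        rw [sub_sub_sub_cancel_right]
        exact (hK z hz.1 hz.2 x hx).1 j hj
      have hmeas := measurable_mid p g L j (mid v n z)
      calc ∫⁻ x in thick v n m z, ENNReal.ofReal (‖fderiv ℝ G x (ev j) - L (ev j)‖ ^ p)
          ≤ ∫⁻ x in thick v n m z, ENNReal.ofReal 4 * (ENNReal.ofReal η + ENNReal.ofReal
            (‖fderiv ℝ g (Function.update x 2 (mid v n z)) (ev j) - L (ev j)‖ ^ p)) :=
            setLIntegral_mono ((measurable_const.add hmeas).const_mul _) hpt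
        _ ≤ ∫⁻ x in core v n, ENNReal.ofReal 4 * (ENNReal.ofReal η + ENNReal.ofReal
            (‖fderiv ℝ g (Function.update x 2 (mid v n z)) (ev j) - L (ev j)‖ ^ p)) :=
            lintegral_mono_set fun x hx => hx.1
        _ = ENNReal.ofReal 4 * (ENNReal.ofReal η * volume (core v n) + ∫⁻ x in core v n,
            ENNReal.ofReal
              (‖fderiv ℝ g (Function.update x 2 (mid v n z)) (ev j) - L (ev j)‖ ^ p)) := by
            have h1 := lintegral_const_mul (μ := volume.restrict (core v n)) (ENNReal.ofReal 4)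
              (measurable_const (a := ENNReal.ofReal η).add hmeas)
            have h2 := lintegral_add_left (μ := volume.restrict (core v n))
              (measurable_const (a := ENNReal.ofReal η)) fun x : V => ENNReal.ofReal
                (‖fderiv ℝ g (Function.update x 2 (mid v n z)) (ev j) - L (ev j)‖ ^ p)
            rw [setLIntegral_const] at h2
            rw [← h2]
            exact h1
        _ ≤ ENNReal.ofReal 4 * (ENNReal.ofReal η * 1 + ENNReal.ofReal ε) := by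
            gcongr
            · exact (measure_mono hcore).trans volume_Q1_le
            · refine le_trans ?_ (hS.sec z hz.1 hz.2)
              exact Finset.single_le_sum (f := fun j => ∫⁻ x in core v n, ENNReal.ofReal
                (‖fderiv ℝ g (Function.update x 2 (mid v n z)) (ev j) - L (ev j)‖ ^ p))
                (fun _ _ => zero_le) (Finset.mem_erase.2 ⟨hj, Finset.mem_univ _⟩)
        _ = ENNReal.ofReal (4 * (η + ε)) := by
            rw [mul_one, ← ENNReal.ofReal_add hη hε, ← ENNReal.ofReal_mul (by norm_num)]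
  calc ∑ j, ∫⁻ x in ⋃ q ∈ newP v n m, dyc v q.1 q.2,
        ENNReal.ofReal (‖fderiv ℝ G x (ev j) - L (ev j)‖ ^ p)
      ≤ ∑ _j : Fin 3, ENNReal.ofReal (2 ^ n * (4 * (η + ε))) := by
        refine Finset.sum_le_sum fun j _ => ?_
        calc ∫⁻ x in ⋃ q ∈ newP v n m, dyc v q.1 q.2,
              ENNReal.ofReal (‖fderiv ℝ G x (ev j) - L (ev j)‖ ^ p)
            ≤ ∫⁻ x in ⋃ z : J, thick v n m z,
              ENNReal.ofReal (‖fderiv ℝ G x (ev j) - L (ev j)‖ ^ p) := lintegral_mono_set hsub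
          _ ≤ ∑' z : J, ∫⁻ x in thick v n m z,
              ENNReal.ofReal (‖fderiv ℝ G x (ev j) - L (ev j)‖ ^ p) := lintegral_iUnion_le _ _
          _ ≤ ∑' _z : J, ENNReal.ofReal (4 * (η + ε)) := ENNReal.tsum_le_tsum (key j)
          _ = ENNReal.ofReal ((J.card : ℝ) * (4 * (η + ε))) := by
              rw [tsum_fintype, Finset.sum_const, Finset.card_univ, Fintype.card_coe,
                nsmul_eq_mul, ENNReal.ofReal_mul (Nat.cast_nonneg _), ENNReal.ofReal_natCast]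
          _ ≤ ENNReal.ofReal (2 ^ n * (4 * (η + ε))) := by
              refine ENNReal.ofReal_le_ofReal (mul_le_mul_of_nonneg_right hJc (by positivity))
    _ = ENNReal.ofReal (12 * 2 ^ n * (η + ε)) := by
        rw [Finset.sum_const, Finset.card_univ, Fintype.card_fin, nsmul_eq_mul,
          show ((3:ℕ) : ℝ≥0∞) = ENNReal.ofReal 3 by norm_num, ← ENNReal.ofReal_mul (by norm_num)]
        congr 1; ring

end Vale.Agent.P073.LOC.T67
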