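import Vale.Agent.P073.LOC.CollParts
import Vale.Agent.P073.LOC.Thick67

/-!
# P073, block LOC-3D (L3A): the volume (`SpecVol`)
-/

namespace Vale.Agent.P073.LOC.T67

open MeasureTheory Set Filter Topology Metric Vale.Agent.P073.St
open Vale.Agent.P073.SQ (ev cube)
open Vale.Agent.P073.AB (Idx)
open Vale.Agent.P073.LR (AffNear)
open Vale.Agent.P073.LOC.L3 (CS muC midC slabs cc hl muC_near_main SpecVol)
open P073.Net (dyc dyo)
open scoped ContDiff ENNReal

theorem affNear_of_eventually {μ : V → ℝ} {a w : V} {c : ℝ}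
    (h : ∀ᶠ y in 𝓝 a, μ y = -(y 2 - c)) : AffNear μ a w (-(w 2)) := by
  obtain ⟨ρ, hρ, h⟩ := Metric.eventually_nhds_iff.1 h
  have hw : 0 < 1 + ‖w‖ := by positivity
  have hρw : 0 < ρ / (1 + ‖w‖) / 2 := by positivity
  refine ⟨min (ρ / 2) (ρ / (1 + ‖w‖) / 2), lt_min (by positivity) hρw, fun z hz s hs => ?_⟩
  have hz' : ‖z - a‖ < ρ / 2 := hz.trans_le (min_le_left _ _)
  have hs' : |s| < ρ / (1 + ‖w‖) / 2 := hs.trans_le (min_le_right _ _)
  have h1 : dist z a < ρ := by rw [dist_eq_norm]; linarith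
  have hsw : |s| * ‖w‖ ≤ ρ / 2 := by
    have h2 : |s| * ‖w‖ ≤ ρ / (1 + ‖w‖) / 2 * (1 + ‖w‖) :=
      mul_le_mul hs'.le (by linarith) (norm_nonneg _) hρw.le
    have h3 : ρ / (1 + ‖w‖) / 2 * (1 + ‖w‖) = ρ / 2 := by field_simp
    linarith
  have h2 : dist (z + s • w) a < ρ := by
    rw [dist_eq_norm]
    calc ‖z + s • w - a‖ = ‖(z - a) + s • w‖ := by congr 1; abel
      _ ≤ ‖z - a‖ + ‖s • w‖ := norm_add_le _ _
      _ = ‖z - a‖ + |s| * ‖w‖ := by rw [norm_smul, Real.norm_eq_abs]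
      _ < ρ := by linarith
  rw [h h1, h h2]
  simp only [Pi.add_apply, Pi.smul_apply, smul_eq_mul]
  ring

/-- the open thick part -/
theorem near_of_thick {v : V} {n m : ℕ} (hn : 3 ≤ n) (hnm : n + 2 ≤ m) {z : ℤ} (hz : 2 ≤ z)
    (hz' : z < 2 ^ n - 3) {x : V} (hx : x ∈ core v n)
    (h : |x 2 - mid v n z| < 1 / 2 ^ (n + 1) - 1 / 2 ^ m) :
    ∀ᶠ y in 𝓝 x, muC 2 v n n m y = -(y 2 - mid v n z) := by
  refine muC_near_main hn hnm (k := 2) (z := z) ?_ (fun i _ => L3.mem_core_iff.1 hx i) h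
  unfold slabs
  rw [Finset.mem_Ico]
  simp only [Nat.sub_self, pow_zero, mul_one]
  exact ⟨hz, hz'⟩

theorem volume_level (t : ℝ) : volume {x : V | x 2 = t} = 0 := by
  have h : {x : V | x 2 = t} ⊆ Set.pi univ fun i : Fin 3 => if i = 2 then ({t} : Set ℝ) else univ := by
    intro x hx i _
    by_cases hi : i = 2
    · subst hi; simpa using hx
    · simp [hi]
  refine measure_mono_null h ?_
  rw [volume_pi_pi]
  refine Finset.prod_eq_zero (Finset.mem_univ (2 : Fin 3)) ?_
  simp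

theorem isClosed_thick (v : V) (n m : ℕ) (z : ℤ) : IsClosed (thick v n m z) := by
  have : thick v n m z = core v n ∩ {x | |x 2 - mid v n z| ≤ 1 / 2 ^ (n + 1) - 1 / 2 ^ m} := by
    ext x; rfl
  rw [this]
  exact (isCompact_core v n).isClosed.inter (isClosed_le (by fun_prop) continuous_const)

theorem ae_thick {v : V} {n m : ℕ} (hn : 3 ≤ n) (hnm : n + 2 ≤ m) {z : ℤ} (hz : 2 ≤ z)
    (hz' : z < 2 ^ n - 3) :
    ∀ᵐ x ∂(volume.restrict (thick v n m z)), ∀ᶠ y in 𝓝 x, muC 2 v n n m y = -(y 2 - mid v n z) := by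
  have h1 : ∀ᵐ x : V ∂volume, x 2 ≠ mid v n z + (1 / 2 ^ (n + 1) - 1 / 2 ^ m) := by
    rw [ae_iff]; simpa using volume_level _
  have h2 : ∀ᵐ x : V ∂volume, x 2 ≠ mid v n z - (1 / 2 ^ (n + 1) - 1 / 2 ^ m) := by
    rw [ae_iff]; simpa using volume_level _
  filter_upwards [ae_restrict_mem (isClosed_thick v n m z).measurableSet,
    ae_restrict_of_ae h1, ae_restrict_of_ae h2] with x hx hx1 hx2
  refine near_of_thick hn hnm hz hz' hx.1 (lt_of_le_of_ne hx.2 fun he => ?_)
  rcases abs_choice (x 2 - mid v n z) with h3 | h3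
  · apply hx1; rw [← he, h3]; ring
  · apply hx2; rw [← he, h3]; ring

/-- the limit of the energy on the thick part of a slab -/
theorem lim_thick {p C ε : ℝ} {n m : ℕ} {L : V →L[ℝ] V} {Λ : Set V} {f g : V → V} {v : V}
    {S : ℕ → V → V} (hp : 1 ≤ p) (hL : L (ev 2) = 0) (hn : 3 ≤ n) (hnm : n + 2 ≤ m) (hε : 0 < ε)
    (hS : Sec p C ε n m L Λ f g v) (hC : CS 2 v n n m S) {z : ℤ} (hz : 2 ≤ z)
    (hz' : z < 2 ^ n - 3) (j : Fin 3) :
    ∀ᶠ i in atTop, ∫⁻ x in thick v n m z,
      ENNReal.ofReal (‖fderiv ℝ (g ∘ S i) x (ev j) - L (ev j)‖ ^ p) ≤ ENNReal.ofReal (2 * ε) := by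
  have hp0 : 0 < p := by linarith
  have hcl := isClosed_thick v n m z
  have hcore : thick v n m z ⊆ core v n := fun x hx => hx.1
  have hcQ := core_sub hS.org
  have hae := ae_thick hn hnm hz hz' (v := v)
  have hlim := hC.energy (μ := (volume : Measure V)) hS.org hp0 hS.diffeo (e := id) measurable_id
    (X := thick v n m z) hcl.measurableSet
    (ne_top_of_le_ne_top ENNReal.one_ne_top ((measure_mono (hcore.trans hcQ)).trans volume_Q1_le))
    (isCompact_core v n) hcQ (fun a ha => hcore ha) (ev j) (L (ev j)) (c := fun _ => -((ev j : V) 2))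
    (by filter_upwards [hae] with x hx; exact affNear_of_eventually hx)
  simp only [id] at hlim
  refine (hlim.eventually_lt_const ?_).mono fun i hi => hi.le
  refine lt_of_le_of_lt ?_ ((ENNReal.ofReal_lt_ofReal_iff (by positivity)).2
    (show ε < 2 * ε by linarith))
  by_cases hj : j = 2
  · subst hj
    refine le_trans (le_of_eq ?_) zero_le
    rw [lintegral_eq_zero_iff']
    · refine Eventually.of_forall fun x => ?_
      have h1 : (ev 2 : V) + -((ev 2 : V) 2) • (ev 2 : V) = 0 := by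
        simp [ev]
      simp only [h1, map_zero, hL, sub_zero, norm_zero, Real.zero_rpow hp0.ne', ENNReal.ofReal_zero,
        Pi.zero_apply]
    · have h1 : (ev 2 : V) + -((ev 2 : V) 2) • (ev 2 : V) = 0 := by
        simp [ev]
      simp only [h1, map_zero, hL, sub_zero, norm_zero, Real.zero_rpow hp0.ne', ENNReal.ofReal_zero]
      exact aemeasurable_const
  · have h0 : (ev j : V) 2 = 0 := by simp [ev, Pi.single_eq_of_ne (Ne.symm hj)]
    calc ∫⁻ x in thick v n m z, ENNReal.ofReal (‖fderiv ℝ g (x + muC 2 v n n m x • ev 2)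
          (ev j + -((ev j : V) 2) • ev 2) - L (ev j)‖ ^ p)
        = ∫⁻ x in thick v n m z, ENNReal.ofReal
          (‖fderiv ℝ g (Function.update x 2 (mid v n z)) (ev j) - L (ev j)‖ ^ p) := by
          refine lintegral_congr_ae ?_
          filter_upwards [hae] with x hx
          have h1 : x + muC 2 v n n m x • ev 2 = Function.update x 2 (mid v n z) := by
            rw [hx.self_of_nhds]
            funext i
            by_cases hi : i = 2
            · subst hi; simp [ev]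
            · simp [ev, Pi.single_eq_of_ne hi, Function.update_of_ne hi]
          rw [h1, h0, neg_zero, zero_smul, add_zero]
      _ ≤ ∫⁻ x in core v n, ENNReal.ofReal
          (‖fderiv ℝ g (Function.update x 2 (mid v n z)) (ev j) - L (ev j)‖ ^ p) :=
          lintegral_mono_set hcore
      _ ≤ ENNReal.ofReal ε := by
          refine le_trans ?_ (hS.sec z hz hz')
          exact Finset.single_le_sum (f := fun j => ∫⁻ x in core v n, ENNReal.ofReal
            (‖fderiv ℝ g (Function.update x 2 (mid v n z)) (ev j) - L (ev j)‖ ^ p))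
            (fun _ _ => zero_le) (Finset.mem_erase.2 ⟨hj, Finset.mem_univ _⟩)

/-- **(vol)** -/
theorem specVol : SpecVol := by
  intro p L C hp hp2 hL _ n m hn hnm δ hδ
  have h2n : (0:ℝ) < 2 ^ n := by positivity
  refine ⟨δ / (6 * 2 ^ n), by positivity, ?_⟩
  intro ε hε hεδ Λ f g v S hS hC
  set J : Finset ℤ := Finset.Ico 2 (2 ^ n - 3) with hJ
  have hJc : (J.card : ℝ) ≤ 2 ^ n := by
    rw [hJ, Int.card_Ico]
    have h1 : (((2:ℤ) ^ n - 3 - 2).toNat : ℤ) ≤ 2 ^ n := by
      have : (0:ℤ) < 2 ^ n := by positivity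
      omega
    exact_mod_cast h1
  have hsub : (⋃ q ∈ newP v n m, dyc v q.1 q.2) ⊆ ⋃ z : J, thick v n m z := by
    refine iUnion₂_subset fun q hq => ?_
    obtain ⟨z, hz, hz', h⟩ := newP_thick hnm hq
    exact h.trans (subset_iUnion_of_subset ⟨z, Finset.mem_Ico.2 ⟨hz, hz'⟩⟩ Subset.rfl)
  have hall : ∀ᶠ i in atTop, ∀ j : Fin 3, ∀ z : J, ∫⁻ x in thick v n m z,
      ENNReal.ofReal (‖fderiv ℝ (g ∘ S i) x (ev j) - L (ev j)‖ ^ p) ≤ ENNReal.ofReal (2 * ε) := by
    rw [eventually_all]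
    intro j
    rw [eventually_all]
    intro z
    have hz := Finset.mem_Ico.1 z.2
    exact lim_thick hp hL hn hnm hε hS hC hz.1 hz.2 j
  filter_upwards [hall] with i hi
  calc ∑ j, ∫⁻ x in ⋃ q ∈ newP v n m, dyc v q.1 q.2,
        ENNReal.ofReal (‖fderiv ℝ (g ∘ S i) x (ev j) - L (ev j)‖ ^ p)
      ≤ ∑ _j : Fin 3, ENNReal.ofReal (2 ^ n * (2 * ε)) := by
        refine Finset.sum_le_sum fun j _ => ?_
        calc ∫⁻ x in ⋃ q ∈ newP v n m, dyc v q.1 q.2,
              ENNReal.ofReal (‖fderiv ℝ (g ∘ S i) x (ev j) - L (ev j)‖ ^ p)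
            ≤ ∫⁻ x in ⋃ z : J, thick v n m z,
              ENNReal.ofReal (‖fderiv ℝ (g ∘ S i) x (ev j) - L (ev j)‖ ^ p) :=
              lintegral_mono_set hsub
          _ ≤ ∑' z : J, ∫⁻ x in thick v n m z,
              ENNReal.ofReal (‖fderiv ℝ (g ∘ S i) x (ev j) - L (ev j)‖ ^ p) :=
              lintegral_iUnion_le _ _
          _ ≤ ∑' _z : J, ENNReal.ofReal (2 * ε) := ENNReal.tsum_le_tsum (hi j)
          _ = ENNReal.ofReal ((J.card : ℝ) * (2 * ε)) := by
              rw [tsum_fintype, Finset.sum_const, Finset.card_univ, Fintype.card_coe,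
                nsmul_eq_mul, ENNReal.ofReal_mul (Nat.cast_nonneg _), ENNReal.ofReal_natCast]
          _ ≤ ENNReal.ofReal (2 ^ n * (2 * ε)) := by
              refine ENNReal.ofReal_le_ofReal (mul_le_mul_of_nonneg_right hJc (by positivity))
    _ = ENNReal.ofReal (6 * 2 ^ n * ε) := by
        rw [Finset.sum_const, Finset.card_univ, Fintype.card_fin, nsmul_eq_mul,
          show ((3:ℕ) : ℝ≥0∞) = ENNReal.ofReal 3 by norm_num, ← ENNReal.ofReal_mul (by norm_num)]
        congr 1; ring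
    _ ≤ ENNReal.ofReal δ := by
        refine ENNReal.ofReal_le_ofReal ?_
        rw [le_div_iff₀ (by positivity)] at hεδ
        linarith

end Vale.Agent.P073.LOC.T67
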