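import Vale.Agent.P073.LOC.Edge752b
import Vale.Agent.P073.LOC.Geo308d
import Vale.Agent.P073.LOC.Vol67

/-!
# P073, block LOC-3D: the edges of the partition, SpecEdges; assembly of SpecCollOut
-/

namespace Vale.Agent.P073.LOC.L3

open MeasureTheory Set Filter Topology Metric Vale.Agent.P073.St
open Vale.Agent.P073.SQ (ev cube SuppDiffeo faceE)
open Vale.Agent.P073.AB (Idx pt eInt squ subEdge)
open Vale.Agent.P073.AB.P86 (sc)
open P073.Net (dyc dyo)
open scoped ContDiff ENNReal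

variable {v : V} {n m : ℕ} {S : ℕ → V → V}

theorem away_zero (hn : 3 ≤ n) (hm : n + 2 ≤ m) {x : V} (h : Away v n x) :
    muC 2 v n n m x = 0 := by
  apply muC_away hn le_rfl hm
  rcases h with ⟨i, hi, h⟩ | h | h | h
  · right; right; right
    refine ⟨i, hi, ?_⟩
    obtain ⟨b1, b2⟩ := core_bounds v n i
    have hT : (0:ℝ) < 1 / 2 ^ (n + 1) := by positivity
    have hw : (0:ℝ) < 1 / 2 ^ m := by positivity
    have hh := half_eq (N := n)
    have e1 : v i + 1 / 2 ^ n = v i + 2 / 2 ^ n - 1 / 2 ^ n := by ring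
    have e2 : v i + ((2:ℝ) ^ n - 2) / 2 ^ n = v i + (2 ^ n - 3) / 2 ^ n + 1 / 2 ^ n := by ring
    rw [e1, e2, b1, b2] at h
    rcases h with h | h
    · rw [abs_sub_comm]
      exact le_trans (by linarith) (le_abs_self _)
    · exact le_trans (by linarith) (le_abs_self _)
  · exact Or.inl h
  · exact Or.inr (Or.inl h)
  · exact Or.inr (Or.inr (Or.inl h))

/-- a fine edge of the core -/
theorem fine_edge {p C ε : ℝ} (hp : 1 ≤ p) (hp2 : p < 2) (hn : 3 ≤ n) (hm : n + 2 ≤ m)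
    {L : V →L[ℝ] V} (hC : 0 < C) (hε : ((md n m : ℝ) + 1) ^ 2 * ε < C / 2 ^ m)
    {Λ : Set V} {f g : V → V} (h : Sec p C ε n m L Λ f g v) (hS : CS 2 v n n m S)
    {e : Idx × Fin 3} (he : e.1.1 = m) (hec : AB.edge v e ⊆ core v n) :
    ∀ᶠ i in atTop, gInt p v (g ∘ S i) e ≤ ENNReal.ofReal (2 * C / 2 ^ m) := by
  have hp0 : 0 < p := by linarith
  obtain ⟨⟨m', z⟩, j⟩ := e
  simp only at he
  subst he
  have hpos : 0 < C / 2 ^ m' := by positivity
  have h2 : 2 * C / 2 ^ m' = 2 * (C / 2 ^ m') := by ring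
  by_cases hj : j = 2
  · subst hj
    refine hS.edge_ver hn le_rfl hm h.org hp0 hp2.le h.diffeo hec (ε := ENNReal.ofReal ε)
      (fun z' hz' => h.ver ((m', z'), 2) rfl hz' rfl) ?_
    rw [← ENNReal.ofReal_mul (by positivity)]
    rw [ENNReal.ofReal_lt_ofReal_iff (by rw [h2]; positivity)]
    linarith
  · obtain ⟨a, ha, hac, hlim⟩ := hS.edge_hor hn le_rfl hm h.org hp0 h.diffeo hj hec
    have h1 := h.hor ((m', Function.update z 2 a), j) rfl hac hj (by
      simp only [Function.update_self]; exact ha)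
    have h3 : gInt p v g ((m', Function.update z 2 a), j) < ENNReal.ofReal (2 * C / 2 ^ m') := by
      refine lt_of_le_of_lt h1 ?_
      rw [ENNReal.ofReal_lt_ofReal_iff (by rw [h2]; positivity)]
      linarith
    filter_upwards [hlim.eventually_lt_const h3] with i hi
    exact hi.le

theorem sub_pt (v : V) (e : Idx × Fin 3) (d j : ℕ) :
    pt v (subEdge e d j).1.1 (subEdge e d j).1.2 =
      pt v e.1.1 e.1.2 + ((j:ℝ) / 2 ^ d * (1 / 2 ^ e.1.1)) • ev e.2 := by
  funext l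
  by_cases hl : l = e.2
  · subst hl
    simp only [subEdge, pt, if_true, Pi.add_apply, Pi.smul_apply, ev, Pi.single_eq_same,
      smul_eq_mul, pow_add]
    push_cast
    field_simp
    ring
  · simp only [subEdge, pt, if_neg hl, Pi.add_apply, Pi.smul_apply, ev, Pi.single_eq_of_ne hl,
      smul_eq_mul, pow_add]
    push_cast
    field_simp
    ring

theorem subEdge_sub (v : V) (e : Idx × Fin 3) {d j : ℕ} (hj : j < 2 ^ d) :
    AB.edge v (subEdge e d j) ⊆ AB.edge v e := by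
  have hb : pt v (subEdge e d j).1.1 (subEdge e d j).1.2 +
      (1 / 2 ^ (subEdge e d j).1.1 : ℝ) • ev (subEdge e d j).2 =
      pt v e.1.1 e.1.2 + (((j:ℝ) + 1) / 2 ^ d * (1 / 2 ^ e.1.1)) • ev e.2 := by
    rw [sub_pt, add_assoc]
    congr 1
    show _ + (1 / 2 ^ (e.1.1 + d) : ℝ) • ev e.2 = _
    rw [← add_smul]
    congr 1
    rw [pow_add]
    field_simp
  have hmem : ∀ t : ℝ, 0 ≤ t → t ≤ 1 →
      pt v e.1.1 e.1.2 + (t * (1 / 2 ^ e.1.1)) • ev e.2 ∈ AB.edge v e := by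
    intro t h0 h1
    rw [← smul_smul]
    exact line_mem ⟨h0, h1⟩
  have hconv : Convex ℝ (AB.edge v e) := convex_segment _ _
  have hj' : (j:ℝ) + 1 ≤ 2 ^ d := by exact_mod_cast hj
  have h2 : (0:ℝ) < 2 ^ d := by positivity
  unfold AB.edge
  rw [hb, sub_pt]
  refine hconv.segment_subset (hmem _ (by positivity) ?_) (hmem _ (by positivity) ?_)
  · rw [div_le_one h2]; linarith
  · rw [div_le_one h2]; exact hj'

/-- an edge of generation `n` in the core -/
theorem coarse_edge {p C ε : ℝ} (hp : 1 ≤ p) (hp2 : p < 2) (hn : 3 ≤ n) (hm : n + 2 ≤ m)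
    {L : V →L[ℝ] V} (hC : 0 < C) (hε : ((md n m : ℝ) + 1) ^ 2 * ε < C / 2 ^ m)
    {Λ : Set V} {f g : V → V} (h : Sec p C ε n m L Λ f g v) (hS : CS 2 v n n m S)
    {e : Idx × Fin 3} (he : e.1.1 = n) (hec : AB.edge v e ⊆ core v n) :
    ∀ᶠ i in atTop, gInt p v (g ∘ S i) e ≤ ENNReal.ofReal (2 * C / 2 ^ n) := by
  have h1 : ∀ j ∈ Finset.range (2 ^ (m - n)), ∀ᶠ i in atTop,
      gInt p v (g ∘ S i) (subEdge e (m - n) j) ≤ ENNReal.ofReal (2 * C / 2 ^ m) := by
    intro j hj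
    have hj' := Finset.mem_range.1 hj
    refine fine_edge hp hp2 hn hm hC hε h hS ?_ ((subEdge_sub v e hj').trans hec)
    show e.1.1 + (m - n) = m
    omega
  rw [← Filter.eventually_all_finset] at h1
  filter_upwards [h1] with i hi
  calc gInt p v (g ∘ S i) e ≤ ∑ j ∈ Finset.range (2 ^ (m - n)),
        gInt p v (g ∘ S i) (subEdge e (m - n) j) :=
        AB.S293.eInt_sub v e (m - n) (measurable_H p (g ∘ S i) (ev e.2))
    _ ≤ ∑ _j ∈ Finset.range (2 ^ (m - n)), ENNReal.ofReal (2 * C / 2 ^ m) :=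
        Finset.sum_le_sum fun j hj => hi j hj
    _ = ENNReal.ofReal (2 * C / 2 ^ n) := by
        rw [Finset.sum_const, Finset.card_range, nsmul_eq_mul, ← ENNReal.ofReal_natCast,
          ← ENNReal.ofReal_mul (by positivity)]
        congr 1
        have : (2:ℝ) ^ m = 2 ^ (m - n) * 2 ^ n := by rw [← pow_add]; congr 1; omega
        rw [this]
        push_cast
        field_simp

/-- the outer edges -/
theorem outer_edges {p C ε : ℝ} (hp : 1 ≤ p) (hn : 3 ≤ n) (hm : n + 2 ≤ m)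
    {L : V →L[ℝ] V} (hC : 0 < C)
    {Λ : Set V} {f g : V → V} (h : Sec p C ε n m L Λ f g v) (hS : CS 2 v n n m S)
    (h1 : ∀ e ∈ OE v n, AB.edge v e ⊆ Q1 ∧ n ≤ e.1.1 ∧ ∀ x ∈ AB.edge v e, Away v n x)
    (h2 : ∀ K ⊆ Q1, IsCompact K → {e | e ∈ OE v n ∧ (AB.edge v e ∩ K).Nonempty}.Finite) :
    ∀ᶠ i in atTop, ∑' e : ↥(OE v n), ENNReal.ofReal ((1 / 2 ^ e.1.1.1) ^ 2) *
        gInt p v (g ∘ S i) e.1 ≤ ENNReal.ofReal (2 * C / 2 ^ n) := by
  have hp0 : 0 < p := by linarith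
  have hfin : {e : ↥(OE v n) | (AB.edge v e.1 ∩ ring v n).Nonempty}.Finite := by
    refine Set.Finite.of_finite_image (f := fun e : ↥(OE v n) => e.1) ?_
      Subtype.val_injective.injOn
    refine (h2 (ring v n) (ring_sub h.org) (isCompact_ring v n)).subset ?_
    rintro _ ⟨e, he, rfl⟩
    exact ⟨e.2, he⟩
  set A : ↥(OE v n) → ℝ≥0∞ := fun e =>
    ENNReal.ofReal ((1 / 2 ^ e.1.1.1) ^ 2) * gInt p v g e.1 with hA
  set B : ℕ → ↥(OE v n) → ℝ≥0∞ := fun i e =>
    ENNReal.ofReal ((1 / 2 ^ e.1.1.1) ^ 2) * gInt p v (g ∘ S i) e.1 with hB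
  have hout : ∑' e, A e ≤ ENNReal.ofReal (C / 2 ^ n) := h.out
  have hoff : ∀ i, ∀ e : ↥(OE v n), e ∉ hfin.toFinset → B i e = A e := by
    intro i e he
    rw [Set.Finite.mem_toFinset, mem_ofPred_eq, not_nonempty_iff_eq_empty] at he
    simp only [hA, hB]
    congr 1
    unfold gInt eInt
    congr 1
    refine setLIntegral_congr_fun measurableSet_Icc fun t ht => ?_
    have hx : pt v e.1.1.1 e.1.1.2 + t • ((1 / 2 ^ e.1.1.1 : ℝ) • ev e.1.2) ∉ ring v n :=
      fun hx => by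
        have : pt v e.1.1.1 e.1.1.2 + t • ((1 / 2 ^ e.1.1.1 : ℝ) • ev e.1.2) ∈
          AB.edge v e.1 ∩ ring v n := ⟨line_mem ht, hx⟩
        rw [he] at this
        exact this
    simp only [hS.eq_off hx i]
  have hlim : Tendsto (fun i => ∑ e ∈ hfin.toFinset, B i e) atTop
      (𝓝 (∑ e ∈ hfin.toFinset, A e)) := by
    refine tendsto_finsetSum _ fun e _ => ?_
    have h3 := hS.edge_zero hn hm h.org hp0 h.diffeo (h1 e.1 e.2).1
      fun x hx => away_zero hn hm ((h1 e.1 e.2).2.2 x hx)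
    exact ENNReal.Tendsto.const_mul h3 (Or.inr ENNReal.ofReal_ne_top)
  have hAfin : ∑ e ∈ hfin.toFinset, A e ≠ ⊤ :=
    ne_top_of_le_ne_top ENNReal.ofReal_ne_top ((ENNReal.sum_le_tsum _).trans hout)
  have hpos : 0 < C / 2 ^ n := by positivity
  have hlt : ∑ e ∈ hfin.toFinset, A e < ∑ e ∈ hfin.toFinset, A e + ENNReal.ofReal (C / 2 ^ n) :=
    ENNReal.lt_add_right hAfin (by simpa using hpos)
  have hsplit : ∀ D : ↥(OE v n) → ℝ≥0∞, ∑' e, D e = ∑ e ∈ hfin.toFinset, D e +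
      ∑' e, (if e ∈ hfin.toFinset then 0 else D e) := by
    intro D
    have e1 : ∑ e ∈ hfin.toFinset, D e = ∑' e, (if e ∈ hfin.toFinset then D e else 0) := by
      rw [tsum_eq_sum (s := hfin.toFinset) fun e he => if_neg he]
      exact Finset.sum_congr rfl fun e he => (if_pos he).symm
    rw [e1, ← ENNReal.tsum_add]
    refine tsum_congr fun e => ?_
    split_ifs <;> simp
  filter_upwards [hlim.eventually_lt_const hlt] with i hi
  calc ∑' e, B i e = ∑ e ∈ hfin.toFinset, B i e +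
        ∑' e, (if e ∈ hfin.toFinset then 0 else B i e) := hsplit _
    _ = ∑ e ∈ hfin.toFinset, B i e + ∑' e, (if e ∈ hfin.toFinset then 0 else A e) := by
        congr 1
        refine tsum_congr fun e => ?_
        split_ifs with he
        · rfl
        · exact hoff i e he
    _ ≤ (∑ e ∈ hfin.toFinset, A e + ENNReal.ofReal (C / 2 ^ n)) +
        ∑' e, (if e ∈ hfin.toFinset then 0 else A e) := by gcongr
    _ = ∑' e, A e + ENNReal.ofReal (C / 2 ^ n) := by rw [hsplit A]; ring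
    _ ≤ ENNReal.ofReal (C / 2 ^ n) + ENNReal.ofReal (C / 2 ^ n) := by gcongr
    _ = ENNReal.ofReal (2 * C / 2 ^ n) := by
        rw [← ENNReal.ofReal_add hpos.le hpos.le]
        congr 1
        ring

/-- **(edges)** -/
theorem specEdges : SpecEdges := by
  intro p L C hp hp2 hL hC
  obtain ⟨C₀, -, hG⟩ := specGeoQ
  refine ⟨2 * C, by positivity, fun n m hn hm => ?_⟩
  have hK : 0 < ((md n m : ℝ) + 1) ^ 2 := by positivity
  refine ⟨C / 2 ^ m / (((md n m : ℝ) + 1) ^ 2 * 2), by positivity, fun ε hε hε0 Λ f g v S h hS => ?_⟩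
  have hlt : ((md n m : ℝ) + 1) ^ 2 * ε < C / 2 ^ m := by
    rw [le_div_iff₀ (by positivity)] at hε0
    have : 0 < ((md n m : ℝ) + 1) ^ 2 * ε := by positivity
    nlinarith
  obtain ⟨hQ, hI, hP, -, -, -, -, -, -, -, -, -, -, -, h1, h2⟩ := hG v n m hn hm h.org
  refine ⟨fun e he => fine_edge hp hp2 hn hm hC hlt h hS he.1 he.2.1, fun e he => ?_,
    outer_edges hp hn hm hC h hS h1 h2⟩
  refine coarse_edge hp hp2 hn hm hC hlt h hS he.1 (he.2.trans ?_)
  exact (isCompact_core v n).isClosed.frontier_subset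

end Vale.Agent.P073.LOC.L3
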