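import Vale.Agent.P073.LOC.Geo2b

/-!
# P073, block LOC, rank two: (GEO2a), cover and disjointness of the plane squares
-/

namespace Vale.Agent.P073.LOC.Geo2a

open MeasureTheory Set Vale.Agent.P073.St
open Vale.Agent.P073.AB (Idx pt edge eInt squ EdgeOfSq subEdge)
open P073.Plate (pbox prel)
open Geo2b

theorem mem_prel0 {v : V} {N : ℕ} {w : Fin 3 → ℤ} {x : V} : x ∈ prel v ((N, w), 2) 0 ↔
    sx v N x 2 = w 2 ∧ ∀ i, i ≠ 2 → (w i : ℝ) < sx v N x i ∧ sx v N x i < w i + 1 := by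
  have := mem_prel (v := v) (n₂ := N) (d := 0) (z := w) (c := 0) (x := x)
  simpa [plq] using this

theorem mem_squ_d {v : V} {g : ℕ} (d : ℕ) {w : Fin 3 → ℤ} {x : V} : x ∈ squ v ((g, w), 2) ↔
    sx v (g + d) x 2 = (w 2 * 2 ^ d : ℤ) ∧ ∀ i, i ≠ 2 →
      ((w i * 2 ^ d : ℤ) : ℝ) ≤ sx v (g + d) x i ∧ sx v (g + d) x i ≤ ((w i + 1) * 2 ^ d : ℤ) := by
  have h1 : squ v ((g, w), 2) = pbox v (plq g w) ((0:ℤ) / 2 ^ (g + d)) 0 := squ_eq d
  rw [h1, mem_pbox]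
  simp

theorem mem_prel_d {v : V} {g : ℕ} (d : ℕ) {w : Fin 3 → ℤ} {x : V} : x ∈ prel v ((g, w), 2) 0 ↔
    sx v (g + d) x 2 = (w 2 * 2 ^ d : ℤ) ∧ ∀ i, i ≠ 2 →
      ((w i * 2 ^ d : ℤ) : ℝ) < sx v (g + d) x i ∧ sx v (g + d) x i < ((w i + 1) * 2 ^ d : ℤ) := by
  have := mem_prel (v := v) (n₂ := g) (d := d) (z := w) (c := 0) (x := x)
  simpa [plq] using this

theorem prel_sub_squ {v : V} {q : Idx} : prel v (q, 2) 0 ⊆ squ v (q, 2) := by
  intro x hx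
  obtain ⟨g, w⟩ := q
  rw [mem_prel0] at hx
  rw [mem_squ]
  exact ⟨hx.1, fun i hi => ⟨(hx.2 i hi).1.le, (hx.2 i hi).2.le⟩⟩

theorem mem_core {v : V} {n E N : ℕ} (hN : N = n + E) {x : V} : x ∈ core v n ↔
    ∀ i, ((2 * 2 ^ E : ℤ) : ℝ) ≤ sx v N x i ∧ sx v N x i ≤ ((((2:ℤ) ^ n - 3) * 2 ^ E : ℤ) : ℝ) := by
  subst hN
  show (∀ i, v i + 2 / 2 ^ n ≤ x i ∧ x i ≤ v i + (2 ^ n - 3) / 2 ^ n) ↔ _
  refine forall_congr' fun i => ?_
  have h1 := le_key (n := n) (d := E) (u := v i) (a := 2) (c := 0) (t := x i)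
  have h2 := key_le (n := n) (d := E) (u := v i) (a := 2 ^ n - 3) (c := 0) (t := x i)
  rw [zero_div, add_zero, add_zero] at h1
  rw [zero_div, sub_zero, sub_zero] at h2
  rw [h1, h2]
  simp only [sx]
  push_cast
  rfl

theorem interior_core {v : V} {n : ℕ} : interior (core v n) =
    {x | ∀ i, v i + 2 / 2 ^ n < x i ∧ x i < v i + (2 ^ n - 3) / 2 ^ n} := by
  have h1 : core v n = Set.pi univ
      (fun i => Icc (v i + 2 / 2 ^ n) (v i + (2 ^ n - 3) / 2 ^ n)) := by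
    ext x
    exact ⟨fun h i _ => h i, fun h i => h i (mem_univ i)⟩
  rw [h1, interior_pi_set finite_univ]
  simp only [interior_Icc]
  ext x
  exact ⟨fun h i => h i (mem_univ i), fun h i _ => h i⟩

theorem int_coord {v : V} {n E N : ℕ} (hN : N = n + E) {x : V} (i : Fin 3) :
    (v i + 2 / 2 ^ n < x i ∧ x i < v i + (2 ^ n - 3) / 2 ^ n) ↔
    ((2 * 2 ^ E : ℤ) : ℝ) < sx v N x i ∧ sx v N x i < ((((2:ℤ) ^ n - 3) * 2 ^ E : ℤ) : ℝ) := by
  subst hN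
  have h1 := lt_key (n := n) (d := E) (u := v i) (a := 2) (c := 0) (t := x i)
  have h2 := key_lt (n := n) (d := E) (u := v i) (a := 2 ^ n - 3) (c := 0) (t := x i)
  rw [zero_div, add_zero, add_zero] at h1
  rw [zero_div, sub_zero, sub_zero] at h2
  rw [h1, h2]
  simp only [sx]
  push_cast
  rfl

theorem mem_interior_core {v : V} {n E N : ℕ} (hN : N = n + E) {x : V} : x ∈ interior (core v n) ↔
    ∀ i, ((2 * 2 ^ E : ℤ) : ℝ) < sx v N x i ∧ sx v N x i < ((((2:ℤ) ^ n - 3) * 2 ^ E : ℤ) : ℝ) := by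
  rw [interior_core]
  exact forall_congr' fun i => int_coord hN i

theorem mid_strict {v : V} {n : ℕ} {z : ℤ} (h1 : 2 ≤ z) (h2 : z < 2 ^ n - 3) :
    v 2 + 2 / 2 ^ n < mid v n z ∧ mid v n z < v 2 + (2 ^ n - 3) / 2 ^ n := by
  have hp : (0:ℝ) < 2 ^ (n + 1) := by positivity
  have e1 : (2:ℝ) / 2 ^ n = 4 / 2 ^ (n + 1) := by rw [pow_succ]; field_simp; norm_num
  have e2 : ((2:ℝ) ^ n - 3) / 2 ^ n = (2 * 2 ^ n - 6) / 2 ^ (n + 1) := by
    rw [pow_succ]; field_simp; ring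
  have h3 : (2:ℝ) ≤ z := by exact_mod_cast h1
  have h4 : (z:ℝ) + 1 ≤ 2 ^ n - 3 := by
    have : z + 1 ≤ 2 ^ n - 3 := by omega
    exact_mod_cast this
  unfold mid
  rw [e1, e2]
  constructor
  · rw [add_lt_add_iff_left, div_lt_div_iff_of_pos_right hp]; linarith
  · rw [add_lt_add_iff_left, div_lt_div_iff_of_pos_right hp]; linarith

theorem third (k : Fin 3) : ∃ j : Fin 3, j ≠ k ∧ j ≠ 2 := by revert k; decide

section

variable {v : V} {n m n₂ k₁ k₀ n₀ : ℕ} {J : Finset (Fin 3 → ℤ)}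

/-- a fine square in a plate -/
theorem fine_plate {D : ℕ} {w z : Fin 3 → ℤ} : squ v ((n₂ + D, w), 2) ⊆ squ v (plq n₂ z) ↔
    w 2 = z 2 * 2 ^ D ∧ ∀ i, i ≠ 2 → z i * 2 ^ D ≤ w i ∧ w i + 1 ≤ (z i + 1) * 2 ^ D := by
  rw [squ_eq D, squ_sub_iff]
  simp

/-- the interior of a gap square is in the shrunk plate -/
theorem gap_prel {w z : Fin 3 → ℤ} (hw : w ∈ sqG v n₂ k₁ z) :
    prel v ((n₂ + k₁, w), 2) 0 ⊆ prel v (plq n₂ z) (1 / 2 ^ (n₂ + k₁)) := by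
  have hc1 : (1:ℝ) / 2 ^ (n₂ + k₁) = ((1:ℤ) : ℝ) / 2 ^ (n₂ + k₁) := by norm_num
  have h := hw.1
  rw [hc1, squ_sub_iff] at h
  intro x hx
  rw [mem_prel0] at hx
  rw [hc1, mem_prel]
  refine ⟨by rw [hx.1, h.1], fun i hi => ⟨?_, ?_⟩⟩
  · exact lt_of_le_of_lt (by exact_mod_cast (h.2 i hi).1) (hx.2 i hi).1
  · exact lt_of_lt_of_le (hx.2 i hi).2 (by exact_mod_cast (h.2 i hi).2)

theorem pbox2_prel1 {z : Fin 3 → ℤ} :
    pbox v (plq n₂ z) (2 / 2 ^ (n₂ + k₁)) 0 ⊆ prel v (plq n₂ z) (1 / 2 ^ (n₂ + k₁)) := by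
  have hc1 : (1:ℝ) / 2 ^ (n₂ + k₁) = ((1:ℤ) : ℝ) / 2 ^ (n₂ + k₁) := by norm_num
  have hc2 : (2:ℝ) / 2 ^ (n₂ + k₁) = ((2:ℤ) : ℝ) / 2 ^ (n₂ + k₁) := by norm_num
  intro x hx
  rw [hc2, mem_pbox] at hx
  rw [hc1, mem_prel]
  refine ⟨hx.1, fun i hi => ⟨?_, ?_⟩⟩
  · exact lt_of_lt_of_le (by exact_mod_cast (by omega : z i * 2 ^ k₁ + 1 < z i * 2 ^ k₁ + 2))
      (hx.2 i hi).1
  · exact lt_of_le_of_lt (hx.2 i hi).2
      (by exact_mod_cast (by omega : (z i + 1) * 2 ^ k₁ - 2 < (z i + 1) * 2 ^ k₁ - 1))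

/-- a gap square is in its plate -/
theorem gap_plate {w z : Fin 3 → ℤ} (hw : w ∈ sqG v n₂ k₁ z) :
    squ v ((n₂ + k₁, w), 2) ⊆ squ v (plq n₂ z) := by
  have hc1 : (1:ℝ) / 2 ^ (n₂ + k₁) = ((1:ℤ) : ℝ) / 2 ^ (n₂ + k₁) := by norm_num
  have h := hw.1
  rw [hc1, squ_sub_iff] at h
  rw [fine_plate]
  refine ⟨h.1, fun i hi => ?_⟩
  have := h.2 i hi
  omega

/-- a point of the relative interior of a fine square in the closed shrunk plate is in the open one -/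
theorem fine_gap {w g z : Fin 3 → ℤ} (hg : g ∈ sqG v n₂ k₁ z) {x : V}
    (hx : x ∈ prel v ((n₂ + (k₁ + k₀), w), 2) 0) (hx' : x ∈ squ v ((n₂ + k₁, g), 2)) :
    x ∈ prel v (plq n₂ z) (1 / 2 ^ (n₂ + k₁)) := by
  have hc1 : (1:ℝ) / 2 ^ (n₂ + k₁) = ((1:ℤ) : ℝ) / 2 ^ (n₂ + k₁) := by norm_num
  have h := hg.1
  rw [hc1, squ_sub_iff] at h
  rw [mem_prel0] at hx
  rw [mem_squ_d k₀, add_assoc] at hx'
  rw [one_eq n₂ k₁ k₀, mem_prel]
  refine ⟨by rw [hx'.1, h.1, pow_add, mul_assoc], fun i hi => ?_⟩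
  obtain ⟨a1, a2⟩ := hx.2 i hi
  obtain ⟨b1, b2⟩ := hx'.2 i hi
  obtain ⟨c1, c2⟩ := h.2 i hi
  have hp : (0:ℤ) < 2 ^ k₀ := by positivity
  have d1 : (z i * 2 ^ (k₁ + k₀) + 2 ^ k₀ : ℤ) ≤ g i * 2 ^ k₀ := by
    have := mul_le_mul_of_nonneg_right c1 hp.le
    rw [pow_add]; linarith
  have d2 : ((g i + 1) * 2 ^ k₀ : ℤ) ≤ (z i + 1) * 2 ^ (k₁ + k₀) - 2 ^ k₀ := by
    have := mul_le_mul_of_nonneg_right c2 hp.le
    rw [pow_add]; linarith
  constructor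
  · have e1 : g i * 2 ^ k₀ < w i + 1 := by exact_mod_cast b1.trans_lt a2
    exact lt_of_le_of_lt (by exact_mod_cast (by omega : z i * 2 ^ (k₁ + k₀) + 2 ^ k₀ ≤ w i)) a1
  · have e1 : w i < (g i + 1) * 2 ^ k₀ := by exact_mod_cast a1.trans_le b2
    exact lt_of_lt_of_le a2
      (by exact_mod_cast (by omega : w i + 1 ≤ (z i + 1) * 2 ^ (k₁ + k₀) - 2 ^ k₀))

theorem eq_of_prel {N : ℕ} {w w' : Fin 3 → ℤ} {x : V} (h : x ∈ prel v ((N, w), 2) 0)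
    (h' : x ∈ squ v ((N, w'), 2)) : w = w' := by
  rw [mem_prel0] at h
  rw [mem_squ] at h'
  funext i
  by_cases hi : i = 2
  · subst hi
    have := h.1.symm.trans h'.1
    exact_mod_cast this
  · obtain ⟨a1, a2⟩ := h.2 i hi
    obtain ⟨b1, b2⟩ := h'.2 i hi
    have c1 : w' i < w i + 1 := by exact_mod_cast b1.trans_lt a2
    have c2 : w i < w' i + 1 := by exact_mod_cast a1.trans_le b2
    omega

/-- all squares in question are in the core, at middle heights -/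
theorem all_core (g : Geo2 v n m n₂ k₁ k₀ n₀ J) {q : Idx} (hq : q ∈ SqAll v n n₂ k₁ n₀ J) :
    squ v (q, 2) ⊆ core v n ∧ IsMid v n (pt v q.1 q.2 2) := by
  obtain ⟨N, w⟩ := q
  rcases hq with ⟨h1, h2⟩ | ⟨z, hz, h1, h2⟩ | ⟨z, hz, h1, h2⟩
  · obtain rfl : N = n₀ := h1
    exact ⟨h2.1, h2.2.1⟩
  · obtain rfl : N = n₀ := h1
    refine ⟨h2.1.trans (g.sub z hz), ?_⟩
    have h3 := h2.1
    have hN : N = n₂ + (k₁ + k₀) := by rw [g.eqn, add_assoc]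
    subst hN
    rw [fine_plate] at h3
    show IsMid v n (pt v (n₂ + (k₁ + k₀)) w 2)
    rw [pt_eq h3.1]
    exact g.mid z hz
  · obtain rfl : N = n₂ + k₁ := h1
    refine ⟨(gap_plate h2).trans (g.sub z hz), ?_⟩
    have h3 := gap_plate h2
    rw [fine_plate] at h3
    show IsMid v n (pt v (n₂ + k₁) w 2)
    rw [pt_eq h3.1]
    exact g.mid z hz

/-- the generations -/
theorem all_gen (_g : Geo2 v n m n₂ k₁ k₀ n₀ J) {q : Idx} (hq : q ∈ SqAll v n n₂ k₁ n₀ J) :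
    q.1 = n₀ ∨ q.1 = n₂ + k₁ := by
  rcases hq with ⟨h1, h2⟩ | ⟨z, hz, h1, h2⟩ | ⟨z, hz, h1, h2⟩
  · exact Or.inl h1
  · exact Or.inl h1
  · exact Or.inr h1

theorem pt_mem_squ (v : V) (q : Idx) : pt v q.1 q.2 ∈ squ v (q, 2) := by
  obtain ⟨N, w⟩ := q
  rw [mem_squ]
  have h : ∀ i, sx v N (pt v N w) i = w i := by
    intro i
    show (v i + w i / 2 ^ N - v i) * 2 ^ N = w i
    have : (2:ℝ) ^ N ≠ 0 := by positivity
    field_simp
    ring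
  exact ⟨h 2, fun i _ => by rw [h i]; simp⟩

theorem finite_all (g : Geo2 v n m n₂ k₁ k₀ n₀ J) : (SqAll v n n₂ k₁ n₀ J).Finite := by
  have h1 : (({n₀, n₂ + k₁} : Set ℕ) ×ˢ
      (Set.pi univ fun _ : Fin 3 => Icc (0:ℤ) (2 ^ n₀))).Finite :=
    (Set.toFinite _).prod (Set.Finite.pi fun _ => finite_Icc _ _)
  refine h1.subset ?_
  intro q hq
  have hgen := all_gen g hq
  refine ⟨?_, fun i _ => ?_⟩
  · rcases hgen with h | h
    · exact Or.inl h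
    · exact Or.inr h
  · have h2 := (all_core g hq).1 (pt_mem_squ v q) i
    have h3 : pt v q.1 q.2 i = v i + q.2 i / 2 ^ q.1 := rfl
    rw [h3] at h2
    have hp : (0:ℝ) < 2 ^ q.1 := by positivity
    have hn : (0:ℝ) < 2 ^ n := by positivity
    have h4 : (0:ℝ) ≤ q.2 i / 2 ^ q.1 := by
      have : (0:ℝ) < 2 / 2 ^ n := by positivity
      linarith [h2.1]
    have h5 : (q.2 i : ℝ) / 2 ^ q.1 ≤ 1 := by
      have : ((2:ℝ) ^ n - 3) / 2 ^ n ≤ 1 := by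
        rw [div_le_one hn]; linarith
      linarith [h2.2]
    rw [div_le_one hp] at h5
    have h6 : (0:ℝ) ≤ q.2 i := by
      by_contra hc
      push Not at hc
      have := div_neg_of_neg_of_pos hc hp
      linarith
    have h7 : q.1 ≤ n₀ := by
      rcases hgen with h | h
      · exact h.le
      · rw [h, g.eqn]; omega
    have h8 : (2:ℝ) ^ q.1 ≤ 2 ^ n₀ := pow_le_pow_right₀ (by norm_num) h7
    constructor
    · exact_mod_cast h6
    · exact_mod_cast h5.trans h8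

/-- relative interiors are in the interior of the core -/
theorem prel_int (g : Geo2 v n m n₂ k₁ k₀ n₀ J) {q : Idx} (hq : q ∈ SqAll v n n₂ k₁ n₀ J) :
    prel v (q, 2) 0 ⊆ interior (core v n) := by
  intro x hx
  obtain ⟨hcore, z', hz1, hz2, hz3⟩ := all_core g hq
  obtain ⟨N, w⟩ := q
  -- the two extreme corners
  obtain ⟨y, hy⟩ := exists_sx v N (fun i => if i = 2 then w i else w i + 1)
  have hy' : y ∈ squ v ((N, w), 2) := mem_squ.2 ⟨by rw [hy 2]; simp, fun i hi => by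
    rw [hy i]; simp [hi]⟩
  have h1 := hcore (pt_mem_squ v (N, w))
  have h2 := hcore hy'
  have h0 : ∀ i, sx v N (pt v N w) i = w i := by
    intro i
    show (v i + w i / 2 ^ N - v i) * 2 ^ N = w i
    have : (2:ℝ) ^ N ≠ 0 := by positivity
    field_simp
    ring
  have hgen : n ≤ N := by
    have := all_gen g hq
    have h3 := g.hm
    have h4 := g.hn₂
    have h5 := g.eqn
    rcases this with h | h
    · have : N = n₀ := h
      omega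
    · have : N = n₂ + k₁ := h
      omega
  obtain ⟨E, hE⟩ := Nat.exists_eq_add_of_le hgen
  rw [mem_core hE] at h1 h2
  rw [interior_core]
  have hx2 : x 2 = mid v n z' := by
    rw [← hz3]
    exact hx.1
  rw [mem_prel0] at hx
  intro i
  by_cases hi : i = 2
  · subst hi
    rw [hx2]
    exact mid_strict hz1 hz2
  · rw [int_coord hE]
    obtain ⟨a1, a2⟩ := hx.2 i hi
    have h3 := (h1 i).1
    have h4 := (h2 i).2
    have h5 : sx v N (pt v (N, w).1 (N, w).2) i = w i := h0 i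
    rw [h5] at h3
    rw [hy i, if_neg hi] at h4
    exact ⟨h3.trans_lt a1, a2.trans_le h4⟩

/-- the fine squares in question -/
theorem fine_of_all (_g : Geo2 v n m n₂ k₁ k₀ n₀ J) {q : Idx} (hq : q ∈ SqAll v n n₂ k₁ n₀ J) :
    (q.1 = n₀ ∧ (q.2 ∈ sqU v n n₂ n₀ J ∨ ∃ z ∈ J, q.2 ∈ sqF v n₂ k₁ n₀ z)) ∨
      (q.1 = n₂ + k₁ ∧ ∃ z ∈ J, q.2 ∈ sqG v n₂ k₁ z) := by
  rcases hq with ⟨h1, h2⟩ | ⟨z, hz, h1, h2⟩ | ⟨z, hz, h1, h2⟩
  · exact Or.inl ⟨h1, Or.inl h2⟩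
  · exact Or.inl ⟨h1, Or.inr ⟨z, hz, h2⟩⟩
  · exact Or.inr ⟨h1, z, hz, h2⟩

/-- **(d)** the squares do not overlap -/
theorem disj_all (g : Geo2 v n m n₂ k₁ k₀ n₀ J) {q q' : Idx} (hq : q ∈ SqAll v n n₂ k₁ n₀ J)
    (hq' : q' ∈ SqAll v n n₂ k₁ n₀ J) (hne : q ≠ q') :
    Disjoint (prel v (q, 2) 0) (squ v (q', 2)) := by
  have hn₀ : n₀ = n₂ + (k₁ + k₀) := by rw [g.eqn, add_assoc]
  rw [disjoint_left]
  intro x hx hx'
  obtain ⟨N, w⟩ := q
  obtain ⟨N', w'⟩ := q'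
  rcases fine_of_all g hq with ⟨h1, h2⟩ | ⟨h1, z, hz, h2⟩
  · obtain rfl : N = n₀ := h1
    rcases fine_of_all g hq' with ⟨h1', h2'⟩ | ⟨h1', z', hz', h2'⟩
    · obtain rfl : N' = N := h1'
      exact hne (by rw [eq_of_prel hx hx'])
    · obtain rfl : N' = n₂ + k₁ := h1'
      refine disjoint_left.1 (disj_fine g.eqn h2 hz') (prel_sub_squ hx) ?_
      rw [hn₀] at hx
      exact fine_gap h2' hx hx'
  · obtain rfl : N = n₂ + k₁ := h1
    rcases fine_of_all g hq' with ⟨h1', h2'⟩ | ⟨h1', z', hz', h2'⟩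
    · obtain rfl : N' = n₀ := h1'
      exact disjoint_left.1 (disj_fine g.eqn h2' hz) hx' (gap_prel h2 hx)
    · obtain rfl : N' = n₂ + k₁ := h1'
      exact hne (by rw [eq_of_prel hx hx'])

/-- **(e)** -/
theorem disj_pbox (g : Geo2 v n m n₂ k₁ k₀ n₀ J) {q : Idx} (hq : q ∈ SqAll v n n₂ k₁ n₀ J)
    {z : Fin 3 → ℤ} (hz : z ∈ J) :
    Disjoint (prel v (q, 2) 0) (pbox v (plq n₂ z) (2 / 2 ^ (n₂ + k₁)) 0) := by
  have hc1 : (1:ℝ) / 2 ^ (n₂ + k₁) = ((1:ℤ) : ℝ) / 2 ^ (n₂ + k₁) := by norm_num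
  have hc2 : (2:ℝ) / 2 ^ (n₂ + k₁) = ((2:ℤ) : ℝ) / 2 ^ (n₂ + k₁) := by norm_num
  rw [disjoint_left]
  intro x hx hx'
  obtain ⟨N, w⟩ := q
  rcases fine_of_all g hq with ⟨h1, h2⟩ | ⟨h1, z', hz', h2⟩
  · obtain rfl : N = n₀ := h1
    exact disjoint_left.1 (disj_fine g.eqn h2 hz) (prel_sub_squ hx) (pbox2_prel1 hx')
  · obtain rfl : N = n₂ + k₁ := h1
    have h3 := gap_plate h2 (prel_sub_squ hx)
    rw [squ_eq k₁, mem_pbox] at h3
    have h4 := pbox2_prel1 hx'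
    rw [hc1, mem_prel] at h4
    have hzz : z' = z := pos_unique (P := 2 ^ k₁) (c := 1) (by positivity) zero_le_one h3.1 h4.1
      (fun i hi => by simpa using h3.2 i hi) h4.2
    subst hzz
    apply h2.2
    rw [hc2, squ_sub_iff]
    rw [hc2, mem_pbox] at hx'
    rw [mem_prel0] at hx
    refine ⟨?_, fun i hi => ?_⟩
    · have := hx.1.symm.trans hx'.1
      exact_mod_cast this
    · obtain ⟨a1, a2⟩ := hx.2 i hi
      obtain ⟨b1, b2⟩ := hx'.2 i hi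
      have c1 : z' i * 2 ^ k₁ + 2 < w i + 1 := by exact_mod_cast b1.trans_lt a2
      have c2 : w i < (z' i + 1) * 2 ^ k₁ - 2 := by exact_mod_cast a1.trans_le b2
      show z' i * 2 ^ k₁ + 2 ≤ w i ∧ w i + 1 ≤ (z' i + 1) * 2 ^ k₁ - 2
      constructor <;> omega

/-- **(f)** coarse edges miss the relative interiors -/
theorem disj_edge (g : Geo2 v n m n₂ k₁ k₀ n₀ J) {q : Idx} (hq : q ∈ SqAll v n n₂ k₁ n₀ J)
    {e : Idx × Fin 3} (he : e.1.1 = m) : Disjoint (prel v (q, 2) 0) (edge v e) := by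
  rw [disjoint_left]
  intro x hx hx'
  obtain ⟨N, w⟩ := q
  have hmN : m ≤ N := by
    have h4 := g.hn₂
    have h5 := g.eqn
    rcases all_gen g hq with h | h
    · have : N = n₀ := h
      omega
    · have : N = n₂ + k₁ := h
      omega
  obtain ⟨d, hd⟩ := Nat.exists_eq_add_of_le hmN
  obtain ⟨j, hj1, hj2⟩ := third e.2
  rw [mem_prel0] at hx
  rw [mem_edge he] at hx'
  have h1 := hx'.1 j hj1
  have h2 : sx v N x j = (e.1.2 j * 2 ^ d : ℤ) := by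
    have : sx v N x j = sx v m x j * 2 ^ d := by
      simp only [sx]
      rw [hd, pow_add]; ring
    rw [this, h1]; push_cast; rfl
  obtain ⟨a1, a2⟩ := hx.2 j hj2
  rw [h2] at a1 a2
  have c1 : w j < e.1.2 j * 2 ^ d := by exact_mod_cast a1
  have c2 : e.1.2 j * 2 ^ d < w j + 1 := by exact_mod_cast a2
  omega

/-- **(3)** -/
theorem disj_plate (g : Geo2 v n m n₂ k₁ k₀ n₀ J) {w : Fin 3 → ℤ} (hw : w ∈ sqU v n n₂ n₀ J)
    {z : Fin 3 → ℤ} (hz : z ∈ J) : Disjoint (prel v ((n₀, w), 2) 0) (squ v (plq n₂ z)) := by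
  have hn₀ : n₀ = n₂ + (k₁ + k₀) := by rw [g.eqn, add_assoc]
  rw [disjoint_left]
  intro x hx hx'
  apply hw.2.2 z hz
  rw [hn₀] at hx ⊢
  rw [fine_plate]
  rw [mem_prel0] at hx
  have hx2 : x ∈ squ v ((n₂, z), 2) := hx'
  rw [mem_squ_d (k₁ + k₀)] at hx2
  refine ⟨?_, fun i hi => ?_⟩
  · have := hx.1.symm.trans hx2.1
    exact_mod_cast this
  · obtain ⟨a1, a2⟩ := hx.2 i hi
    obtain ⟨b1, b2⟩ := hx2.2 i hi
    have c1 : z i * 2 ^ (k₁ + k₀) < w i + 1 := by exact_mod_cast b1.trans_lt a2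
    have c2 : w i < (z i + 1) * 2 ^ (k₁ + k₀) := by exact_mod_cast a1.trans_le b2
    constructor <;> omega

/-- **(4)** edges which are not in the core miss its interior -/
theorem disj_out {e : Idx × Fin 3} (hn : n ≤ e.1.1) (he : ¬ edge v e ⊆ core v n) :
    Disjoint (edge v e) (interior (core v n)) := by
  rw [disjoint_left]
  intro x hx hx'
  apply he
  intro y hy
  obtain ⟨E, hE⟩ := Nat.exists_eq_add_of_le hn
  rw [mem_interior_core hE] at hx'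
  rw [mem_core hE]
  rw [mem_edge rfl] at hx hy
  intro i
  by_cases hi : i = e.2
  · subst hi
    obtain ⟨a1, a2⟩ := hx' e.2
    obtain ⟨b1, b2⟩ := hx.2
    obtain ⟨c1, c2⟩ := hy.2
    have d1 : (2 * 2 ^ E : ℤ) < e.1.2 e.2 + 1 := by exact_mod_cast a1.trans_le b2
    have d2 : e.1.2 e.2 < ((2:ℤ) ^ n - 3) * 2 ^ E := by exact_mod_cast b1.trans_lt a2
    constructor
    · exact le_trans (by exact_mod_cast (by omega : (2 * 2 ^ E : ℤ) ≤ e.1.2 e.2)) c1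
    · exact le_trans c2
        (by exact_mod_cast (by omega : e.1.2 e.2 + 1 ≤ ((2:ℤ) ^ n - 3) * 2 ^ E))
  · rw [hy.1 i hi, ← hx.1 i hi]
    exact ⟨(hx' i).1.le, (hx' i).2.le⟩

/-- a lattice interval through a point -/
theorem exists_cell {a b : ℤ} (hab : a < b) {t : ℝ} (h1 : (a:ℝ) ≤ t) (h2 : t ≤ b) :
    ∃ c : ℤ, a ≤ c ∧ c + 1 ≤ b ∧ (c:ℝ) ≤ t ∧ t ≤ c + 1 := by
  rcases lt_or_ge t (b:ℝ) with h | h
  · refine ⟨⌊t⌋, Int.le_floor.2 h1, ?_, Int.floor_le t, (Int.lt_floor_add_one t).le⟩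
    have : ⌊t⌋ < b := Int.floor_lt.2 h
    omega
  · refine ⟨b - 1, by omega, by omega, by push_cast; linarith, by push_cast; linarith⟩

/-- **(5)** cover -/
theorem cover (g : Geo2 v n m n₂ k₁ k₀ n₀ J) {h : ℝ} (hh : IsMid v n h) {x : V}
    (hx : x ∈ core v n) :
    (∃ z ∈ J, pt v n₂ z 2 = h ∧
        Function.update x 2 h ∈ pbox v (plq n₂ z) (2 / 2 ^ (n₂ + k₁)) 0) ∨
      ∃ q ∈ SqAll v n n₂ k₁ n₀ J, pt v q.1 q.2 2 = h ∧ Function.update x 2 h ∈ squ v (q, 2) := by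
  have hc1 : (1:ℝ) / 2 ^ (n₂ + k₁) = ((1:ℤ) : ℝ) / 2 ^ (n₂ + k₁) := by norm_num
  have hc2 : (2:ℝ) / 2 ^ (n₂ + k₁) = ((2:ℤ) : ℝ) / 2 ^ (n₂ + k₁) := by norm_num
  have hn₀ : n₀ = n₂ + (k₁ + k₀) := by rw [g.eqn, add_assoc]
  obtain ⟨z', hz1, hz2, hz3⟩ := hh
  obtain ⟨E', hE'⟩ : ∃ E', n₀ = (n + 1) + E' := by
    refine Nat.exists_eq_add_of_le ?_
    have h3 := g.hm
    have h4 := g.hn₂
    omega
  have hE : n₀ = n + (E' + 1) := by omega
  set y := Function.update x 2 h with hy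
  have hy2 : y 2 = h := by rw [hy, Function.update_self]
  have hyi : ∀ i, i ≠ 2 → y i = x i := fun i hi => by rw [hy, Function.update_of_ne hi]
  have hsy : ∀ i, i ≠ 2 → sx v n₀ y i = sx v n₀ x i := fun i hi => by
    simp only [sx, hyi i hi]
  rw [mem_core hE] at hx
  -- the fine square
  have hab : (2 * 2 ^ (E' + 1) : ℤ) < ((2:ℤ) ^ n - 3) * 2 ^ (E' + 1) := by
    have h1 : (8:ℤ) ≤ 2 ^ n := by
      have : (2:ℤ) ^ 3 ≤ 2 ^ n := pow_le_pow_right₀ (by norm_num) g.hn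
      linarith
    have h2 : (0:ℤ) < 2 ^ (E' + 1) := by positivity
    nlinarith
  have hcell : ∀ i, ∃ c : ℤ, (2 * 2 ^ (E' + 1) : ℤ) ≤ c ∧ c + 1 ≤ ((2:ℤ) ^ n - 3) * 2 ^ (E' + 1) ∧
      (c:ℝ) ≤ sx v n₀ x i ∧ sx v n₀ x i ≤ c + 1 := fun i =>
    exists_cell hab (hx i).1 (hx i).2
  choose c hc using hcell
  set w : Fin 3 → ℤ := fun i => if i = 2 then (2 * z' + 1) * 2 ^ E' else c i with hw
  have hw2 : w 2 = (2 * z' + 1) * 2 ^ E' := by simp [hw]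
  have hwi : ∀ i, i ≠ 2 → w i = c i := fun i hi => by simp [hw, hi]
  have hheight : pt v n₀ w 2 = h := by
    rw [hz3]
    show v 2 + (w 2 : ℝ) / 2 ^ n₀ = v 2 + (2 * z' + 1) / 2 ^ (n + 1)
    rw [hw2, hE', pow_add]
    push_cast
    field_simp
  have hyw : y ∈ squ v ((n₀, w), 2) := by
    rw [mem_squ]
    refine ⟨?_, fun i hi => ?_⟩
    · show (y 2 - v 2) * 2 ^ n₀ = w 2
      rw [hy2, ← hheight]
      show (v 2 + (w 2 : ℝ) / 2 ^ n₀ - v 2) * 2 ^ n₀ = w 2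
      have : (2:ℝ) ^ n₀ ≠ 0 := by positivity
      field_simp
      ring
    · rw [hsy i hi, hwi i hi]
      exact (hc i).2.2
  have hwcore : squ v ((n₀, w), 2) ⊆ core v n := by
    intro u hu
    have hu2 : u 2 = h := by
      have := hu.1
      rw [← hheight]; exact this
    rw [mem_squ] at hu
    rw [mem_core hE]
    intro i
    by_cases hi : i = 2
    · subst hi
      have := (int_coord hE (v := v) (x := u) 2).1 (by
        rw [hu2, hz3]; exact mid_strict hz1 hz2)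
      exact ⟨this.1.le, this.2.le⟩
    · obtain ⟨a1, a2⟩ := hu.2 i hi
      rw [hwi i hi] at a1 a2
      exact ⟨le_trans (by exact_mod_cast (hc i).1) a1, le_trans a2 (by exact_mod_cast (hc i).2.1)⟩
  by_cases hplate : ∃ z ∈ J, squ v ((n₀, w), 2) ⊆ squ v (plq n₂ z)
  · obtain ⟨z, hz, hsub⟩ := hplate
    by_cases hF : squ v ((n₀, w), 2) ⊆ pbox v (plq n₂ z) (1 / 2 ^ (n₂ + k₁)) 0
    · -- the gap square
      have hF' := hF
      rw [hn₀, one_eq n₂ k₁ k₀, squ_sub_iff] at hF'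
      obtain ⟨f1, f2⟩ := hF'
      have hP : (0:ℤ) < 2 ^ k₀ := by positivity
      set gg : Fin 3 → ℤ := fun i => if i = 2 then z 2 * 2 ^ k₁ else w i / 2 ^ k₀ with hgg
      have hg2 : gg 2 = z 2 * 2 ^ k₁ := by simp [hgg]
      have hgi : ∀ i, i ≠ 2 → gg i * 2 ^ k₀ ≤ w i ∧ w i + 1 ≤ (gg i + 1) * 2 ^ k₀ := by
        intro i hi
        have e1 : gg i = w i / 2 ^ k₀ := by simp [hgg, hi]
        have e2 := Int.ediv_mul_le (w i) hP.ne'
        have e3 := Int.lt_ediv_add_one_mul_self (w i) hP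
        rw [e1]
        exact ⟨e2, by omega⟩
      have hgz : ∀ i, i ≠ 2 → z i * 2 ^ k₁ + 1 ≤ gg i ∧ gg i + 1 ≤ (z i + 1) * 2 ^ k₁ - 1 := by
        intro i hi
        obtain ⟨a1, a2⟩ := hgi i hi
        obtain ⟨b1, b2⟩ := f2 i hi
        have e1 : (z i * 2 ^ k₁ + 1) * 2 ^ k₀ < (gg i + 1) * 2 ^ k₀ := by
          have : z i * 2 ^ (k₁ + k₀) = z i * 2 ^ k₁ * 2 ^ k₀ := by rw [pow_add]; ring
          nlinarith
        have e2 : gg i * 2 ^ k₀ < ((z i + 1) * 2 ^ k₁ - 1) * 2 ^ k₀ := by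
          have : (z i + 1) * 2 ^ (k₁ + k₀) = (z i + 1) * 2 ^ k₁ * 2 ^ k₀ := by rw [pow_add]; ring
          nlinarith
        have e3 := lt_of_mul_lt_mul_right e1 hP.le
        have e4 := lt_of_mul_lt_mul_right e2 hP.le
        constructor <;> omega
      have hgF : squ v ((n₂ + k₁, gg), 2) ⊆ pbox v (plq n₂ z) (1 / 2 ^ (n₂ + k₁)) 0 := by
        rw [hc1, squ_sub_iff]
        exact ⟨hg2, hgz⟩
      have hyg : y ∈ squ v ((n₂ + k₁, gg), 2) := by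
        rw [hn₀, mem_squ] at hyw
        rw [mem_squ_d k₀, add_assoc]
        refine ⟨?_, fun i hi => ?_⟩
        · rw [hyw.1, f1, hg2, pow_add, mul_assoc]
        · obtain ⟨a1, a2⟩ := hgi i hi
          obtain ⟨b1, b2⟩ := hyw.2 i hi
          exact ⟨le_trans (by exact_mod_cast a1) b1, le_trans b2 (by exact_mod_cast a2)⟩
      by_cases hG : squ v ((n₂ + k₁, gg), 2) ⊆ pbox v (plq n₂ z) (2 / 2 ^ (n₂ + k₁)) 0
      · left
        refine ⟨z, hz, ?_, hG hyg⟩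
        rw [← pt_eq (d := k₁ + k₀) f1, ← hn₀]
        exact hheight
      · right
        refine ⟨(n₂ + k₁, gg), Or.inr (Or.inr ⟨z, hz, rfl, hgF, hG⟩), ?_, hyg⟩
        show pt v (n₂ + k₁) gg 2 = h
        rw [pt_eq hg2, ← pt_eq (d := k₁ + k₀) f1, ← hn₀]
        exact hheight
    · right
      exact ⟨(n₀, w), Or.inr (Or.inl ⟨z, hz, rfl, hsub, hF⟩), hheight, hyw⟩
  · right
    push Not at hplate
    exact ⟨(n₀, w), Or.inl ⟨rfl, hwcore, ⟨z', hz1, hz2, hheight.trans hz3⟩, hplate⟩, hheight, hyw⟩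

end

end Vale.Agent.P073.LOC.Geo2a

namespace Vale.Agent.P073.LOC

/-- **(GEO2a)** -/
theorem specGeo2a : SpecGeo2a := fun _ _ _ _ _ _ _ _ g =>
  ⟨Geo2a.finite_all g, fun _ hq => ⟨(Geo2a.all_core g hq).1, (Geo2a.all_core g hq).2,
    Geo2a.prel_int g hq, fun _ hq' hne => Geo2a.disj_all g hq hq' hne,
    fun _ hz => Geo2a.disj_pbox g hq hz, fun _ he _ => Geo2a.disj_edge g hq he⟩,
    fun _ hw _ hz => Geo2a.disj_plate g hw hz, fun _ hn he => Geo2a.disj_out hn he,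
    fun _ hh _ hx => Geo2a.cover g hh hx⟩

end Vale.Agent.P073.LOC
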