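import Vale.Agent.P073.LOC.Sec2
import Vale.Agent.P073.AB.Graph907
import Vale.Agent.P073.AB.Sum293a
import Vale.Agent.P073.AB.Sum308b

/-!
# P073, block LOC, rank two: (GEO2b), the edges of the plane squares

Everything is read in the scaled coordinates `(x i - v i) * 2 ^ N`, where the squares, the plates
and the edges have integer corners.
-/

namespace Vale.Agent.P073.LOC.Geo2b

open MeasureTheory Set Vale.Agent.P073.St
open Vale.Agent.P073.AB (Idx pt edge eInt squ EdgeOfSq subEdge)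
open P073.Plate (pbox prel)
open scoped ENNReal

/-- scaled coordinate -/
noncomputable def sx (v : V) (N : ℕ) (x : V) (i : Fin 3) : ℝ := (x i - v i) * 2 ^ N

theorem le_key {n d : ℕ} {u a c t : ℝ} :
    u + a / 2 ^ n + c / 2 ^ (n + d) ≤ t ↔ a * 2 ^ d + c ≤ (t - u) * 2 ^ (n + d) := by
  have h : (0:ℝ) < 2 ^ (n + d) := by positivity
  have e : u + a / 2 ^ n + c / 2 ^ (n + d) = u + (a * 2 ^ d + c) / 2 ^ (n + d) := by
    rw [pow_add]; field_simp; ring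
  rw [e, ← div_le_iff₀ h]
  constructor <;> intro h <;> linarith

theorem lt_key {n d : ℕ} {u a c t : ℝ} :
    u + a / 2 ^ n + c / 2 ^ (n + d) < t ↔ a * 2 ^ d + c < (t - u) * 2 ^ (n + d) := by
  have h : (0:ℝ) < 2 ^ (n + d) := by positivity
  have e : u + a / 2 ^ n + c / 2 ^ (n + d) = u + (a * 2 ^ d + c) / 2 ^ (n + d) := by
    rw [pow_add]; field_simp; ring
  rw [e, ← div_lt_iff₀ h]
  constructor <;> intro h <;> linarith

theorem key_le {n d : ℕ} {u a c t : ℝ} :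
    t ≤ u + a / 2 ^ n - c / 2 ^ (n + d) ↔ (t - u) * 2 ^ (n + d) ≤ a * 2 ^ d - c := by
  have h : (0:ℝ) < 2 ^ (n + d) := by positivity
  have e : u + a / 2 ^ n - c / 2 ^ (n + d) = u + (a * 2 ^ d - c) / 2 ^ (n + d) := by
    rw [pow_add]; field_simp; ring
  rw [e, ← le_div_iff₀ h]
  constructor <;> intro h <;> linarith

theorem key_lt {n d : ℕ} {u a c t : ℝ} :
    t < u + a / 2 ^ n - c / 2 ^ (n + d) ↔ (t - u) * 2 ^ (n + d) < a * 2 ^ d - c := by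
  have h : (0:ℝ) < 2 ^ (n + d) := by positivity
  have e : u + a / 2 ^ n - c / 2 ^ (n + d) = u + (a * 2 ^ d - c) / 2 ^ (n + d) := by
    rw [pow_add]; field_simp; ring
  rw [e, ← lt_div_iff₀ h]
  constructor <;> intro h <;> linarith

theorem eq_key {n : ℕ} {u a t : ℝ} : t = u + a / 2 ^ n ↔ (t - u) * 2 ^ n = a := by
  have h : (0:ℝ) < 2 ^ n := by positivity
  rw [← eq_div_iff h.ne']
  constructor <;> intro h <;> linarith

theorem eq_key' {n d : ℕ} {u a t : ℝ} :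
    t = u + a / 2 ^ n ↔ (t - u) * 2 ^ (n + d) = a * 2 ^ d := by
  have h : (0:ℝ) < 2 ^ d := by positivity
  rw [eq_key, pow_add, ← mul_assoc, mul_left_inj' h.ne']

theorem le_key0 {n : ℕ} {u a t : ℝ} : u + a / 2 ^ n ≤ t ↔ a ≤ (t - u) * 2 ^ n := by
  simpa using le_key (n := n) (d := 0) (u := u) (a := a) (c := 0) (t := t)

theorem key_le0 {n : ℕ} {u a t : ℝ} : t ≤ u + a / 2 ^ n ↔ (t - u) * 2 ^ n ≤ a := by
  simpa using key_le (n := n) (d := 0) (u := u) (a := a) (c := 0) (t := t)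

theorem mem_squ {v : V} {N : ℕ} {w : Fin 3 → ℤ} {x : V} : x ∈ squ v ((N, w), 2) ↔
    sx v N x 2 = w 2 ∧ ∀ i, i ≠ 2 → (w i : ℝ) ≤ sx v N x i ∧ sx v N x i ≤ w i + 1 := by
  show (x 2 = v 2 + w 2 / 2 ^ N ∧ ∀ k, k ≠ 2 → v k + w k / 2 ^ N ≤ x k ∧
    x k ≤ v k + (w k + 1) / 2 ^ N) ↔ _
  rw [eq_key]
  simp only [le_key0, key_le0, sx]

theorem mem_edge {v : V} {N : ℕ} {e : Idx × Fin 3} (he : e.1.1 = N) {x : V} : x ∈ edge v e ↔
    (∀ j, j ≠ e.2 → sx v N x j = e.1.2 j) ∧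
      (e.1.2 e.2 : ℝ) ≤ sx v N x e.2 ∧ sx v N x e.2 ≤ e.1.2 e.2 + 1 := by
  subst he
  rw [AB.Gr.mem_edge]
  simp only [le_key0, key_le0, eq_key, sx]

theorem mem_pbox {v : V} {n₂ d : ℕ} {z : Fin 3 → ℤ} {c : ℤ} {x : V} :
    x ∈ pbox v (plq n₂ z) (c / 2 ^ (n₂ + d)) 0 ↔
      sx v (n₂ + d) x 2 = (z 2 * 2 ^ d : ℤ) ∧ ∀ i, i ≠ 2 →
        ((z i * 2 ^ d + c : ℤ) : ℝ) ≤ sx v (n₂ + d) x i ∧
          sx v (n₂ + d) x i ≤ ((z i + 1) * 2 ^ d - c : ℤ) := by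
  show (|x 2 - (v 2 + z 2 / 2 ^ n₂)| ≤ 0 ∧ ∀ i, i ≠ 2 →
    v i + z i / 2 ^ n₂ + c / 2 ^ (n₂ + d) ≤ x i ∧
      x i ≤ v i + (z i + 1) / 2 ^ n₂ - c / 2 ^ (n₂ + d)) ↔ _
  rw [abs_nonpos_iff, sub_eq_zero, eq_key' (d := d)]
  simp only [le_key, key_le, sx]
  push_cast
  rfl

theorem mem_prel {v : V} {n₂ d : ℕ} {z : Fin 3 → ℤ} {c : ℤ} {x : V} :
    x ∈ prel v (plq n₂ z) (c / 2 ^ (n₂ + d)) ↔
      sx v (n₂ + d) x 2 = (z 2 * 2 ^ d : ℤ) ∧ ∀ i, i ≠ 2 →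
        ((z i * 2 ^ d + c : ℤ) : ℝ) < sx v (n₂ + d) x i ∧
          sx v (n₂ + d) x i < ((z i + 1) * 2 ^ d - c : ℤ) := by
  show (x 2 = v 2 + z 2 / 2 ^ n₂ ∧ ∀ i, i ≠ 2 →
    v i + z i / 2 ^ n₂ + c / 2 ^ (n₂ + d) < x i ∧
      x i < v i + (z i + 1) / 2 ^ n₂ - c / 2 ^ (n₂ + d)) ↔ _
  rw [eq_key' (d := d)]
  simp only [lt_key, key_lt, sx]
  push_cast
  rfl

theorem squ_eq {v : V} {n₂ : ℕ} {z : Fin 3 → ℤ} (d : ℕ) :
    squ v (plq n₂ z) = pbox v (plq n₂ z) ((0:ℤ) / 2 ^ (n₂ + d)) 0 := by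
  ext x
  show (x 2 = v 2 + z 2 / 2 ^ n₂ ∧ ∀ k, k ≠ 2 → v k + z k / 2 ^ n₂ ≤ x k ∧
    x k ≤ v k + (z k + 1) / 2 ^ n₂) ↔ (|x 2 - (v 2 + z 2 / 2 ^ n₂)| ≤ 0 ∧ ∀ i, i ≠ 2 →
    v i + z i / 2 ^ n₂ + (0:ℤ) / 2 ^ (n₂ + d) ≤ x i ∧
      x i ≤ v i + (z i + 1) / 2 ^ n₂ - (0:ℤ) / 2 ^ (n₂ + d))
  rw [abs_nonpos_iff, sub_eq_zero]
  simp

/-- the point with given scaled coordinates -/
theorem exists_sx (v : V) (N : ℕ) (y : Fin 3 → ℝ) : ∃ x : V, ∀ i, sx v N x i = y i :=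
  ⟨fun i => v i + y i / 2 ^ N, fun i => by simp [sx]⟩

/-- a dyadic square is in a plate or in a shrunk plate: integer form -/
theorem squ_sub_iff {v : V} {n₂ d : ℕ} {z w : Fin 3 → ℤ} {c : ℤ} :
    squ v ((n₂ + d, w), 2) ⊆ pbox v (plq n₂ z) (c / 2 ^ (n₂ + d)) 0 ↔
      w 2 = z 2 * 2 ^ d ∧ ∀ i, i ≠ 2 → z i * 2 ^ d + c ≤ w i ∧ w i + 1 ≤ (z i + 1) * 2 ^ d - c := by
  constructor
  · intro h
    obtain ⟨x, hx⟩ := exists_sx v (n₂ + d) (fun i => w i)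
    obtain ⟨y, hy⟩ := exists_sx v (n₂ + d) (fun i => if i = 2 then w i else w i + 1)
    have h1 := mem_pbox.1 (h (mem_squ.2 ⟨hx 2, fun i _ => by rw [hx i]; simp⟩))
    have h2 := mem_pbox.1 (h (mem_squ.2 ⟨by rw [hy 2]; simp, fun i hi => by
      rw [hy i]; simp [hi]⟩))
    refine ⟨by have := h1.1; rw [hx 2] at this; exact_mod_cast this, fun i hi => ⟨?_, ?_⟩⟩
    · have := (h1.2 i hi).1
      rw [hx i] at this
      exact_mod_cast this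
    · have := (h2.2 i hi).2
      rw [hy i, if_neg hi] at this
      exact_mod_cast this
  · rintro ⟨h1, h2⟩ x hx
    rw [mem_squ] at hx
    rw [mem_pbox]
    refine ⟨by rw [hx.1, h1], fun i hi => ⟨?_, ?_⟩⟩
    · exact le_trans (by exact_mod_cast (h2 i hi).1) (hx.2 i hi).1
    · exact le_trans (hx.2 i hi).2 (by exact_mod_cast (h2 i hi).2)

/-- the position of a plate is determined by a point of it -/
theorem pos_unique {v : V} {N : ℕ} {P c : ℤ} (hP : 0 < P) (hc : 0 ≤ c) {z z' : Fin 3 → ℤ} {x : V}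
    (h1 : sx v N x 2 = (z 2 * P : ℤ)) (h2 : sx v N x 2 = (z' 2 * P : ℤ))
    (h3 : ∀ i, i ≠ 2 → ((z i * P : ℤ) : ℝ) ≤ sx v N x i ∧ sx v N x i ≤ ((z i + 1) * P : ℤ))
    (h4 : ∀ i, i ≠ 2 → ((z' i * P + c : ℤ) : ℝ) < sx v N x i ∧
      sx v N x i < ((z' i + 1) * P - c : ℤ)) : z = z' := by
  funext i
  by_cases hi : i = 2
  · subst hi
    rw [h1] at h2
    have h5 : z 2 * P = z' 2 * P := by exact_mod_cast h2
    exact mul_right_cancel₀ hP.ne' h5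
  · obtain ⟨a1, a2⟩ := h3 i hi
    obtain ⟨b1, b2⟩ := h4 i hi
    have c1 : z i * P < (z' i + 1) * P - c := by exact_mod_cast a1.trans_lt b2
    have c2 : z' i * P + c < (z i + 1) * P := by exact_mod_cast b1.trans_le a2
    have d1 : z i * P < (z' i + 1) * P := by linarith
    have d2 : z' i * P < (z i + 1) * P := by linarith
    have e1 := lt_of_mul_lt_mul_right d1 hP.le
    have e2 := lt_of_mul_lt_mul_right d2 hP.le
    omega

section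

variable {v : V} {n m n₂ k₁ k₀ n₀ : ℕ} {J : Finset (Fin 3 → ℤ)}

theorem one_eq (n₂ k₁ k₀ : ℕ) : (1 : ℝ) / 2 ^ (n₂ + k₁) =
    ((2 ^ k₀ : ℤ) : ℝ) / 2 ^ (n₂ + (k₁ + k₀)) := by
  rw [pow_add, pow_add, pow_add]
  push_cast
  field_simp

/-- the height -/
theorem pt_eq {z w : Fin 3 → ℤ} {d : ℕ} (h : w 2 = z 2 * 2 ^ d) :
    pt v (n₂ + d) w 2 = pt v n₂ z 2 := by
  show v 2 + (w 2 : ℝ) / 2 ^ (n₂ + d) = v 2 + z 2 / 2 ^ n₂
  rw [h, pow_add]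
  push_cast
  field_simp

/-- the edges of a fine square miss the protected part of every plate -/
theorem disj_fine (hn₀ : n₀ = n₂ + k₁ + k₀) {w : Fin 3 → ℤ}
    (hw : w ∈ sqU v n n₂ n₀ J ∨ ∃ z ∈ J, w ∈ sqF v n₂ k₁ n₀ z) {z : Fin 3 → ℤ} (hz : z ∈ J) :
    Disjoint (squ v ((n₀, w), 2)) (prel v (plq n₂ z) (1 / 2 ^ (n₂ + k₁))) := by
  rw [add_assoc] at hn₀
  subst hn₀
  rw [disjoint_left]
  intro x hx hx'
  rw [one_eq n₂ k₁ k₀] at hx'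
  have hx1 := mem_squ.1 hx
  have hx2 := mem_prel.1 hx'
  have hM : (0:ℤ) < 2 ^ k₀ := by positivity
  -- the square is in the shrunk plate
  have key : squ v ((n₂ + (k₁ + k₀), w), 2) ⊆
      pbox v (plq n₂ z) (((2 ^ k₀ : ℤ) : ℝ) / 2 ^ (n₂ + (k₁ + k₀))) 0 := by
    rw [squ_sub_iff]
    refine ⟨?_, fun i hi => ?_⟩
    · have := hx1.1
      rw [hx2.1] at this
      exact_mod_cast this.symm
    · obtain ⟨a1, a2⟩ := hx1.2 i hi
      obtain ⟨b1, b2⟩ := hx2.2 i hi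
      have c1 : w i < (z i + 1) * 2 ^ (k₁ + k₀) - 2 ^ k₀ := by exact_mod_cast a1.trans_lt b2
      have c2 : z i * 2 ^ (k₁ + k₀) + 2 ^ k₀ < w i + 1 := by exact_mod_cast b1.trans_le a2
      constructor <;> omega
  have hsub : pbox v (plq n₂ z) (((2 ^ k₀ : ℤ) : ℝ) / 2 ^ (n₂ + (k₁ + k₀))) 0 ⊆
      squ v (plq n₂ z) := by
    rw [squ_eq (k₁ + k₀)]
    intro y hy
    rw [mem_pbox] at hy ⊢
    refine ⟨hy.1, fun i hi => ⟨le_trans ?_ (hy.2 i hi).1, le_trans (hy.2 i hi).2 ?_⟩⟩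
    · exact_mod_cast (by omega : z i * 2 ^ (k₁ + k₀) + 0 ≤ z i * 2 ^ (k₁ + k₀) + 2 ^ k₀)
    · exact_mod_cast (by omega : (z i + 1) * 2 ^ (k₁ + k₀) - 2 ^ k₀ ≤
        (z i + 1) * 2 ^ (k₁ + k₀) - 0)
  rcases hw with hw | ⟨z', hz', hw⟩
  · exact hw.2.2 z hz (key.trans hsub)
  · have h1 := hw.1
    have h2 := hw.2
    rw [one_eq n₂ k₁ k₀] at h2
    have h3 : z' = z := by
      have h4 := h1 hx
      rw [squ_eq (k₁ + k₀), mem_pbox] at h4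
      refine pos_unique (P := 2 ^ (k₁ + k₀)) (c := 2 ^ k₀) (by positivity) hM.le h4.1 hx2.1
        (fun i hi => ?_) hx2.2
      simpa using h4.2 i hi
    subst h3
    exact h2 key

/-- first part -/
theorem part1 (g : Geo2 v n m n₂ k₁ k₀ n₀ J) {w : Fin 3 → ℤ}
    (hw : w ∈ sqU v n n₂ n₀ J ∨ ∃ z ∈ J, w ∈ sqF v n₂ k₁ n₀ z) {e : Idx × Fin 3}
    (he : EdgeOfSq e ((n₀, w), 2)) : FineE v n n₀ e ∧
      ∀ z ∈ J, Disjoint (edge v e) (prel v (plq n₂ z) (1 / 2 ^ (n₂ + k₁))) := by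
  have hes : edge v e ⊆ squ v ((n₀, w), 2) := AB.S308.edge_sub_squ he
  refine ⟨⟨he.1, he.2.1, ?_, ?_⟩, fun z hz => (disj_fine g.eqn hw hz).mono_left hes⟩
  · rcases hw with hw | ⟨z, hz, hw⟩
    · exact hes.trans hw.1
    · exact hes.trans (hw.1.trans (g.sub z hz))
  · have h1 : pt v e.1.1 e.1.2 2 = pt v n₀ w 2 := by
      have h2 : e.1.1 = n₀ := he.1
      have h3 : e.1.2 2 = w 2 := he.2.2.2.1
      show v 2 + (e.1.2 2 : ℝ) / 2 ^ e.1.1 = v 2 + w 2 / 2 ^ n₀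
      rw [h2, h3]
    rw [h1]
    rcases hw with hw | ⟨z, hz, hw⟩
    · exact hw.2.1
    · have h2 := hw.1
      have h3 : n₀ = n₂ + (k₁ + k₀) := by rw [g.eqn, add_assoc]
      subst h3
      rw [squ_eq (k₁ + k₀), squ_sub_iff] at h2
      rw [pt_eq h2.1]
      exact g.mid z hz

/-- the third part -/
theorem part3 (g : Geo2 v n m n₂ k₁ k₀ n₀ J) {z : Fin 3 → ℤ} (hz : z ∈ J) {w : Fin 3 → ℤ}
    (hw : w ∈ sqG v n₂ k₁ z) {e : Idx × Fin 3} (he : EdgeOfSq e ((n₂ + k₁, w), 2)) :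
    (edge v e ⊆ pbox v (plq n₂ z) (1 / 2 ^ (n₂ + k₁)) 0 \
          prel v (plq n₂ z) (2 / 2 ^ (n₂ + k₁)) ∧
        ¬ edge v e ⊆ pbox v (plq n₂ z) (1 / 2 ^ (n₂ + k₁)) 0 \
          prel v (plq n₂ z) (1 / 2 ^ (n₂ + k₁))) ∨
      ∃ T : Finset (Idx × Fin 3), T.card = 2 ^ k₀ ∧
        (∀ e' ∈ T, e'.2 = e.2 ∧ FineE v n n₀ e' ∧ edge v e' ⊆ squ v (plq n₂ z) ∧
          ∀ z' ∈ J, Disjoint (edge v e') (prel v (plq n₂ z') (1 / 2 ^ (n₂ + k₁)))) ∧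
        ∀ H : V → ℝ≥0∞, Measurable H → eInt v e H ≤ ∑ e' ∈ T, eInt v e' H := by
  have hes : edge v e ⊆ squ v ((n₂ + k₁, w), 2) := AB.S308.edge_sub_squ he
  have hc1 : (1:ℝ) / 2 ^ (n₂ + k₁) = ((1:ℤ) : ℝ) / 2 ^ (n₂ + k₁) := by norm_num
  have hc2 : (2:ℝ) / 2 ^ (n₂ + k₁) = ((2:ℤ) : ℝ) / 2 ^ (n₂ + k₁) := by norm_num
  have hw1 := hw.1
  have hw2 := hw.2
  have hep : edge v e ⊆ pbox v (plq n₂ z) (1 / 2 ^ (n₂ + k₁)) 0 := hes.trans hw1
  rw [hc1, squ_sub_iff] at hw1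
  rw [hc2, squ_sub_iff] at hw2
  obtain ⟨hw0, hw1⟩ := hw1
  -- never in the doubly shrunk plate
  have hd2 : Disjoint (edge v e) (prel v (plq n₂ z) (2 / 2 ^ (n₂ + k₁))) := by
    rw [disjoint_left]
    intro x hx hx'
    rw [hc2, mem_prel] at hx'
    apply hw2
    refine ⟨hw0, fun i hi => ?_⟩
    have hx1 := (mem_squ.1 (hes hx)).2 i hi
    obtain ⟨b1, b2⟩ := hx'.2 i hi
    have c1 : w i < (z i + 1) * 2 ^ k₁ - 2 := by exact_mod_cast hx1.1.trans_lt b2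
    have c2 : z i * 2 ^ k₁ + 2 < w i + 1 := by exact_mod_cast b1.trans_le hx1.2
    constructor <;> omega
  by_cases hd1 : Disjoint (edge v e) (prel v (plq n₂ z) (1 / 2 ^ (n₂ + k₁)))
  · right
    have hinj : Set.InjOn (subEdge e k₀) (Finset.range (2 ^ k₀) : Set ℕ) := by
      intro i _ j _ hij
      have h1 : (subEdge e k₀ i).1.2 e.2 = (subEdge e k₀ j).1.2 e.2 := by rw [hij]
      simp only [subEdge, if_true] at h1
      have h2 : (i:ℤ) = j := by linarith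
      exact_mod_cast h2
    have hps : pbox v (plq n₂ z) (1 / 2 ^ (n₂ + k₁)) 0 ⊆ squ v (plq n₂ z) := by
      rw [squ_eq k₁, hc1]
      intro y hy
      rw [mem_pbox] at hy ⊢
      refine ⟨hy.1, fun i hi => ⟨le_trans ?_ (hy.2 i hi).1, le_trans (hy.2 i hi).2 ?_⟩⟩
      · exact_mod_cast (by omega : z i * 2 ^ k₁ + 0 ≤ z i * 2 ^ k₁ + 1)
      · exact_mod_cast (by omega : (z i + 1) * 2 ^ k₁ - 1 ≤ (z i + 1) * 2 ^ k₁ - 0)
    refine ⟨(Finset.range (2 ^ k₀)).image (subEdge e k₀), ?_, ?_, ?_⟩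
    · rw [Finset.card_image_of_injOn hinj, Finset.card_range]
    · intro e' he'
      obtain ⟨j, hj, rfl⟩ := Finset.mem_image.1 he'
      rw [Finset.mem_range] at hj
      have hsub : edge v (subEdge e k₀ j) ⊆ edge v e := AB.S308.subEdge_sub hj
      have hsq : edge v (subEdge e k₀ j) ⊆ squ v (plq n₂ z) := hsub.trans (hep.trans hps)
      have he2 : e.2 ≠ 2 := he.2.1
      refine ⟨rfl, ⟨?_, he2, hsq.trans (g.sub z hz), ?_⟩, hsq, fun z' hz' => ?_⟩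
      · show e.1.1 + k₀ = n₀
        rw [g.eqn, he.1]
      · have h1 : (subEdge e k₀ j).1.2 2 = z 2 * 2 ^ (k₁ + k₀) := by
          have h2 : (subEdge e k₀ j).1.2 2 = 2 ^ k₀ * e.1.2 2 := by
            simp only [subEdge, if_neg he2.symm]
          have h3 : e.1.2 2 = w 2 := he.2.2.2.1
          rw [h2, h3, hw0, pow_add]
          ring
        have h4 : (subEdge e k₀ j).1.1 = n₂ + (k₁ + k₀) := by
          show e.1.1 + k₀ = _
          rw [he.1, add_assoc]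
        rw [h4, pt_eq h1]
        exact g.mid z hz
      · by_cases hzz : z = z'
        · subst hzz
          exact hd1.mono_left hsub
        · rw [disjoint_left]
          intro x hx hx'
          apply hzz
          have h1 := hsq hx
          rw [squ_eq k₁, mem_pbox] at h1
          rw [hc1, mem_prel] at hx'
          refine pos_unique (P := 2 ^ k₁) (c := 1) (by positivity) zero_le_one h1.1 hx'.1
            (fun i hi => ?_) hx'.2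
          simpa using h1.2 i hi
    · intro H hH
      rw [Finset.sum_image hinj]
      exact AB.S293.eInt_sub v e k₀ hH
  · left
    refine ⟨subset_sdiff.2 ⟨hep, hd2⟩, fun h => hd1 (subset_sdiff.1 h).2⟩

end

end Geo2b

/-- **(GEO2b)** -/
theorem specGeo2b : SpecGeo2b := fun _ _ _ _ _ _ _ _ g =>
  ⟨fun _ hw _ he => Geo2b.part1 g hw he, fun _ _ _ hw _ he => (AB.S308.edge_sub_squ he).trans hw.1,
    fun _ hz _ hw _ he => Geo2b.part3 g hz hw he⟩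

end Vale.Agent.P073.LOC
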