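import Vale.Agent.P073.LOC.Sec2

/-!
# P073, block LOC, rank two: counting of the plane squares (GEO2c)
-/

namespace Vale.Agent.P073.LOC

namespace Geo2c

open Set Vale.Agent.P073.St
open Vale.Agent.P073.SQ (ev)
open Vale.Agent.P073.AB (Idx pt edge squ EdgeOfSq)
open P073.Plate (pbox)

/-! ### dyadic arithmetic -/

theorem le_iff {m : ℕ} {c : ℝ} {a b : ℤ} : c + (a : ℝ) / 2 ^ m ≤ c + (b : ℝ) / 2 ^ m ↔ a ≤ b := by
  have h : (0:ℝ) < 2 ^ m := by positivity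
  rw [add_le_add_iff_left, div_le_div_iff_of_pos_right h]
  exact_mod_cast Iff.rfl

theorem dv (z : ℤ) (n j : ℕ) : (z : ℝ) / 2 ^ n = ((z * 2 ^ j : ℤ) : ℝ) / 2 ^ (n + j) := by
  push_cast
  rw [pow_add]
  field_simp

theorem dv1 (z : ℤ) (n j : ℕ) :
    ((z : ℝ) + 1) / 2 ^ n = (((z + 1) * 2 ^ j : ℤ) : ℝ) / 2 ^ (n + j) := by
  rw [← dv]
  push_cast
  rfl

theorem two_ne {k : Fin 3} (h : k ≠ 2) : k = 0 ∨ k = 1 := by
  revert h; revert k; decide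

/-! ### squares in a plate -/

theorem sq_mem {v : V} {m : ℕ} {w : Fin 3 → ℤ} {x : V} : x ∈ squ v ((m, w), 2) ↔
    x 2 = v 2 + (w 2 : ℝ) / 2 ^ m ∧ ∀ k, k ≠ 2 →
      v k + (w k : ℝ) / 2 ^ m ≤ x k ∧ x k ≤ v k + ((w k + 1 : ℤ) : ℝ) / 2 ^ m := by
  push_cast
  rfl

theorem corner_mem (v : V) (m : ℕ) (w : Fin 3 → ℤ) : pt v m w ∈ squ v ((m, w), 2) := by
  rw [sq_mem]
  refine ⟨rfl, fun k _ => ⟨le_rfl, ?_⟩⟩
  show v k + (w k : ℝ) / 2 ^ m ≤ _
  rw [le_iff]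
  omega

theorem corner_mem' (v : V) (m : ℕ) (w : Fin 3 → ℤ) :
    pt v m (fun k => if k = 2 then w k else w k + 1) ∈ squ v ((m, w), 2) := by
  rw [sq_mem]
  refine ⟨by simp [pt], fun k hk => ?_⟩
  have h1 : pt v m (fun k => if k = 2 then w k else w k + 1) k =
      v k + ((w k + 1 : ℤ) : ℝ) / 2 ^ m := by simp [pt, hk]
  rw [h1]
  exact ⟨by rw [le_iff]; omega, le_rfl⟩

/-- a small square in a large square -/
theorem sub_squ {v : V} {n j : ℕ} {w z : Fin 3 → ℤ}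
    (h : squ v ((n + j, w), 2) ⊆ squ v ((n, z), 2)) :
    w 2 = z 2 * 2 ^ j ∧ ∀ k, k ≠ 2 → z k * 2 ^ j ≤ w k ∧ w k + 1 ≤ (z k + 1) * 2 ^ j := by
  have h1 := (sq_mem.1 (h (corner_mem v (n + j) w)))
  have h2 := (sq_mem.1 (h (corner_mem' v (n + j) w)))
  have hp : (0:ℝ) < 2 ^ (n + j) := by positivity
  constructor
  · have h3 := h1.1
    rw [dv (z 2) n j] at h3
    have h4 : v 2 + (w 2 : ℝ) / 2 ^ (n + j) = v 2 + ((z 2 * 2 ^ j : ℤ) : ℝ) / 2 ^ (n + j) := h3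
    exact le_antisymm (le_iff.1 h4.le) (le_iff.1 h4.ge)
  · intro k hk
    have h3 := (h1.2 k hk).1
    have h4 := (h2.2 k hk).2
    rw [dv (z k) n j] at h3
    rw [dv (z k + 1) n j] at h4
    have h5 : pt v (n + j) (fun k => if k = 2 then w k else w k + 1) k =
      v k + ((w k + 1 : ℤ) : ℝ) / 2 ^ (n + j) := by simp [pt, hk]
    rw [h5] at h4
    exact ⟨le_iff.1 h3, le_iff.1 h4⟩

/-- a small square in a box, first direction -/
theorem sub_pbox {v : V} {n j : ℕ} {w z : Fin 3 → ℤ} {d : ℤ}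
    (h : squ v ((n + j, w), 2) ⊆ pbox v ((n, z), 2) ((d : ℝ) / 2 ^ (n + j)) 0) :
    w 2 = z 2 * 2 ^ j ∧ ∀ k, k ≠ 2 → z k * 2 ^ j + d ≤ w k ∧ w k + 1 ≤ (z k + 1) * 2 ^ j - d := by
  have h1 := h (corner_mem v (n + j) w)
  have h2 := h (corner_mem' v (n + j) w)
  have hp : (0:ℝ) < 2 ^ (n + j) := by positivity
  constructor
  · have h3 : |v 2 + (w 2 : ℝ) / 2 ^ (n + j) - (v 2 + (z 2 : ℝ) / 2 ^ n)| ≤ 0 := h1.1
    have h4 := abs_nonpos_iff.1 h3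
    rw [dv (z 2) n j] at h4
    have h5 : v 2 + (w 2 : ℝ) / 2 ^ (n + j) = v 2 + ((z 2 * 2 ^ j : ℤ) : ℝ) / 2 ^ (n + j) := by
      linarith
    exact le_antisymm (le_iff.1 h5.le) (le_iff.1 h5.ge)
  · intro k hk
    have h3 : v k + (z k : ℝ) / 2 ^ n + (d : ℝ) / 2 ^ (n + j) ≤ v k + (w k : ℝ) / 2 ^ (n + j) :=
      (h1.2 k hk).1
    have h4 : pt v (n + j) (fun k => if k = 2 then w k else w k + 1) k ≤
      v k + ((z k : ℝ) + 1) / 2 ^ n - (d : ℝ) / 2 ^ (n + j) := (h2.2 k hk).2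
    have h5 : pt v (n + j) (fun k => if k = 2 then w k else w k + 1) k =
      v k + ((w k + 1 : ℤ) : ℝ) / 2 ^ (n + j) := by simp [pt, hk]
    rw [h5, dv1 (z k) n j] at h4
    rw [dv (z k) n j] at h3
    constructor
    · refine (le_iff (m := n + j) (c := v k)).1 ?_
      rw [Int.cast_add, add_div]
      linarith
    · refine (le_iff (m := n + j) (c := v k)).1 ?_
      rw [Int.cast_sub, sub_div]
      linarith

/-- a small square in a box, second direction -/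
theorem sub_pbox' {v : V} {n j : ℕ} {w z : Fin 3 → ℤ} {d : ℤ}
    (h0 : w 2 = z 2 * 2 ^ j)
    (h : ∀ k, k ≠ 2 → z k * 2 ^ j + d ≤ w k ∧ w k + 1 ≤ (z k + 1) * 2 ^ j - d) :
    squ v ((n + j, w), 2) ⊆ pbox v ((n, z), 2) ((d : ℝ) / 2 ^ (n + j)) 0 := by
  intro x hx
  rw [sq_mem] at hx
  refine ⟨?_, fun k hk => ?_⟩
  · show |x 2 - (v 2 + (z 2 : ℝ) / 2 ^ n)| ≤ 0
    rw [hx.1, h0, dv (z 2) n j, sub_self, abs_zero]
  · obtain ⟨h1, h2⟩ := hx.2 k hk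
    obtain ⟨h3, h4⟩ := h k hk
    have h5 := (le_iff (m := n + j) (c := v k)).2 h3
    have h6 := (le_iff (m := n + j) (c := v k)).2 h4
    rw [Int.cast_add, add_div] at h5
    rw [Int.cast_sub, sub_div] at h6
    constructor
    · show v k + (z k : ℝ) / 2 ^ n + (d : ℝ) / 2 ^ (n + j) ≤ x k
      rw [dv (z k) n j]
      linarith
    · show x k ≤ v k + ((z k : ℝ) + 1) / 2 ^ n - (d : ℝ) / 2 ^ (n + j)
      rw [dv1 (z k) n j]
      linarith

/-! ### counting -/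

theorem vec3 (w : Fin 3 → ℤ) : w = ![w 0, w 1, w 2] := by
  funext k
  fin_cases k <;> rfl

/-- counting sets of triples with the last coordinate fixed -/
theorem count {S : Set (Fin 3 → ℤ)} {c : ℤ} {T : Finset (ℤ × ℤ)}
    (h : ∀ w ∈ S, w 2 = c ∧ (w 0, w 1) ∈ T) : S.Finite ∧ S.ncard ≤ T.card := by
  classical
  have h1 : S ⊆ ((T.image fun p => (![p.1, p.2, c] : Fin 3 → ℤ) : Finset (Fin 3 → ℤ)) :
      Set (Fin 3 → ℤ)) := by
    intro w hw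
    obtain ⟨h2, h3⟩ := h w hw
    rw [Finset.mem_coe, Finset.mem_image]
    refine ⟨_, h3, ?_⟩
    rw [← h2]
    exact (vec3 w).symm
  refine ⟨(Finset.finite_toSet _).subset h1, ?_⟩
  calc S.ncard ≤ ((T.image fun p => (![p.1, p.2, c] : Fin 3 → ℤ) : Finset (Fin 3 → ℤ)) :
      Set (Fin 3 → ℤ)).ncard := Set.ncard_le_ncard h1 (Finset.finite_toSet _)
    _ = (T.image fun p => (![p.1, p.2, c] : Fin 3 → ℤ)).card := Set.ncard_coe_finset _
    _ ≤ T.card := Finset.card_image_le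

/-- the frame of width `d` of a square of side `N` -/
noncomputable def frame (a b : ℤ) (N d : ℕ) : Finset (ℤ × ℤ) :=
  ((Finset.Ico a (a + d) ∪ Finset.Ico (a + N - d) (a + N)) ×ˢ Finset.Ico b (b + N)) ∪
    (Finset.Ico a (a + N) ×ˢ (Finset.Ico b (b + d) ∪ Finset.Ico (b + N - d) (b + N)))

theorem card_frame (a b : ℤ) (N d : ℕ) : (frame a b N d).card ≤ 4 * d * N := by
  have h1 : ∀ a : ℤ, (Finset.Ico a (a + d) ∪ Finset.Ico (a + N - d) (a + N)).card ≤ 2 * d := by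
    intro a
    refine (Finset.card_union_le _ _).trans ?_
    rw [Int.card_Ico, Int.card_Ico]
    have e1 : (a + (d : ℤ) - a).toNat = d := by omega
    have e2 : (a + (N : ℤ) - (a + N - d)).toNat = d := by omega
    rw [e1, e2]
    omega
  have h2 : ∀ b : ℤ, (Finset.Ico b (b + N)).card = N := by
    intro b
    rw [Int.card_Ico]
    omega
  refine (Finset.card_union_le _ _).trans ?_
  rw [Finset.card_product, Finset.card_product, h2, h2]
  have h3 := Nat.mul_le_mul_right N (h1 a)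
  have h4 := Nat.mul_le_mul_left N (h1 b)
  nlinarith

theorem mem_frame {a b x y : ℤ} {N d : ℕ} (hx : a ≤ x ∧ x < a + N) (hy : b ≤ y ∧ y < b + N)
    (h : ¬ ((a + d ≤ x ∧ x < a + N - d) ∧ (b + d ≤ y ∧ y < b + N - d))) :
    (x, y) ∈ frame a b N d := by
  simp only [frame, Finset.mem_union, Finset.mem_product, Finset.mem_Ico]
  omega

theorem count_F (v : V) (n₂ k₁ k₀ : ℕ) (z : Fin 3 → ℤ) :
    (sqF v n₂ k₁ (n₂ + k₁ + k₀) z).Finite ∧
      (sqF v n₂ k₁ (n₂ + k₁ + k₀) z).ncard ≤ 4 * 2 ^ k₀ * 2 ^ (k₁ + k₀) := by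
  have key : ∀ w ∈ sqF v n₂ k₁ (n₂ + k₁ + k₀) z, w 2 = z 2 * 2 ^ (k₁ + k₀) ∧
      (w 0, w 1) ∈ frame (z 0 * 2 ^ (k₁ + k₀)) (z 1 * 2 ^ (k₁ + k₀)) (2 ^ (k₁ + k₀)) (2 ^ k₀) := by
    rintro w ⟨h1, h2⟩
    rw [add_assoc] at h1 h2
    obtain ⟨h3, h4⟩ := sub_squ h1
    refine ⟨h3, ?_⟩
    have h5 := h4 0 (by decide)
    have h6 := h4 1 (by decide)
    rw [add_mul, one_mul] at h5 h6
    refine mem_frame ?_ ?_ fun h7 => h2 ?_
    · push_cast
      omega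
    · push_cast
      omega
    · push_cast at h7
      have e : (1 / 2 ^ (n₂ + k₁) : ℝ) = ((2 ^ k₀ : ℤ) : ℝ) / 2 ^ (n₂ + (k₁ + k₀)) := by
        push_cast
        rw [← add_assoc, pow_add 2 (n₂ + k₁) k₀]
        field_simp
      rw [e]
      refine sub_pbox' h3 fun k hk => ?_
      rw [add_mul, one_mul]
      rcases two_ne hk with rfl | rfl
      · omega
      · omega
  obtain ⟨h1, h2⟩ := count key
  refine ⟨h1, h2.trans ((card_frame _ _ _ _).trans (le_of_eq ?_))⟩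
  rfl

theorem count_G (v : V) (n₂ k₁ : ℕ) (z : Fin 3 → ℤ) :
    (sqG v n₂ k₁ z).Finite ∧ (sqG v n₂ k₁ z).ncard ≤ 4 * 2 ^ k₁ := by
  by_cases hk : k₁ = 0
  · -- no square
    subst hk
    have : sqG v n₂ 0 z = ∅ := by
      rw [Set.eq_empty_iff_forall_notMem]
      rintro w ⟨h1, -⟩
      have e : (1 / 2 ^ (n₂ + 0) : ℝ) = ((1 : ℤ) : ℝ) / 2 ^ (n₂ + 0) := by push_cast; rfl
      rw [e] at h1
      have h2 := (sub_pbox h1).2 0 (by decide)
      omega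
    rw [this]
    simp
  -- the gap is the frame of width one of the square of side `2 ^ k₁ - 2`
  have hM : 2 ≤ 2 ^ k₁ := by
    calc 2 = 2 ^ 1 := rfl
      _ ≤ 2 ^ k₁ := Nat.pow_le_pow_right (by norm_num) (by omega)
  obtain ⟨N, hN⟩ : ∃ N, 2 ^ k₁ = N + 2 := ⟨2 ^ k₁ - 2, by omega⟩
  have hN' : (2 ^ k₁ : ℤ) = N + 2 := by exact_mod_cast hN
  have key : ∀ w ∈ sqG v n₂ k₁ z, w 2 = z 2 * 2 ^ k₁ ∧
      (w 0, w 1) ∈ frame (z 0 * 2 ^ k₁ + 1) (z 1 * 2 ^ k₁ + 1) N 1 := by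
    rintro w ⟨h1, h2⟩
    have e : (1 / 2 ^ (n₂ + k₁) : ℝ) = ((1 : ℤ) : ℝ) / 2 ^ (n₂ + k₁) := by push_cast; rfl
    have e' : (2 / 2 ^ (n₂ + k₁) : ℝ) = ((2 : ℤ) : ℝ) / 2 ^ (n₂ + k₁) := by push_cast; rfl
    rw [e] at h1
    rw [e'] at h2
    obtain ⟨h3, h4⟩ := sub_pbox h1
    refine ⟨h3, ?_⟩
    have h5 := h4 0 (by decide)
    have h6 := h4 1 (by decide)
    rw [add_mul, one_mul] at h5 h6
    refine mem_frame ?_ ?_ fun h7 => h2 ?_
    · omega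
    · omega
    · push_cast at h7
      refine sub_pbox' h3 fun k hk => ?_
      rw [add_mul, one_mul]
      rcases two_ne hk with rfl | rfl
      · omega
      · omega
  obtain ⟨h1, h2⟩ := count key
  refine ⟨h1, h2.trans ((card_frame _ _ _ _).trans ?_)⟩
  omega

/-! ### plates of one plane -/

theorem count_J (v : V) (n n₂ : ℕ) (J : Finset (Fin 3 → ℤ))
    (sub : ∀ z ∈ J, squ v (plq n₂ z) ⊆ core v n) (h : ℝ) :
    {z | z ∈ J ∧ pt v n₂ z 2 = h}.ncard ≤ 4 ^ n₂ := by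
  classical
  rcases Set.eq_empty_or_nonempty {z | z ∈ J ∧ pt v n₂ z 2 = h} with h0 | ⟨z₀, hz₀, hz₁⟩
  · rw [h0, Set.ncard_empty]
    exact Nat.zero_le _
  have hp : (0:ℝ) < 2 ^ n₂ := by positivity
  have hpn : (0:ℝ) < 2 ^ n := by positivity
  have key : ∀ z ∈ {z | z ∈ J ∧ pt v n₂ z 2 = h}, z 2 = z₀ 2 ∧
      (z 0, z 1) ∈ Finset.Ico (0:ℤ) (2 ^ n₂) ×ˢ Finset.Ico (0:ℤ) (2 ^ n₂) := by
    rintro z ⟨hz, hz2⟩
    have hk : ∀ k, k ≠ 2 → 0 ≤ z k ∧ z k < 2 ^ n₂ := by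
      intro k hk
      have h1 := sub z hz (corner_mem v n₂ z) k
      have h2 := sub z hz (corner_mem' v n₂ z) k
      have e1 : pt v n₂ z k = v k + (z k : ℝ) / 2 ^ n₂ := rfl
      have e2 : pt v n₂ (fun k => if k = 2 then z k else z k + 1) k =
        v k + ((z k : ℝ) + 1) / 2 ^ n₂ := by simp [pt, hk]
      rw [e1] at h1
      rw [e2] at h2
      have h3 : (0:ℝ) < 2 / 2 ^ n := by positivity
      have h4 : ((2:ℝ) ^ n - 3) / 2 ^ n < 1 := by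
        rw [div_lt_one hpn]
        linarith
      have h5 : (0:ℝ) < (z k : ℝ) / 2 ^ n₂ := by linarith [h1.1]
      have h6 : ((z k : ℝ) + 1) / 2 ^ n₂ < 1 := by linarith [h2.2]
      rw [div_lt_one hp] at h6
      have h7 : (0:ℝ) < z k := by
        by_contra hc
        push Not at hc
        have := div_nonpos_of_nonpos_of_nonneg hc hp.le
        linarith
      constructor
      · exact_mod_cast h7.le
      · have : (z k : ℝ) < 2 ^ n₂ := by linarith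
        exact_mod_cast this
    refine ⟨?_, Finset.mem_product.2 ⟨Finset.mem_Ico.2 (hk 0 (by decide)),
      Finset.mem_Ico.2 (hk 1 (by decide))⟩⟩
    have h1 : v 2 + (z 2 : ℝ) / 2 ^ n₂ = v 2 + (z₀ 2 : ℝ) / 2 ^ n₂ := by
      have e1 : v 2 + (z 2 : ℝ) / 2 ^ n₂ = h := hz2
      have e2 : v 2 + (z₀ 2 : ℝ) / 2 ^ n₂ = h := hz₁
      rw [e1, e2]
    exact le_antisymm (le_iff.1 h1.le) (le_iff.1 h1.ge)
  obtain ⟨-, h2⟩ := count key
  refine h2.trans ?_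
  rw [Finset.card_product, Int.card_Ico]
  have : ((2:ℤ) ^ n₂ - 0).toNat = 2 ^ n₂ := by
    rw [sub_zero]
    exact_mod_cast Int.toNat_natCast (2 ^ n₂)
  rw [this, ← mul_pow]
  norm_num

/-! ### squares at an edge -/

theorem count_sq (n₀ : ℕ) (e : Idx × Fin 3) :
    {w | EdgeOfSq e ((n₀, w), 2)}.Finite ∧ {w | EdgeOfSq e ((n₀, w), 2)}.ncard ≤ 2 := by
  classical
  obtain ⟨⟨g, y⟩, d⟩ := e
  by_cases hd : d = 0
  · subst hd
    have key : ∀ w ∈ {w | EdgeOfSq (((g, y), 0) : Idx × Fin 3) ((n₀, w), 2)}, w 2 = y 2 ∧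
        (w 0, w 1) ∈ ({(y 0, y 1), (y 0, y 1 - 1)} : Finset (ℤ × ℤ)) := by
      rintro w ⟨-, -, h1, h2, h3⟩
      have h1' : y 0 = w 0 := h1
      have h2' : y 2 = w 2 := h2
      have h4 : y 1 = w 1 ∨ y 1 = w 1 + 1 := h3 1 (by simp) (by simp)
      refine ⟨h2'.symm, ?_⟩
      simp only [Finset.mem_insert, Finset.mem_singleton, Prod.mk.injEq]
      omega
    obtain ⟨h1, h2⟩ := count key
    exact ⟨h1, h2.trans Finset.card_le_two⟩
  by_cases hd : d = 1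
  · subst hd
    have key : ∀ w ∈ {w | EdgeOfSq (((g, y), 1) : Idx × Fin 3) ((n₀, w), 2)}, w 2 = y 2 ∧
        (w 0, w 1) ∈ ({(y 0, y 1), (y 0 - 1, y 1)} : Finset (ℤ × ℤ)) := by
      rintro w ⟨-, -, h1, h2, h3⟩
      have h1' : y 1 = w 1 := h1
      have h2' : y 2 = w 2 := h2
      have h4 : y 0 = w 0 ∨ y 0 = w 0 + 1 := h3 0 (by simp) (by simp)
      refine ⟨h2'.symm, ?_⟩
      simp only [Finset.mem_insert, Finset.mem_singleton, Prod.mk.injEq]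
      omega
    obtain ⟨h1, h2⟩ := count key
    exact ⟨h1, h2.trans Finset.card_le_two⟩
  · have hd2 : d = 2 := by
      revert hd
      revert d
      decide
    subst hd2
    have : {w | EdgeOfSq (((g, y), 2) : Idx × Fin 3) ((n₀, w), 2)} = ∅ := by
      rw [Set.eq_empty_iff_forall_notMem]
      rintro w ⟨-, h, -⟩
      exact h rfl
    rw [this]
    simp

/-! ### edges on the rim of a plate -/

theorem edge_pts {v : V} {n j : ℕ} {z y : Fin 3 → ℤ} {d : Fin 3} (hd : d ≠ 2)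
    (h : edge v ((n + j, y), d) ⊆ squ v ((n, z), 2)) :
    y 2 = z 2 * 2 ^ j ∧ (z d * 2 ^ j ≤ y d ∧ y d + 1 ≤ (z d + 1) * 2 ^ j) ∧
      ∀ l, l ≠ 2 → l ≠ d → z l * 2 ^ j ≤ y l ∧ y l ≤ (z l + 1) * 2 ^ j := by
  have h1 := sq_mem.1 (h (left_mem_segment ℝ _ _))
  have h2 := sq_mem.1 (h (right_mem_segment ℝ _ _))
  have e1 : ∀ k, pt v (n + j) y k = v k + (y k : ℝ) / 2 ^ (n + j) := fun k => rfl
  have e2 : (pt v (n + j) y + (1 / 2 ^ (n + j) : ℝ) • ev d) d =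
      v d + ((y d + 1 : ℤ) : ℝ) / 2 ^ (n + j) := by
    simp only [Pi.add_apply, Pi.smul_apply, ev, Pi.single_eq_same, smul_eq_mul, mul_one]
    rw [e1]
    push_cast
    ring
  refine ⟨?_, ⟨?_, ?_⟩, fun l hl _ => ⟨?_, ?_⟩⟩
  · have h3 : v 2 + (y 2 : ℝ) / 2 ^ (n + j) = v 2 + (z 2 : ℝ) / 2 ^ n := h1.1
    rw [dv (z 2) n j] at h3
    exact le_antisymm (le_iff.1 h3.le) (le_iff.1 h3.ge)
  · have h3 : v d + (z d : ℝ) / 2 ^ n ≤ v d + (y d : ℝ) / 2 ^ (n + j) := (h1.2 d hd).1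
    rw [dv (z d) n j] at h3
    exact le_iff.1 h3
  · have h3 := (h2.2 d hd).2
    have h4 : (pt v (n + j) y + (1 / 2 ^ (n + j) : ℝ) • ev d) d ≤
      v d + ((z d + 1 : ℤ) : ℝ) / 2 ^ n := h3
    rw [e2, dv (z d + 1) n j] at h4
    exact le_iff.1 h4
  · have h3 : v l + (z l : ℝ) / 2 ^ n ≤ v l + (y l : ℝ) / 2 ^ (n + j) := (h1.2 l hl).1
    rw [dv (z l) n j] at h3
    exact le_iff.1 h3
  · have h3 : v l + (y l : ℝ) / 2 ^ (n + j) ≤ v l + ((z l + 1 : ℤ) : ℝ) / 2 ^ n := (h1.2 l hl).2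
    rw [dv (z l + 1) n j] at h3
    exact le_iff.1 h3

theorem sub_squ' {v : V} {n j : ℕ} {w z : Fin 3 → ℤ} (h0 : w 2 = z 2 * 2 ^ j)
    (h : ∀ k, k ≠ 2 → z k * 2 ^ j ≤ w k ∧ w k + 1 ≤ (z k + 1) * 2 ^ j) :
    squ v ((n + j, w), 2) ⊆ squ v ((n, z), 2) := by
  intro x hx
  have h1 := sub_pbox' (v := v) (n := n) (d := 0) h0 (fun k hk => by
    have := h k hk
    omega) hx
  rw [Int.cast_zero, zero_div] at h1
  refine ⟨?_, fun k hk => ?_⟩
  · have h2 := abs_nonpos_iff.1 h1.1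
    show x 2 = v 2 + (z 2 : ℝ) / 2 ^ n
    have h3 : x 2 - (v 2 + (z 2 : ℝ) / 2 ^ n) = 0 := h2
    linarith
  · have h2 := h1.2 k hk
    rw [add_zero, sub_zero] at h2
    exact h2

theorem count_rim (v : V) (n n₂ j : ℕ) (J : Finset (Fin 3 → ℤ)) (z : Fin 3 → ℤ) (hz : z ∈ J) :
    {e : Idx × Fin 3 | edge v e ⊆ squ v (plq n₂ z) ∧
        ∃ w ∈ sqU v n n₂ (n₂ + j) J, EdgeOfSq e ((n₂ + j, w), 2)}.Finite ∧
      {e : Idx × Fin 3 | edge v e ⊆ squ v (plq n₂ z) ∧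
        ∃ w ∈ sqU v n n₂ (n₂ + j) J, EdgeOfSq e ((n₂ + j, w), 2)}.ncard ≤ 4 * 2 ^ j := by
  classical
  set N : ℤ := 2 ^ j with hN
  have hN0 : 0 < N := by positivity
  set T0 : Finset (ℤ × ℤ) := Finset.Ico (z 0 * N) (z 0 * N + N) ×ˢ {z 1 * N, z 1 * N + N} with hT0
  set T1 : Finset (ℤ × ℤ) := ({z 0 * N, z 0 * N + N} : Finset ℤ) ×ˢ
    Finset.Ico (z 1 * N) (z 1 * N + N) with hT1
  set g : Fin 3 → ℤ × ℤ → Idx × Fin 3 := fun d p =>
    (((n₂ + j, ![p.1, p.2, z 2 * N]) : Idx), d) with hg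
  have hsub : {e : Idx × Fin 3 | edge v e ⊆ squ v (plq n₂ z) ∧
      ∃ w ∈ sqU v n n₂ (n₂ + j) J, EdgeOfSq e ((n₂ + j, w), 2)} ⊆
      ((T0.image (g 0) ∪ T1.image (g 1) : Finset (Idx × Fin 3)) : Set (Idx × Fin 3)) := by
    rintro ⟨⟨g', y⟩, d⟩ ⟨h1, w, ⟨-, -, hw⟩, h2, h3, h4, h5, h6⟩
    have hg' : g' = n₂ + j := h2
    subst hg'
    have hd : d ≠ 2 := h3
    have h4' : y d = w d := h4
    have h5' : y 2 = w 2 := h5
    obtain ⟨a1, a2, a3⟩ := edge_pts hd h1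
    have hw' : ¬ ∀ k, k ≠ 2 → z k * 2 ^ j ≤ w k ∧ w k + 1 ≤ (z k + 1) * 2 ^ j := fun h =>
      hw z hz (sub_squ' (by rw [← h5', a1]) h)
    rw [Finset.mem_coe, Finset.mem_union]
    rcases two_ne hd with rfl | rfl
    · left
      have a4 := a3 1 (by decide) (by decide)
      have h7 : y 1 = w 1 ∨ y 1 = w 1 + 1 := h6 1 (by simp) (by simp)
      rw [Finset.mem_image]
      refine ⟨(y 0, y 1), ?_, ?_⟩
      · rw [hT0, Finset.mem_product, Finset.mem_Ico, Finset.mem_insert, Finset.mem_singleton]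
        rw [add_mul, one_mul, ← hN] at a2 a4
        refine ⟨⟨a2.1, by omega⟩, ?_⟩
        by_contra hc
        apply hw'
        intro k hk
        rw [add_mul, one_mul, ← hN]
        rcases two_ne hk with rfl | rfl
        · omega
        · omega
      · rw [← hN] at a1
        show ((n₂ + j, ![y 0, y 1, z 2 * N]), (0 : Fin 3)) = ((n₂ + j, y), 0)
        rw [← a1, ← vec3 y]
    · right
      have a4 := a3 0 (by decide) (by decide)
      have h7 : y 0 = w 0 ∨ y 0 = w 0 + 1 := h6 0 (by simp) (by simp)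
      rw [Finset.mem_image]
      refine ⟨(y 0, y 1), ?_, ?_⟩
      · rw [hT1, Finset.mem_product, Finset.mem_Ico, Finset.mem_insert, Finset.mem_singleton]
        rw [add_mul, one_mul, ← hN] at a2 a4
        refine ⟨?_, ⟨a2.1, by omega⟩⟩
        by_contra hc
        apply hw'
        intro k hk
        rw [add_mul, one_mul, ← hN]
        rcases two_ne hk with rfl | rfl
        · omega
        · omega
      · rw [← hN] at a1
        show ((n₂ + j, ![y 0, y 1, z 2 * N]), (1 : Fin 3)) = ((n₂ + j, y), 1)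
        rw [← a1, ← vec3 y]
  refine ⟨(Finset.finite_toSet _).subset hsub, ?_⟩
  refine (Set.ncard_le_ncard hsub (Finset.finite_toSet _)).trans ?_
  rw [Set.ncard_coe_finset]
  refine (Finset.card_union_le _ _).trans ?_
  have hc : ∀ a : ℤ, (Finset.Ico a (a + N)).card = 2 ^ j := by
    intro a
    rw [Int.card_Ico]
    have : a + N - a = ((2 ^ j : ℕ) : ℤ) := by
      rw [hN]
      push_cast
      ring
    rw [this, Int.toNat_natCast]
  have c0 : T0.card ≤ 2 * 2 ^ j := by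
    rw [hT0, Finset.card_product, hc, mul_comm]
    exact Nat.mul_le_mul_right _ Finset.card_le_two
  have c1 : T1.card ≤ 2 * 2 ^ j := by
    rw [hT1, Finset.card_product, hc]
    exact Nat.mul_le_mul_right _ Finset.card_le_two
  have c2 := Finset.card_image_le (s := T0) (f := g 0)
  have c3 := Finset.card_image_le (s := T1) (f := g 1)
  omega

end Geo2c

/-- **(GEO2c)** -/
theorem specGeo2c : SpecGeo2c := by
  rintro v n m n₂ k₁ k₀ n₀ J ⟨-, -, -, -, -, -, rfl, hsub, -⟩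
  refine ⟨fun z _ => Geo2c.count_F v n₂ k₁ k₀ z, fun z _ => Geo2c.count_G v n₂ k₁ z,
    fun h _ => Geo2c.count_J v n n₂ J hsub h, fun e => Geo2c.count_sq _ e, fun z hz => ?_⟩
  rw [add_assoc]
  exact Geo2c.count_rim v n n₂ (k₁ + k₀) J z hz

end Vale.Agent.P073.LOC
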