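import Vale.Agent.P073.LOC.Defs752
import Vale.Agent.P073.AB.Sum308c

/-!
# P073, block LOC, cell geometry (helper308): the core, the partition
-/

namespace Vale.Agent.P073.LOC.G308

open MeasureTheory Set Filter Topology Metric Vale.Agent.P073.St
open Vale.Agent.P073.SQ (ev cube Cells)
open Vale.Agent.P073.AB
open Vale.Agent.P073.AB.S308
open P073.Net (IsTile dyc dyo SizeFn)
open P073.Net.NC (dyA dyB fine_sub fine_sub' dist_le)
open P86
open scoped ContDiff ENNReal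

variable {v : V} {n m : ℕ} {w z : Fin 3 → ℤ} {x : V}

/-! ### The open unit cube -/

theorem Q1_eq_pi : Q1 = Set.pi univ (fun _ : Fin 3 => Ioo (0:ℝ) 1) := by
  ext x; exact ⟨fun h k _ => h k, fun h k => h k (mem_univ k)⟩

theorem isOpen_Q1 : IsOpen Q1 := by
  rw [Q1_eq_pi]; exact isOpen_set_pi finite_univ (fun _ _ => isOpen_Ioo)

theorem isBounded_Q1 : Bornology.IsBounded Q1 := by
  have : Q1 ⊆ Set.pi univ (fun _ : Fin 3 => Icc (0:ℝ) 1) :=
    fun x h k _ => ⟨(h k).1.le, (h k).2.le⟩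
  exact (isCompact_univ_pi (fun _ => isCompact_Icc)).isBounded.subset this

theorem Q1_nonempty : Q1.Nonempty := ⟨fun _ => 1 / 2, fun _ => ⟨by norm_num, by norm_num⟩⟩

theorem le_infDist_Q1 {d : ℝ} (h : ∀ i, d ≤ x i ∧ x i ≤ 1 - d) : d ≤ infDist x Q1ᶜ := by
  have hne : (Q1ᶜ : Set V).Nonempty := ⟨fun _ => 0, fun h => by
    have := (h 0).1
    exact lt_irrefl _ this⟩
  rw [le_infDist hne]
  intro y hy
  have : ∃ i, y i ≤ 0 ∨ 1 ≤ y i := by
    by_contra hcon
    push Not at hcon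
    exact hy fun i => hcon i
  obtain ⟨i, hi⟩ := this
  have h1 : |x i - y i| ≤ dist x y := by
    have := dist_le_pi_dist x y i
    rwa [Real.dist_eq] at this
  refine le_trans ?_ h1
  obtain ⟨h2, h3⟩ := h i
  rcases hi with hi | hi
  · exact le_trans (by linarith) (le_abs_self _)
  · exact le_trans (by linarith) (neg_le_abs _)

/-! ### The core -/

theorem core_eq (v : V) (n : ℕ) : core v n = gbox v n (fun _ => 2) (fun _ => 2 ^ n - 3) := by
  ext x
  simp only [core, gbox, Set.mem_ofPred_eq]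
  push_cast
  rfl

/-- the data -/
structure Dat (v : V) (n m : ℕ) : Prop where
  org : ∀ i, 0 ≤ v i ∧ v i < 1 / 2 ^ n
  hn : 3 ≤ n
  hm : n + 2 ≤ m

theorem Dat.eight (h : Dat v n m) : (8:ℤ) ≤ 2 ^ n := eight_le h.hn

theorem Dat.part0 (_h : Dat v n m) : Part Q1 v (tiles Q1 n v) :=
  (specTiles Q1 n v isOpen_Q1 isBounded_Q1 Q1_nonempty).2.1

theorem Dat.gen (_h : Dat v n m) {q : Idx} (hq : q ∈ tiles Q1 n v) : n ≤ q.1 :=
  (specTiles Q1 n v isOpen_Q1 isBounded_Q1 Q1_nonempty).2.2.1 q hq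

/-- the cubes of generation `n` near the core are tiles -/
theorem Dat.tile (h : Dat v n m) (hw : ∀ k, 1 ≤ w k ∧ w k ≤ 2 ^ n - 3) :
    (n, w) ∈ tiles Q1 n v := by
  refine (specTiles Q1 n v isOpen_Q1 isBounded_Q1 Q1_nonempty).2.2.2.2 w (fun x hx => ?_)
  apply le_infDist_Q1
  intro i
  obtain ⟨h1, h2⟩ := hx i
  obtain ⟨h3, h4⟩ := h.org i
  obtain ⟨h5, h6⟩ := hw i
  have hp := pow_pos' n
  have h5' : (1:ℝ) ≤ w i := by exact_mod_cast h5
  have h6' : (w i : ℝ) ≤ 2 ^ n - 3 := by exact_mod_cast h6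
  have h7 : (1:ℝ) / 2 ^ n ≤ w i / 2 ^ n := by gcongr
  have h8 : ((w i : ℝ) + 1) / 2 ^ n ≤ (2 ^ n - 2) / 2 ^ n := by
    gcongr
    linarith
  have h9 : ((2:ℝ) ^ n - 2) / 2 ^ n = 1 - 1 / 2 ^ n - 1 / 2 ^ n := by
    field_simp
    ring
  constructor
  · linarith
  · linarith

/-- a cube of generation `n` which meets the core is a tile -/
theorem Dat.tile_of_meet (h : Dat v n m) (hx : x ∈ core v n) (hw : x ∈ dyc v n w) :
    (n, w) ∈ tiles Q1 n v := by
  apply h.tile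
  intro k
  rw [core_eq] at hx
  obtain ⟨h1, h2⟩ := hx k
  obtain ⟨h3, h4⟩ := hw k
  have h5 : (((2:ℤ) : ℤ) : ℝ) / 2 ^ n ≤ ((w k + 1 : ℤ) : ℝ) / 2 ^ n := by push_cast at *; linarith
  have h6 : ((w k : ℤ) : ℝ) / 2 ^ n ≤ ((2 ^ n - 3 : ℤ) : ℝ) / 2 ^ n := by push_cast at *; linarith
  rw [cast_div_le] at h5 h6
  omega

theorem Dat.gen_of_meet (h : Dat v n m) {q : Idx} (hq : q ∈ tiles Q1 n v) (hx : x ∈ core v n)
    (hxq : x ∈ dyc v q.1 q.2) : q.1 = n := by
  obtain ⟨d, hd⟩ := Nat.exists_eq_add_of_le (h.gen hq)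
  have h1 : dyc v q.1 q.2 ⊆ dyc v n (anc d q.2) := by
    rw [hd]; exact dyc_sub_anc v n d q.2
  have h2 := h.tile_of_meet hx (h1 hxq)
  exact congrArg Prod.fst (eq_of_sub h.part0 hq h2 h1)

theorem Dat.core_sub (h : Dat v n m) : core v n ⊆ Q1 := by
  intro x hx
  obtain ⟨w, hw⟩ := P073.Net.NC.exists_mem v n x
  exact h.part0.sub _ (h.tile_of_meet hx hw) hw

theorem IO_disj (h : Dat v n m) {q : Idx} (hq : q ∈ IO v n) :
    Disjoint (dyc v q.1 q.2) (interior (core v n)) := by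
  rw [Set.disjoint_left]
  intro x hx hx'
  apply hq.2
  rw [core_eq] at hx' ⊢
  rw [interior_gbox] at hx'
  exact dyc_sub_of_mem_obox (h.gen hq.1) hx hx'

theorem Dat.part (h : Dat v n m) : Part Q1 v (LOC.newI v n m) := by
  have hT := h.part0
  have h8 := h.eight
  have hnm : n ≤ m := by have := h.hm; omega
  obtain ⟨d, hd⟩ := Nat.exists_eq_add_of_le hnm
  have hcm : core v n = gbox v m (fun _ => 2 * 2 ^ d) (fun _ => (2 ^ n - 3) * 2 ^ d) := by
    rw [core_eq, hd, gbox_refine v n d (fun _ => 2) (fun _ => 2 ^ n - 3)]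
  have hd0 : (0:ℤ) < 2 ^ d := by positivity
  refine ⟨?_, ?_, ?_, ?_⟩
  · rintro q (⟨hq, -⟩ | ⟨-, hq⟩)
    · exact hT.sub q hq
    · exact hq.trans h.core_sub
  · intro x hx
    obtain ⟨q, hq, hxq⟩ := hT.cover x hx
    by_cases hc : dyc v q.1 q.2 ⊆ core v n
    · have hxB := hc hxq
      rw [hcm] at hxB
      obtain ⟨w, hw, hw'⟩ := exists_dyc_of_mem_gbox (fun k => by nlinarith) hxB
      rw [← hcm] at hw'
      exact ⟨(m, w), Or.inr ⟨rfl, hw'⟩, hw⟩
    · exact ⟨q, Or.inl ⟨hq, hc⟩, hxq⟩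
  · rintro q (⟨hq, hq1⟩ | ⟨hq, hq1⟩) q' (⟨hq', hq1'⟩ | ⟨hq', hq1'⟩) hne
    · exact hT.disj q hq q' hq' hne
    · rw [Set.disjoint_left]
      intro x hx hx'
      refine hq1 ?_
      rw [core_eq] at hq1' ⊢
      exact dyc_sub_of_mem_dyo (h.gen hq) hx (hq1' hx')
    · rw [Set.disjoint_left]
      intro x hx hx'
      -- the fine cube meets the tile in its interior: the tile has generation `n`
      have hg := h.gen_of_meet hq' (hq1 (dyo_sub_dyc hx)) hx'
      have h1 : dyc v q.1 q.2 ⊆ dyc v q'.1 q'.2 :=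
        P073.Net.NC.dyc_sub (fine_sub' (by rw [hq, hg]; exact hnm) hx hx')
      refine Set.disjoint_left.1 (IO_disj h ⟨hq', hq1'⟩) (h1 (dyo_sub_dyc hx)) ?_
      have ho : IsOpen (dyo v q.1 q.2) := by
        rw [show dyo v q.1 q.2 = obox v q.1 q.2 (fun k => q.2 k + 1) by
          ext y; simp only [dyo, obox, Set.mem_ofPred_eq, Int.cast_add, Int.cast_one],
          ← interior_gbox]
        exact isOpen_interior
      exact mem_interior.2 ⟨_, dyo_sub_dyc.trans hq1, ho, hx⟩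
    · rw [Set.disjoint_left]
      intro x hx hx'
      apply hne
      obtain ⟨m', w⟩ := q
      obtain ⟨m'', w'⟩ := q'
      simp only at hq hq' hx hx'
      subst hq hq'
      have := eq_of_sub_same (v := v) (P073.Net.NC.dyc_sub (fine_sub' le_rfl hx hx'))
      rw [this]
  · intro K hK hKc
    have h2 : (IC v n m).Finite := by
      refine Set.Finite.subset (Set.Finite.prod (Set.finite_singleton m)
        (Set.Finite.pi' (fun _ : Fin 3 => Set.finite_Icc (2 * 2 ^ d : ℤ) ((2 ^ n - 3) * 2 ^ d)))) ?_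
      rintro ⟨m', w⟩ ⟨h4, h5⟩
      simp only at h4 h5
      subst h4
      rw [hcm, dyc_sub_gbox_iff] at h5
      refine ⟨rfl, fun k => ?_⟩
      have := h5 k
      simp only [Set.mem_Icc]
      omega
    refine ((hT.fin K hK hKc).union h2).subset ?_
    rintro q ⟨⟨hq, -⟩ | hq, h4⟩
    · exact Or.inl ⟨hq, h4⟩
    · exact Or.inr hq

end Vale.Agent.P073.LOC.G308
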