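import Vale.Agent.P073.LOC.Geo308a

/-!
# P073, block LOC, cell geometry (helper308): classification of the squares, (Q2), (Q3), (Q4)
-/

namespace Vale.Agent.P073.LOC.G308

open MeasureTheory Set Filter Topology Metric Vale.Agent.P073.St
open Vale.Agent.P073.SQ (ev cube Cells)
open Vale.Agent.P073.AB
open Vale.Agent.P073.AB.S308
open P073.Net (IsTile dyc dyo SizeFn)
open P073.Net.NC (dyA dyB fine_sub fine_sub' dist_le)
open P86
open scoped ContDiff ENNReal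

variable {v : V} {n m : ℕ} {w z : Fin 3 → ℤ} {x : V}

theorem Dat.lt (h : Dat v n m) : n < m := by have := h.hm; omega

theorem newP_sub_IC {r : Idx} (hr : r ∈ newP v n m) : r ∈ IC v n m := hr.1

theorem newP_sub_newI : newP v n m ⊆ LOC.newI v n m := fun _ hr => Or.inr hr.1

theorem IO_gen_of_meet (h : Dat v n m) {q : Idx} (hq : q ∈ IO v n) (hx : x ∈ core v n)
    (hxq : x ∈ dyc v q.1 q.2) : q.1 = n := h.gen_of_meet hq.1 hx hxq

/-- (Q2) -/
theorem q2 (h : Dat v n m) {q : Idx} (hq : q ∈ IO v n) {s : Idx × Fin 3}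
    (hs : MinSq v (LOC.newI v n m) s) (hsub : squ v s ⊆ dyc v q.1 q.2)
    (hc : ¬ squ v s ⊆ core v n) :
    q.1 ≤ s.1.1 ∧ s.1.1 ≤ q.1 + 2 ∧ (∀ r ∈ newP v n m, ¬ squ v s ⊆ dyc v r.1 r.2) ∧
      ∀ e ∈ sqE s, e ∈ OE v n ∪ TE v n := by
  obtain ⟨⟨q₀, hq₀, hf⟩, -⟩ := hs
  have hT := (specTiles Q1 n v isOpen_Q1 isBounded_Q1 Q1_nonempty).2.2.2.1
  have hq₀' : q₀ ∈ IO v n := by
    rcases hq₀ with hq₀ | hq₀
    · exact hq₀
    · exact absurd ((squ_sub_of_face hf).trans hq₀.2) hc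
  refine ⟨gen_le_squ hsub, ?_, fun r hr hcon => hc (hcon.trans hr.1.2), fun e he => ?_⟩
  · have h1 := (hT q hq.1 _ (hsub sc_mem_squ)).1
    have h2 := (hT q₀ hq₀'.1 _ (squ_sub_of_face hf sc_mem_squ)).2
    have h3 : (1 : ℝ) / 2 ^ q.1 ≤ 4 / 2 ^ q₀.1 := h1.trans h2
    rw [div_le_div_iff₀ (by positivity) (by positivity), one_mul] at h3
    have h4 : (2:ℝ) ^ q₀.1 ≤ 2 ^ (q.1 + 2) := by rw [pow_add]; linarith
    have h5 := (pow_le_pow_iff_right₀ (one_lt_two (α := ℝ))).1 h4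
    rw [hf.1]; exact h5
  · rw [mem_sqE] at he
    have hE := edgeOf_of_face hf he
    by_cases hec : edge v e ⊆ core v n
    · right
      obtain ⟨x, hx⟩ := Gr.edge_nonempty v e
      have hsq := Gr.edge_subset_dyc (v := v) hE
      refine ⟨?_, fun y hy => ?_⟩
      · rw [hE.1]
        exact IO_gen_of_meet h hq₀' (hec hx) (hsq hx)
      · have hcl : IsClosed (core v n) := by rw [core_eq]; exact isClosed_gbox _ _ _ _
        rw [hcl.frontier_eq]
        exact ⟨hec hy, fun hy' => Set.disjoint_left.1 (IO_disj h hq₀') (hsq hy) hy'⟩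
    · left
      exact ⟨⟨q₀, hq₀'.1, hE⟩, hec⟩

/-- if a square lies in the core then one of its two cubes does -/
theorem side_in_core (h : Dat v n m) {s : Idx × Fin 3} (hg : n ≤ s.1.1)
    (hc : squ v s ⊆ core v n) :
    dyc v s.1.1 s.1.2 ⊆ core v n ∨ dyc v s.1.1 (lo s) ⊆ core v n := by
  have h8 := h.eight
  rw [core_eq] at hc ⊢
  have hp : (0:ℝ) < 1 / 2 ^ s.1.1 := by positivity
  have h1 : (fun k => v k + s.1.2 k / 2 ^ s.1.1 : V) ∈ squ v s :=
    ⟨rfl, fun j _ => ⟨le_rfl, by rw [P86.div_add_one]; linarith⟩⟩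
  have h2 : (fun k => if k = s.2 then v k + s.1.2 k / 2 ^ s.1.1 else
      v k + (s.1.2 k + 1) / 2 ^ s.1.1 : V) ∈ squ v s := by
    refine ⟨by simp, fun j hj => ?_⟩
    simp only [if_neg hj]
    exact ⟨by rw [P86.div_add_one]; linarith, le_rfl⟩
  have a1 := hc h1
  have a2 := hc h2
  have hplane : (((2:ℤ):ℤ):ℝ) / 2 ^ n ≤ s.1.2 s.2 / 2 ^ s.1.1 ∧
      (s.1.2 s.2 : ℝ) / 2 ^ s.1.1 ≤ ((2 ^ n - 3 : ℤ):ℝ) / 2 ^ n := by
    have := a1 s.2
    constructor <;> linarith [this.1, this.2]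
  have hoth : ∀ l, l ≠ s.2 → (((2:ℤ):ℤ):ℝ) / 2 ^ n ≤ s.1.2 l / 2 ^ s.1.1 ∧
      ((s.1.2 l : ℝ) + 1) / 2 ^ s.1.1 ≤ ((2 ^ n - 3 : ℤ):ℝ) / 2 ^ n := by
    intro l hl
    have b1 := (a1 l).1
    have b2 := (a2 l).2
    simp only [if_neg hl] at b2
    constructor <;> linarith
  rcases hplane.2.lt_or_eq with hlt | heq
  · left
    have h3 := dyA hg hlt
    intro y hy k
    have c := hy k
    by_cases hk : k = s.2
    · subst hk
      constructor <;> linarith [c.1, c.2, hplane.1]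
    · have d := hoth k hk
      constructor <;> linarith [c.1, c.2, d.1, d.2]
  · right
    have hlo : ((lo s s.2 : ℤ) : ℝ) + 1 = s.1.2 s.2 := by rw [lo_same]; push_cast; ring
    have h3 : (((2:ℤ):ℤ):ℝ) / 2 ^ n ≤ (lo s s.2 : ℝ) / 2 ^ s.1.1 := by
      apply dyB hg
      rw [hlo, heq]
      exact cast_div_lt.2 (by omega)
    intro y hy k
    have c := hy k
    by_cases hk : k = s.2
    · subst hk
      rw [hlo] at c
      constructor <;> linarith [c.1, c.2]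
    · rw [lo_other s hk] at c
      have d := hoth k hk
      constructor <;> linarith [c.1, c.2, d.1, d.2]

/-- a cube of the partition which contains a dyadic cube of the core is a fine cube -/
theorem IC_of_sub (h : Dat v n m) {r : Idx} (hr : r ∈ LOC.newI v n m) {g : ℕ}
    {c : Fin 3 → ℤ} (hc : dyc v g c ⊆ core v n) (hr' : dyc v g c ⊆ dyc v r.1 r.2) :
    r ∈ IC v n m := by
  rcases hr with hr | hr
  · exfalso
    have hx := cen_mem v g c
    have ho : IsOpen (dyo v g c) := by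
      rw [show dyo v g c = obox v g c (fun k => c k + 1) by
        ext y; simp only [dyo, obox, Set.mem_ofPred_eq, Int.cast_add, Int.cast_one],
        ← interior_gbox]
      exact isOpen_interior
    refine Set.disjoint_left.1 (IO_disj h hr) (hr' (dyo_sub_dyc hx)) ?_
    exact mem_interior.2 ⟨_, dyo_sub_dyc.trans hc, ho, hx⟩
  · exact hr

/-- the edges of a face of a layer cube -/
theorem edge_ME {r : Idx} (hr : r ∈ IC v n m) (hrP : r ∉ newP v n m) {s e : Idx × Fin 3}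
    (hf : FaceOf s r) (he : e ∈ sqE s) : e ∈ ME v n m := by
  rw [mem_sqE] at he
  obtain ⟨h1, h2, h3⟩ := edgeOf_of_face hf he
  have hsub : edge v e ⊆ core v n :=
    ((edge_sub_squ he).trans (squ_sub_of_face hf)).trans hr.2
  have hr1 : r.1 = m := hr.1
  refine ⟨h1.trans hr1, hsub, ?_⟩
  have hdiv : (2 ^ (m - n) : ℤ) ∣ r.2 2 ∨ (2 ^ (m - n) : ℤ) ∣ r.2 2 + 1 := by
    by_contra hcon
    push Not at hcon
    exact hrP ⟨hr, hcon.1, hcon.2⟩
  by_cases he2 : e.2 = 2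
  · right
    rw [he2] at h2
    rw [h2]
    exact ⟨he2, hdiv⟩
  · left
    refine ⟨he2, ?_⟩
    rcases h3 2 (Ne.symm he2) with h4 | h4
    · rw [h4]
      rcases hdiv with h5 | h5
      · exact Or.inl h5
      · exact Or.inr (Or.inr h5)
    · rw [h4]
      rcases hdiv with h5 | h5
      · right; left
        rwa [add_sub_cancel_right]
      · exact Or.inl h5

/-- (Q3) -/
theorem q3 (h : Dat v n m) {q : Idx} (hq : q ∈ IO v n) {s : Idx × Fin 3}
    (hs : MinSq v (LOC.newI v n m) s) (hsub : squ v s ⊆ dyc v q.1 q.2)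
    (hc : squ v s ⊆ core v n) :
    q.1 = n ∧ s.1.1 = m ∧ ((∃ r ∈ newP v n m, squ v s ⊆ dyc v r.1 r.2) ∨
      (∀ r ∈ newP v n m, ¬ squ v s ⊆ dyc v r.1 r.2) ∧ ∀ e ∈ sqE s, e ∈ ME v n m) := by
  have hlt := h.lt
  have hq1 : q.1 = n := IO_gen_of_meet h hq (hc sc_mem_squ) (hsub sc_mem_squ)
  have hg : n ≤ s.1.1 := by rw [← hq1]; exact gen_le_squ hsub
  obtain ⟨qp, qm, htwo⟩ := two_of_minSq isOpen_Q1 h.part hs
  obtain ⟨r, hr, hsr⟩ : ∃ r ∈ IC v n m, squ v s ⊆ dyc v r.1 r.2 := by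
    rcases side_in_core h hg hc with h1 | h1
    · exact ⟨qp, IC_of_sub h htwo.memp h1 htwo.subp, squ_sub_hi.trans htwo.subp⟩
    · exact ⟨qm, IC_of_sub h htwo.memm h1 htwo.subm, squ_sub_lo.trans htwo.subm⟩
  have hms : m ≤ s.1.1 := by rw [← hr.1]; exact gen_le_squ hsr
  obtain ⟨⟨q₀, hq₀, hf⟩, -⟩ := hs
  have hs1 : s.1.1 = m := by
    rcases hq₀ with hq₀ | hq₀
    · have := IO_gen_of_meet h hq₀ (hc sc_mem_squ) (squ_sub_of_face hf sc_mem_squ)
      rw [hf.1] at hms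
      omega
    · rw [hf.1]; exact hq₀.1
  refine ⟨hq1, hs1, ?_⟩
  by_cases hcon : ∃ r ∈ newP v n m, squ v s ⊆ dyc v r.1 r.2
  · exact Or.inl hcon
  · right
    push Not at hcon
    refine ⟨hcon, fun e he => ?_⟩
    have hrP : r ∉ newP v n m := fun hr' => hcon r hr' hsr
    exact edge_ME hr hrP (face_of_sub (by rw [hs1]; exact hr.1.symm) hsr) he

/-- (Q4) -/
theorem q4 (h : Dat v n m) {q : Idx} (hq : q ∈ LOC.newI v n m \ newP v n m) (hqO : q ∉ IO v n) :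
    q.1 = m ∧ ∀ s, MinSq v (LOC.newI v n m) s →
      squ v s ⊆ dyc v q.1 q.2 → s.1.1 = m ∧
      ((∃ r ∈ newP v n m, squ v s ⊆ dyc v r.1 r.2) ∨
        (∀ r ∈ newP v n m, ¬ squ v s ⊆ dyc v r.1 r.2) ∧ ∀ e ∈ sqE s, e ∈ ME v n m) := by
  have hlt := h.lt
  obtain ⟨hqI, hqP⟩ := hq
  have hqC : q ∈ IC v n m := hqI.resolve_left hqO
  refine ⟨hqC.1, fun s hs hsub => ?_⟩
  have hms : m ≤ s.1.1 := by rw [← hqC.1]; exact gen_le_squ hsub
  obtain ⟨⟨q₀, hq₀, hf⟩, -⟩ := hs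
  have hs1 : s.1.1 = m := by
    rcases hq₀ with hq₀ | hq₀
    · have := IO_gen_of_meet h hq₀ (hqC.2 (hsub sc_mem_squ)) (squ_sub_of_face hf sc_mem_squ)
      rw [hf.1] at hms
      omega
    · rw [hf.1]; exact hq₀.1
  refine ⟨hs1, ?_⟩
  by_cases hcon : ∃ r ∈ newP v n m, squ v s ⊆ dyc v r.1 r.2
  · exact Or.inl hcon
  · right
    push Not at hcon
    exact ⟨hcon, fun e he => edge_ME hqC hqP (face_of_sub (by rw [hs1]; exact hqC.1.symm) hsub) he⟩

end Vale.Agent.P073.LOC.G308
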