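import Vale.Agent.P073.LOC.Mu752
import Vale.Agent.P073.LOC.CollSpec
import Vale.Agent.P073.SQ.Glue

/-!
# P073, block LOC-3D: the approximating diffeomorphisms and the limits of the energies
-/

namespace Vale.Agent.P073.LOC.L3

open MeasureTheory Set Filter Topology Metric Vale.Agent.P073.St
open Vale.Agent.P073.SQ (ev cube SuppDiffeo)
open Vale.Agent.P073.AB (Idx pt edge eInt)
open Vale.Agent.P073.LR (AffNear nu mu lam specMu specColl)
open scoped ContDiff ENNReal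

/-- the box of the cubes which touch the core -/
def ring (v : V) (n : ℕ) : Set V :=
  {x : V | ∀ i, v i + 1 / 2 ^ n ≤ x i ∧ x i ≤ v i + (2 ^ n - 2) / 2 ^ n}

theorem isCompact_ring (v : V) (n : ℕ) : IsCompact (ring v n) := by
  have : ring v n = Set.pi univ (fun i => Icc (v i + 1 / 2 ^ n) (v i + (2 ^ n - 2) / 2 ^ n)) := by
    ext x; exact ⟨fun h k _ => h k, fun h k => h k (mem_univ k)⟩
  rw [this]
  exact isCompact_univ_pi (fun _ => isCompact_Icc)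

theorem isOpen_Q1 : IsOpen Q1 := by
  have : Q1 = Set.pi univ fun _ : Fin 3 => Ioo (0:ℝ) 1 := by
    ext y; exact ⟨fun h k _ => h k, fun h k => h k (mem_univ k)⟩
  rw [this]
  exact isOpen_set_pi finite_univ fun _ _ => isOpen_Ioo

theorem core_sub_ring (v : V) (n : ℕ) : core v n ⊆ ring v n := by
  intro x hx i
  obtain ⟨h1, h2⟩ := hx i
  have hT : (0:ℝ) < 1 / 2 ^ n := by positivity
  have e1 : v i + 2 / 2 ^ n = v i + 1 / 2 ^ n + 1 / 2 ^ n := by ring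
  have e2 : v i + ((2:ℝ) ^ n - 2) / 2 ^ n = v i + (2 ^ n - 3) / 2 ^ n + 1 / 2 ^ n := by ring
  constructor <;> linarith

theorem ring_sub {v : V} {n : ℕ} (h : ∀ i, 0 ≤ v i ∧ v i < 1 / 2 ^ n) : ring v n ⊆ Q1 := by
  intro x hx i
  obtain ⟨h1, h2⟩ := hx i
  obtain ⟨h3, h4⟩ := h i
  have hT : (0:ℝ) < 1 / 2 ^ n := by positivity
  have e2 : ((2:ℝ) ^ n - 2) / 2 ^ n = 1 - 2 * (1 / 2 ^ n) := by field_simp
  constructor <;> linarith

theorem core_sub {v : V} {n : ℕ} (h : ∀ i, 0 ≤ v i ∧ v i < 1 / 2 ^ n) : core v n ⊆ Q1 :=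
  (core_sub_ring v n).trans (ring_sub h)

theorem isCompact_core (v : V) (n : ℕ) : IsCompact (core v n) := by
  have : core v n = Set.pi univ
      (fun i => Icc (v i + 2 / 2 ^ n) (v i + (2 ^ n - 3) / 2 ^ n)) := by
    ext x; exact ⟨fun h k _ => h k, fun h k => h k (mem_univ k)⟩
  rw [this]
  exact isCompact_univ_pi (fun _ => isCompact_Icc)

/-- the approximating diffeomorphisms -/
structure CS (k : Fin 3) (v : V) (n N M : ℕ) (S : ℕ → V → V) : Prop where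
  supp : ∀ i, SuppDiffeo (ring v n) (S i)
  near : ∀ i x, ‖S i x - (x + muC k v n N M x • ev k)‖ ≤ 1 / (i + 1)
  bd : ∃ B : ℝ, ∀ i x w, ‖fderiv ℝ (S i) x w‖ ≤ B * ‖w‖
  dir : ∀ i x, ∃ m : ℝ, S i x = x + m • ev k
  lim : ∀ x w c, AffNear (muC k v n N M) x w c →
    Tendsto (fun i => fderiv ℝ (S i) x w) atTop (𝓝 (w + c • ev k))

section

variable {k : Fin 3} {v : V} {n N M : ℕ} {S : ℕ → V → V}

theorem exists_CS (k : Fin 3) (v : V) (hn : 3 ≤ n) (hN : n ≤ N) (hM : N + 2 ≤ M) :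
    ∃ S, CS k v n N M S := by
  obtain ⟨L, hL⟩ := muC_lip (k := k) (v := v) (n := n) hn hM
  obtain ⟨S, h1, h2, h3, h4, h5⟩ := specColl (ring v n) (ev k) (muC k v n N M) L
    (isCompact_ring v n) hL (muC_tsupport hn hN hM) (muC_mono hn hN hM)
  exact ⟨S, h1, h2, ⟨_, h3⟩, h4, h5⟩

theorem CS.tendsto (hS : CS k v n N M S) (x : V) :
    Tendsto (fun i => S i x) atTop (𝓝 (x + muC k v n N M x • ev k)) := by
  rw [tendsto_iff_norm_sub_tendsto_zero]
  exact squeeze_zero (fun i => norm_nonneg _) (fun i => hS.near i x)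
    tendsto_one_div_add_atTop_nhds_zero_nat

theorem isDiffeo_supp {K Ω : Set V} {s : V → V} (h : SuppDiffeo K s) (hK : K ⊆ Ω) :
    IsDiffeo Ω Ω s := by
  obtain ⟨t, ht, h1, h2⟩ := h.inv
  have htsupp : ∀ x, x ∉ K → t x = x := fun x hx => by
    conv_lhs => rw [← h.supp x hx]
    exact h1 x
  have h' : SuppDiffeo K t := ⟨h.compact, ht, ⟨s, h.smooth, h2, h1⟩, htsupp⟩
  have key : ∀ a : V → V, SuppDiffeo K a → ∀ x ∈ Ω, a x ∈ Ω := by
    intro a ha x hx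
    by_cases hxK : x ∈ K
    · exact hK (ha.mapsTo hxK)
    · rw [ha.supp x hxK]; exact hx
  refine ⟨t, ⟨fun x hx => ⟨key s h x hx, h1 x⟩, fun x hx => ⟨key t h' x hx, h2 x⟩⟩,
    fun i => ?_, fun i => ?_⟩
  · exact (contDiff_pi.1 h.smooth i).contDiffOn
  · exact (contDiff_pi.1 ht i).contDiffOn

theorem CS.diffeo (hS : CS k v n N M S) (hv : ∀ i, 0 ≤ v i ∧ v i < 1 / 2 ^ n) {Λ : Set V}
    {g : V → V} (hg : IsDiffeo Q1 Λ g) (i : ℕ) : IsDiffeo Q1 Λ (g ∘ S i) :=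
  AB.isDiffeo_comp (isDiffeo_supp (hS.supp i) (ring_sub hv)) hg

theorem CS.close (hS : CS k v n N M S) (hv : ∀ i, 0 ≤ v i ∧ v i < 1 / 2 ^ n)
    {f g : V → V} (hg : BdClose Q1 f g) (i : ℕ) : BdClose Q1 f (g ∘ S i) := by
  intro δ hδ
  obtain ⟨K, hK, hKc, h⟩ := hg δ hδ
  refine ⟨K ∪ ring v n, union_subset hK (ring_sub hv), hKc.union (isCompact_ring v n), ?_⟩
  rintro x ⟨hx, hxK⟩
  rw [mem_union, not_or] at hxK
  simp only [Function.comp]
  rw [(hS.supp i).supp x hxK.2]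
  exact h x ⟨hx, hxK.1⟩

theorem CS.eq_off (hS : CS k v n N M S) {g : V → V} {x : V} (hx : x ∉ ring v n) (i : ℕ) :
    fderiv ℝ (g ∘ S i) x = fderiv ℝ g x := by
  apply Filter.EventuallyEq.fderiv_eq
  filter_upwards [(isCompact_ring v n).isClosed.isOpen_compl.mem_nhds hx] with y hy
  simp only [Function.comp]
  rw [(hS.supp i).supp y hy]

/-- **limit of energies**, general form -/
theorem CS.energy (hS : CS k v n N M S) (hv : ∀ i, 0 ≤ v i ∧ v i < 1 / 2 ^ n) {α : Type*}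
    [MeasurableSpace α] {μ : Measure α} {p : ℝ} (hp : 0 < p) {Λ : Set V} {g : V → V}
    (hg : IsDiffeo Q1 Λ g) {e : α → V} (he : Measurable e) {X : Set α} (hX : MeasurableSet X)
    (hμ : μ X ≠ ⊤) {C : Set V} (hC : IsCompact C) (hCQ : C ⊆ Q1) (heC : ∀ a ∈ X, e a ∈ C)
    (w A : V) {c : α → ℝ}
    (hc : ∀ᵐ a ∂(μ.restrict X), AffNear (muC k v n N M) (e a) w (c a)) :
    Tendsto (fun i => ∫⁻ a in X, ENNReal.ofReal (‖fderiv ℝ (g ∘ S i) (e a) w - A‖ ^ p) ∂μ) atTop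
      (𝓝 (∫⁻ a in X, ENNReal.ofReal
        (‖fderiv ℝ g (e a + muC k v n N M (e a) • ev k) (w + c a • ev k) - A‖ ^ p) ∂μ)) := by
  obtain ⟨B, hB⟩ := hS.bd
  refine P073.LR.tendsto_energy (W := Q1) (K' := C ∪ ring v n) (B := B * ‖w‖) hp isOpen_Q1
    ((AB.diffeo_smooth hg).of_le (by simp)) (hC.union (isCompact_ring v n))
    (union_subset hCQ (ring_sub hv)) (fun i => (hS.supp i).smooth.of_le (by simp)) he hX hμ
    (fun i a _ => hB i _ _) (fun i a ha => ?_)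
    (Eventually.of_forall fun a => hS.tendsto (e a)) ?_ aestronglyMeasurable_const ?_
  · by_cases h : e a ∈ ring v n
    · exact Or.inr ((hS.supp i).mapsTo h)
    · rw [(hS.supp i).supp _ h]
      exact Or.inl (heC a ha)
  · filter_upwards [hc] with a ha
    exact hS.lim _ _ _ ha
  · rw [setLIntegral_const]
    exact ENNReal.mul_ne_top ENNReal.ofReal_ne_top hμ

theorem line_mem {e : Idx × Fin 3} {t : ℝ} (ht : t ∈ Icc (0:ℝ) 1) :
    pt v e.1.1 e.1.2 + t • ((1 / 2 ^ e.1.1 : ℝ) • ev e.2) ∈ edge v e := by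
  unfold edge
  rw [segment_eq_image']
  exact ⟨t, ht, by simp⟩

theorem isCompact_edge (e : Idx × Fin 3) : IsCompact (edge v e) := by
  unfold edge
  rw [segment_eq_image_lineMap]
  exact isCompact_Icc.image AffineMap.lineMap_continuous

/-- slope of the collapse function along an edge -/
theorem ae_slope (hn : 3 ≤ n) (hM : N + 2 ≤ M) (x0 w : V) {ℓ α β : ℝ} (hℓ : 0 < ℓ)
    (h : ∀ t ∈ Icc (0:ℝ) 1, muC k v n N M (x0 + t • (ℓ • w)) = α + t * ℓ * β) :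
    ∀ᵐ t ∂(volume.restrict (Icc (0:ℝ) 1)),
      AffNear (muC k v n N M) (x0 + t • (ℓ • w)) w β := by
  have hcount := muC_affNear (k := k) (v := v) (n := n) hn hM x0 w
  have hinj : Function.Injective (fun t : ℝ => t * ℓ) := fun a b hab =>
    mul_right_cancel₀ hℓ.ne' hab
  have hc2 : ((fun t : ℝ => t * ℓ) ⁻¹' {t : ℝ | ¬ ∃ c, AffNear (muC k v n N M)
      (x0 + t • w) w c}).Countable := hcount.preimage hinj
  have hc3 : (({0} ∪ {1} : Set ℝ) ∪ (fun t : ℝ => t * ℓ) ⁻¹'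
      {t : ℝ | ¬ ∃ c, AffNear (muC k v n N M) (x0 + t • w) w c}).Countable :=
    ((Set.countable_singleton 0).union (Set.countable_singleton 1)).union hc2
  have hae : ∀ᵐ t ∂(volume.restrict (Icc (0:ℝ) 1)), t ∉ (({0} ∪ {1} : Set ℝ) ∪
      (fun t : ℝ => t * ℓ) ⁻¹' {t : ℝ | ¬ ∃ c, AffNear (muC k v n N M) (x0 + t • w) w c}) :=
    ae_restrict_of_ae (measure_eq_zero_iff_ae_notMem.1 (hc3.measure_zero volume))
  filter_upwards [hae, ae_restrict_mem measurableSet_Icc] with t ht ht01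
  simp only [mem_union, mem_singleton_iff, not_or, mem_preimage, mem_ofPred_eq, not_not] at ht
  obtain ⟨⟨h0, h1⟩, c, hc⟩ := ht
  rw [smul_smul]
  have hlt : t ∈ Ioo (0:ℝ) 1 :=
    ⟨lt_of_le_of_ne ht01.1 (Ne.symm h0), lt_of_le_of_ne ht01.2 h1⟩
  have hcβ : c = β := by
    refine affNear_slope hc ?_
    have hcont : Tendsto (fun s : ℝ => t + s / ℓ) (𝓝 0) (𝓝 (t + 0 / ℓ)) := by
      have : Continuous fun s : ℝ => t + s / ℓ := by fun_prop
      exact this.tendsto 0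
    rw [zero_div, add_zero] at hcont
    filter_upwards [hcont (isOpen_Ioo.mem_nhds hlt)] with s hs
    have e1 := h (t + s / ℓ) (Ioo_subset_Icc_self hs)
    have e2 := h t ht01
    rw [smul_smul] at e1 e2
    have e3 : (t + s / ℓ) * ℓ = t * ℓ + s := by field_simp
    rw [e3, add_smul, ← add_assoc] at e1
    rw [e1, e2]; ring
  rw [← hcβ]; exact hc

/-- **limit of the energy of an edge** on which the collapse function is affine -/
theorem CS.edge (hS : CS k v n N M S) (hn : 3 ≤ n) (hM : N + 2 ≤ M)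
    (hv : ∀ i, 0 ≤ v i ∧ v i < 1 / 2 ^ n) {p : ℝ} (hp : 0 < p) {Λ : Set V} {g : V → V}
    (hg : IsDiffeo Q1 Λ g) {e : Idx × Fin 3} (he : edge v e ⊆ Q1) {α β : ℝ}
    (h : ∀ t ∈ Icc (0:ℝ) 1, muC k v n N M
      (pt v e.1.1 e.1.2 + t • ((1 / 2 ^ e.1.1 : ℝ) • ev e.2)) = α + t * (1 / 2 ^ e.1.1) * β) :
    Tendsto (fun i => gInt p v (g ∘ S i) e) atTop
      (𝓝 (ENNReal.ofReal (1 / 2 ^ e.1.1) * ∫⁻ t in Icc (0:ℝ) 1, ENNReal.ofReal
        (‖fderiv ℝ g (pt v e.1.1 e.1.2 + t • ((1 / 2 ^ e.1.1 : ℝ) • ev e.2) +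
          (α + t * (1 / 2 ^ e.1.1) * β) • ev k) (ev e.2 + β • ev k)‖ ^ p))) := by
  have hℓ : (0:ℝ) < 1 / 2 ^ e.1.1 := by positivity
  have hm : Measurable fun t : ℝ => pt v e.1.1 e.1.2 + t • ((1 / 2 ^ e.1.1 : ℝ) • ev e.2) := by
    have : Continuous fun t : ℝ =>
      pt v e.1.1 e.1.2 + t • ((1 / 2 ^ e.1.1 : ℝ) • ev e.2) := by fun_prop
    exact this.measurable
  have key := hS.energy hv hp hg hm (measurableSet_Icc (a := (0:ℝ)) (b := 1))
    (by simp) (isCompact_edge e) he (fun t ht => line_mem ht) (ev e.2) 0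
    (ae_slope hn hM (pt v e.1.1 e.1.2) (ev e.2) hℓ h)
  have h2 := ENNReal.Tendsto.const_mul key (a := ENNReal.ofReal (1 / 2 ^ e.1.1))
    (Or.inr ENNReal.ofReal_ne_top)
  simp only [sub_zero] at h2
  have h3 : (∫⁻ t in Icc (0:ℝ) 1, ENNReal.ofReal (‖fderiv ℝ g
      (pt v e.1.1 e.1.2 + t • ((1 / 2 ^ e.1.1 : ℝ) • ev e.2) +
        muC k v n N M (pt v e.1.1 e.1.2 + t • ((1 / 2 ^ e.1.1 : ℝ) • ev e.2)) • ev k)
      (ev e.2 + β • ev k)‖ ^ p)) =
      ∫⁻ t in Icc (0:ℝ) 1, ENNReal.ofReal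
        (‖fderiv ℝ g (pt v e.1.1 e.1.2 + t • ((1 / 2 ^ e.1.1 : ℝ) • ev e.2) +
          (α + t * (1 / 2 ^ e.1.1) * β) • ev k) (ev e.2 + β • ev k)‖ ^ p) :=
    setLIntegral_congr_fun measurableSet_Icc fun t ht => by simp only [h t ht]
  rw [h3] at h2
  exact h2

/-- edges which are not moved -/
theorem CS.edge_zero (hS : CS k v n N M S) (hn : 3 ≤ n) (hM : N + 2 ≤ M)
    (hv : ∀ i, 0 ≤ v i ∧ v i < 1 / 2 ^ n) {p : ℝ} (hp : 0 < p) {Λ : Set V} {g : V → V}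
    (hg : IsDiffeo Q1 Λ g) {e : Idx × Fin 3} (he : AB.edge v e ⊆ Q1)
    (h : ∀ x ∈ AB.edge v e, muC k v n N M x = 0) :
    Tendsto (fun i => gInt p v (g ∘ S i) e) atTop (𝓝 (gInt p v g e)) := by
  have h1 := hS.edge hn hM hv hp hg he (α := 0) (β := 0) fun t ht => by
    rw [h _ (line_mem ht)]; ring
  simp only [mul_zero, add_zero, zero_smul] at h1
  exact h1

end

end Vale.Agent.P073.LOC.L3
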