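import Vale.Agent.P073.LOC.SumE293
import Vale.Agent.P073.AB.Final
import Vale.Agent.P073.Net.ND1

/-!
# P073, block LOC-3D, (L3B): the squeeze and the final estimate
-/

namespace Vale.Agent.P073.LOC

open MeasureTheory Set Filter Topology Metric Vale.Agent.P073.St
open Vale.Agent.P073.SQ (ev cube Cells dE)
open Vale.Agent.P073.AB (cl Idx pt edge eInt squ tiles EdgeOf MinSq Part sqE diffeo_smooth
  diffeo_maps isDiffeo_comp)
open P073.Net (IsTile dyc dyo SizeFn)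
open scoped ContDiff ENNReal

namespace S293

theorem isOpen_Q1 : IsOpen Q1 := by
  have : Q1 = Set.pi univ fun _ : Fin 3 => Ioo (0:ℝ) 1 := by
    ext y; exact ⟨fun h k _ => h k, fun h k => h k (mem_univ k)⟩
  rw [this]
  exact isOpen_set_pi finite_univ fun _ _ => isOpen_Ioo

theorem Q1_sub : Q1 ⊆ Icc (0:V) 1 := fun _ hx => ⟨fun i => (hx i).1.le, fun i => (hx i).2.le⟩

theorem isBounded_Q1 : Bornology.IsBounded Q1 := (isBounded_Icc _ _).subset Q1_sub

theorem isCompact_closure_Q1 : IsCompact (closure Q1) := isBounded_Q1.isCompact_closure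

theorem isCompact_far {η : ℝ} (hη : 0 < η) : IsCompact {x ∈ closure Q1 | η ≤ infDist x Q1ᶜ} ∧
    {x ∈ closure Q1 | η ≤ infDist x Q1ᶜ} ⊆ Q1 := by
  refine ⟨isCompact_closure_Q1.inter_right (isClosed_le continuous_const
    (continuous_infDist_pt _)), fun x hx => ?_⟩
  by_contra hcon
  have h1 : infDist x Q1ᶜ = 0 := infDist_zero_of_mem hcon
  have h2 := hx.2
  rw [h1] at h2
  linarith

theorem isCompact_core (v : V) (n : ℕ) : IsCompact (core v n) := by
  have : core v n = Icc (fun i => v i + 2 / 2 ^ n) (fun i => v i + (2 ^ n - 3) / 2 ^ n) := by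
    ext x
    exact ⟨fun h => ⟨fun i => (h i).1, fun i => (h i).2⟩, fun h i => ⟨h.1 i, h.2 i⟩⟩
  rw [this]
  exact isCompact_Icc

theorem core_sub {v : V} {n : ℕ} (hv : ∀ i, 0 ≤ v i ∧ v i < 1 / 2 ^ n) : core v n ⊆ Q1 := by
  intro x hx i
  have h1 := hx i
  have h2 := hv i
  have hp : (0:ℝ) < 2 ^ n := by positivity
  have h3 : (0:ℝ) < 2 / 2 ^ n := by positivity
  refine ⟨by linarith, ?_⟩
  have h4 : ((2:ℝ) ^ n - 3) / 2 ^ n = 1 - 3 * (1 / 2 ^ n) := by field_simp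
  have h5 : (0:ℝ) < 1 / 2 ^ n := by positivity
  linarith

/-- closeness at the boundary is not changed by a small map -/
theorem bdClose_comp {f G s : V → V} (hs : IsDiffeo Q1 Q1 s)
    (hsmall : ∀ η > 0, ∃ K ⊆ Q1, IsCompact K ∧ ∀ x ∈ Q1 \ K, ‖s x - x‖ < η)
    (hG : BdClose Q1 f G) (hf : ContinuousOn f (closure Q1)) : BdClose Q1 f (G ∘ s) := by
  intro δ hδ
  obtain ⟨K₁, hK₁, hK₁c, hK₁δ⟩ := hG (δ / 2) (by positivity)
  have hu := isCompact_closure_Q1.uniformContinuousOn_of_continuous hf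
  rw [Metric.uniformContinuousOn_iff] at hu
  obtain ⟨η, hη, huη⟩ := hu (δ / 2) (by positivity)
  obtain ⟨K₂, hK₂, hK₂c, hK₂η⟩ := hsmall η hη
  obtain ⟨t, ⟨ht1, ht2⟩, -, ht4⟩ := hs
  have htc : ContinuousOn t Q1 := (AB.smooth_of_sm ht4).continuousOn
  refine ⟨(t '' K₁) ∪ K₂, union_subset ?_ hK₂,
    (hK₁c.image_of_continuousOn (htc.mono hK₁)).union hK₂c, fun x hx => ?_⟩
  · rintro _ ⟨y, hy, rfl⟩
    exact (ht2 y (hK₁ hy)).1
  · have hxQ : x ∈ Q1 := hx.1
    have hsx : s x ∈ Q1 \ K₁ := by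
      refine ⟨(ht1 x hxQ).1, fun h => hx.2 (Or.inl ⟨s x, h, (ht1 x hxQ).2⟩)⟩
    have h1 := hK₁δ (s x) hsx
    have h2 := hK₂η x ⟨hxQ, fun h => hx.2 (Or.inr h)⟩
    have h3 := huη (s x) (subset_closure hsx.1) x (subset_closure hxQ) (by rwa [dist_eq_norm])
    rw [dist_eq_norm] at h3
    calc ‖(G ∘ s) x - f x‖ = ‖(G (s x) - f (s x)) + (f (s x) - f x)‖ := by
          simp only [Function.comp]; congr 1; abel
      _ ≤ ‖G (s x) - f (s x)‖ + ‖f (s x) - f x‖ := norm_add_le _ _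
      _ ≤ δ := by linarith

/-- a map which preserves the cubes moves little near the boundary -/
theorem small_move {n m : ℕ} {v : V} (hQ : IsOpen Q1) (hI : Part Q1 v (newI v n m))
    (hP : newP v n m ⊆ newI v n m) (hv : ∀ i, 0 ≤ v i ∧ v i < 1 / 2 ^ n) {s : V → V}
    (h1 : ∀ x ∈ ⋃ q ∈ newP v n m, dyc v q.1 q.2, s x = x)
    (h2 : ∀ i, ∀ x ∈ cube ((AB.P86.cells hQ hI hP).c i) ((AB.P86.cells hQ hI hP).ρ i),
      s x ∈ cube ((AB.P86.cells hQ hI hP).c i) ((AB.P86.cells hQ hI hP).ρ i)) :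
    ∀ η > 0, ∃ K ⊆ Q1, IsCompact K ∧ ∀ x ∈ Q1 \ K, ‖s x - x‖ < η := by
  intro η hη
  obtain ⟨hc, hsub⟩ := isCompact_far hη
  refine ⟨{x ∈ closure Q1 | η ≤ infDist x Q1ᶜ} ∪ core v n, union_subset hsub (core_sub hv),
    hc.union (isCompact_core v n), fun x hx => ?_⟩
  have hxQ := hx.1
  have hx1 : infDist x Q1ᶜ < η := by
    by_contra h
    push Not at h
    exact hx.2 (Or.inl ⟨subset_closure hxQ, h⟩)
  have hx2 : x ∉ core v n := fun h => hx.2 (Or.inr h)
  rcases (AB.P86.cells hQ hI hP).cover hxQ with h | h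
  · rw [h1 x h, sub_self, norm_zero]; exact hη
  · obtain ⟨i, hi⟩ := mem_iUnion.1 h
    have hsx := h2 i x hi
    have hi' : x ∈ dyc v i.1.1 i.1.2 := by rw [← AB.P86.cube_eq]; exact hi
    have hsx' : s x ∈ dyc v i.1.1 i.1.2 := by rw [← AB.P86.cube_eq]; exact hsx
    have hdist : ‖s x - x‖ ≤ 1 / 2 ^ i.1.1 := P073.Net.NC.dist_le hsx' hi'
    rcases i.2.1 with hIO | hIC
    · have h3 := (AB.specTiles Q1 n v hQ isBounded_Q1 ⟨fun _ => 1 / 2, fun _ => by norm_num⟩)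
      have h4 := (h3.2.2.2.1 i.1 hIO.1 x hi').1
      have h5 : AB.rho Q1 n x ≤ infDist x Q1ᶜ := min_le_right _ _
      linarith
    · exact absurd (hIC.2 hi') hx2

end S293

open S293 AB.S293 in
/-- **(L3B)** -/
theorem specSumQ : SpecSumQ := by
  intro hGeo hSQ p L C hp hp2 hC H ε hε
  obtain ⟨C₀, hC₀, hgeo⟩ := hGeo
  obtain ⟨CS, hCS, hmain⟩ := hSQ p hp hp2
  set c : ℝ := CS.toReal with hcd
  have hc0 : 0 ≤ c := ENNReal.toReal_nonneg
  have hCSc : CS = ENNReal.ofReal c := (ENNReal.ofReal_toReal hCS).symm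
  set e : ℝ := ε / (5 + 2 * c) with hed
  have he : 0 < e := by positivity
  have he' : ENNReal.ofReal e + 2 * (CS * ENNReal.ofReal e + ENNReal.ofReal e +
      ENNReal.ofReal e) ≤ ENNReal.ofReal ε := by
    have e2 : (2:ℝ≥0∞) = ENNReal.ofReal 2 := by norm_num
    rw [hCSc, e2, ← ENNReal.ofReal_mul hc0, ← ENNReal.ofReal_add (by positivity) he.le,
      ← ENNReal.ofReal_add (by positivity) he.le, ← ENNReal.ofReal_mul (by norm_num),
      ← ENNReal.ofReal_add he.le (by positivity)]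
    refine ENNReal.ofReal_le_ofReal (le_of_eq ?_)
    have : e * (5 + 2 * c) = ε := by rw [hed]; field_simp
    linarith
  set M : ℝ := ‖L‖ with hM
  have hM0 : 0 ≤ M := norm_nonneg _
  have hMp : 0 ≤ M ^ p := by positivity
  have hL : ∀ j, ‖L (ev j)‖ ≤ M := fun j => by
    have := L.le_opNorm (ev j)
    rwa [ev_norm, mul_one] at this
  set A : ℝ := 4 * C₀ * C * (2 + C₀) + 4 * C₀ * C + 6 * M ^ p * C₀ with hA
  have hA0 : 0 ≤ A := by positivity
  obtain ⟨n, hn3, hnA⟩ : ∃ n : ℕ, 3 ≤ n ∧ 2 * A / 2 ^ n ≤ e / 2 := by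
    have h1 : Tendsto (fun k : ℕ => (2 * A) / 2 ^ k) atTop (𝓝 0) := by
      have h2 := tendsto_pow_atTop_nhds_zero_of_lt_one (show (0:ℝ) ≤ 1 / 2 by norm_num)
        (show (1 / 2 : ℝ) < 1 by norm_num)
      have h3 := h2.const_mul (2 * A)
      rw [mul_zero] at h3
      refine h3.congr fun k => ?_
      rw [one_div, inv_pow]; rfl
    have h4 := h1.eventually (ge_mem_nhds (show (0:ℝ) < e / 2 by positivity))
    obtain ⟨k, hk1, hk2⟩ := (h4.and (eventually_ge_atTop 3)).exists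
    exact ⟨k, hk2, hk1⟩
  set m : ℕ := n + n with hm
  have hnm : n + 2 ≤ m := by omega
  have hratio : (2:ℝ) ^ n / 2 ^ m = 1 / 2 ^ n := by rw [hm, pow_add]; field_simp
  obtain ⟨κ, hκ, Hκ⟩ := H n m hn3 hnm (e / 8) (by positivity)
  refine ⟨min κ (e / 8), by positivity, fun Λ f F hN => ?_⟩
  have hN' : Near p κ L Λ f F := ⟨hN.dom, hN.homeo, hN.cont, hN.sob,
    hN.near.trans (ENNReal.ofReal_le_ofReal (min_le_left _ _))⟩
  have hNe : ∑ j, ∫⁻ x in Q1, ENNReal.ofReal (‖cl (F x) (ev j) - L (ev j)‖ ^ p) ≤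
      ENNReal.ofReal (e / 8) := hN.near.trans (ENNReal.ofReal_le_ofReal (min_le_right _ _))
  obtain ⟨v, G, D⟩ := Hκ Λ f F hN'
  obtain ⟨hQ, hI, hP, -, -, gvol, g2, g3, g4, g5, g6, g6', g7, g7', -, -⟩ :=
    hgeo v n m hn3 hnm D.org
  set R : Set V := ⋃ q ∈ newP v n m, dyc v q.1 q.2 with hR
  have hRm : MeasurableSet R := MeasurableSet.biUnion (to_countable _) fun q _ =>
    (P073.Net.ND1.isClosed_dyc v q.1 q.2).measurableSet
  have hRQ : R ⊆ Q1 := by
    intro x hx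
    obtain ⟨q, hq, hxq⟩ := mem_iUnion₂.1 hx
    exact hI.sub q (hP hq) hxq
  have hen := sum_en hQ hI hP hC₀ D hC.le g2 g3 g4 g5 g6 g6' g7 g7'
  have := (AB.P86.cells hQ hI hP).cnt
  obtain ⟨ε', hε'0, hε'⟩ := ENNReal.exists_pos_sum_of_countable'
    (ε := ENNReal.ofReal e) (by simpa using he) (AB.P86.cells hQ hI hP).ι
  obtain ⟨s, hs, hsR, hsi, hsE⟩ := hmain Q1 Λ R (AB.P86.cells hQ hI hP) G ε' (fun _ => 1) hQ
    hN.dom.1 D.diffeo (fun i => (hε'0 i).ne') (fun _ => one_pos)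
  have hg := isDiffeo_comp hs D.diffeo
  refine ⟨G ∘ s, hg, bdClose_comp hs (small_move hQ hI hP D.org hsR hsi) D.close hN.cont, ?_⟩
  have e8 : (2:ℝ≥0∞) = ENNReal.ofReal 2 := by norm_num
  -- on the protected set
  have b1 : ∑ j, ∫⁻ x in R, ENNReal.ofReal (‖fderiv ℝ G x (ev j) - cl (F x) (ev j)‖ ^ p) ≤
      ENNReal.ofReal e := by
    calc ∑ j, ∫⁻ x in R, ENNReal.ofReal (‖fderiv ℝ G x (ev j) - cl (F x) (ev j)‖ ^ p)
        ≤ ∑ j, (2 * (∫⁻ x in R, ENNReal.ofReal (‖fderiv ℝ G x (ev j) - L (ev j)‖ ^ p)) +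
          2 * (∫⁻ x in R, ENNReal.ofReal (‖cl (F x) (ev j) - L (ev j)‖ ^ p))) :=
          Finset.sum_le_sum fun j _ => int_le_G hp hp2 G F L j R
      _ = 2 * (∑ j, ∫⁻ x in R, ENNReal.ofReal (‖fderiv ℝ G x (ev j) - L (ev j)‖ ^ p)) +
          2 * (∑ j, ∫⁻ x in R, ENNReal.ofReal (‖cl (F x) (ev j) - L (ev j)‖ ^ p)) := by
          rw [Finset.sum_add_distrib, Finset.mul_sum, Finset.mul_sum]
      _ ≤ 2 * ENNReal.ofReal (e / 8) + 2 * ENNReal.ofReal (e / 8) := by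
          gcongr
          · exact D.vol
          · exact (Finset.sum_le_sum fun j _ => lintegral_mono_set hRQ).trans hNe
      _ ≤ ENNReal.ofReal e := by
          rw [e8, ← ENNReal.ofReal_mul (by norm_num), ← ENNReal.ofReal_add (by positivity)
            (by positivity)]
          exact ENNReal.ofReal_le_ofReal (by linarith)
  -- energy of the cells
  have b2 : ∑' i, (AB.P86.cells hQ hI hP).en p G i ≤ ENNReal.ofReal e := by
    refine hen.trans (ENNReal.ofReal_le_ofReal ?_)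
    have h1 : 4 * C₀ * C * (2 + C₀) / 2 ^ n + 4 * C₀ * C * 2 ^ n / 2 ^ m ≤ 2 * A / 2 ^ n := by
      have h2 : 4 * C₀ * C * 2 ^ n / 2 ^ m = 4 * C₀ * C / 2 ^ n := by
        rw [mul_div_assoc, hratio]; ring
      rw [h2, ← add_div]
      gcongr
      rw [hA]
      nlinarith [mul_nonneg (mul_nonneg (by norm_num : (0:ℝ) ≤ 6) hMp) hC₀.le]
    linarith
  -- off the protected set
  have b3 : ∑ j, ∫⁻ x in Q1 \ R, ENNReal.ofReal (‖cl (F x) (ev j)‖ ^ p) ≤
      ENNReal.ofReal e := by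
    calc ∑ j, ∫⁻ x in Q1 \ R, ENNReal.ofReal (‖cl (F x) (ev j)‖ ^ p)
        ≤ ∑ j : Fin 3, (2 * (∫⁻ x in Q1 \ R,
            ENNReal.ofReal (‖cl (F x) (ev j) - L (ev j)‖ ^ p)) +
          2 * ENNReal.ofReal (M ^ p) * volume (Q1 \ R)) :=
          Finset.sum_le_sum fun j _ => int_le_F hp hp2 F L j (hL j) (Q1 \ R)
      _ = 2 * (∑ j, ∫⁻ x in Q1 \ R, ENNReal.ofReal (‖cl (F x) (ev j) - L (ev j)‖ ^ p)) +
          3 * (2 * ENNReal.ofReal (M ^ p) * volume (Q1 \ R)) := by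
          rw [Finset.sum_add_distrib, Finset.mul_sum, Finset.sum_const, Finset.card_univ,
            Fintype.card_fin, nsmul_eq_mul]
          norm_num
      _ ≤ 2 * ENNReal.ofReal (e / 8) + 3 * (2 * ENNReal.ofReal (M ^ p) *
          ENNReal.ofReal (C₀ * (1 / 2 ^ n + 2 ^ n / 2 ^ m))) := by
          gcongr
          exact (Finset.sum_le_sum fun j _ => lintegral_mono_set sdiff_subset).trans hNe
      _ ≤ ENNReal.ofReal e := by
          have e3 : (3:ℝ≥0∞) = ENNReal.ofReal 3 := by norm_num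
          rw [e8, e3, ← ENNReal.ofReal_mul (by norm_num), ← ENNReal.ofReal_mul (by norm_num),
            ← ENNReal.ofReal_mul (by positivity), ← ENNReal.ofReal_mul (by norm_num),
            ← ENNReal.ofReal_add (by positivity) (by positivity)]
          refine ENNReal.ofReal_le_ofReal ?_
          rw [hratio]
          have h1 : 3 * (2 * M ^ p * (C₀ * (1 / 2 ^ n + 1 / 2 ^ n))) = 2 * (6 * M ^ p * C₀) / 2 ^ n := by
            ring
          rw [h1]
          have h2 : 2 * (6 * M ^ p * C₀) / 2 ^ n ≤ 2 * A / 2 ^ n := by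
            gcongr
            rw [hA]
            have : 0 ≤ 4 * C₀ * C * (2 + C₀) + 4 * C₀ * C := by positivity
            linarith
          linarith
  refine le_trans ?_ he'
  exact AB.deriv_part hp hp2 hQ (AB.P86.cells hQ hI hP) hRm hRQ (diffeo_smooth hg)
    (diffeo_smooth D.diffeo) (fun x hx => by simp only [Function.comp, hsR x hx]) hε'.le b1 b2 b3
    fun i => (hsE i).1

end Vale.Agent.P073.LOC
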