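import Vale.Agent.P073.LR.Mu
import Vale.Agent.P073.LR.Coll
import Vale.Agent.P073.LR.Lim752
import Vale.Agent.P073.LOC.Spec752

/-!
# P073, block LOC-3D: the collapse function of the core

Direction `k`, slabs of generation `N`, layers of generation `M`, core of generation `n ≤ N`.
-/

namespace Vale.Agent.P073.LOC.L3

open MeasureTheory Set Filter Topology Metric Vale.Agent.P073.St
open Vale.Agent.P073.SQ (ev cube SuppDiffeo)
open Vale.Agent.P073.LR (AffNear nu mu lam specMu specColl)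
open scoped ContDiff ENNReal

/-- the centre of the core -/
noncomputable def cc (v : V) (n : ℕ) : V := fun i => v i + (1 - 1 / 2 ^ n) / 2

/-- the half side of the core -/
noncomputable def hl (n : ℕ) : ℝ := (1 - 5 / 2 ^ n) / 2

theorem hl_nonneg {n : ℕ} (hn : 3 ≤ n) : 0 ≤ hl n := by
  have h1 : (8:ℝ) ≤ 2 ^ n := by
    calc (8:ℝ) = 2 ^ 3 := by norm_num
      _ ≤ 2 ^ n := pow_le_pow_right₀ (by norm_num) hn
  have h2 : (5:ℝ) / 2 ^ n ≤ 1 := by
    rw [div_le_one (by positivity)]; linarith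
  unfold hl
  linarith

theorem core_bounds (v : V) (n : ℕ) (i : Fin 3) :
    v i + 2 / 2 ^ n = cc v n i - hl n ∧ v i + (2 ^ n - 3) / 2 ^ n = cc v n i + hl n := by
  have h : (2:ℝ) ^ n ≠ 0 := by positivity
  unfold cc hl
  constructor
  · field_simp; ring
  · field_simp; ring

theorem mem_core_iff {v : V} {n : ℕ} {x : V} : x ∈ core v n ↔ ∀ i, |x i - cc v n i| ≤ hl n := by
  refine forall_congr' fun i => ?_
  obtain ⟨h1, h2⟩ := core_bounds v n i
  rw [h1, h2, abs_le]
  constructor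
  · rintro ⟨a, b⟩; constructor <;> linarith
  · rintro ⟨a, b⟩; constructor <;> linarith

theorem core_eq (v : V) (n : ℕ) : core v n = cube (cc v n) (hl n) := by
  ext x; exact mem_core_iff

/-- the number of layers in the half of the main part of a slab -/
def md (N M : ℕ) : ℕ := 2 ^ (M - (N + 1)) - 1

theorem md_pos {N M : ℕ} (h : N + 2 ≤ M) : 0 < md N M := by
  unfold md
  have h1 : 2 ^ 1 ≤ 2 ^ (M - (N + 1)) := Nat.pow_le_pow_right (by norm_num) (by omega)
  omega

theorem md_cast {N M : ℕ} : ((md N M : ℕ) : ℝ) + 1 = 2 ^ (M - (N + 1)) := by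
  unfold md
  have h1 : 1 ≤ 2 ^ (M - (N + 1)) := Nat.one_le_two_pow
  push_cast [Nat.cast_sub h1]
  ring

theorem md_mul {N M : ℕ} (h : N + 2 ≤ M) : ((md N M : ℕ) + 1 : ℝ) * (1 / 2 ^ M) = 1 / 2 ^ (N + 1) := by
  rw [md_cast]
  have h1 : (2:ℝ) ^ M = 2 ^ (M - (N + 1)) * 2 ^ (N + 1) := by
    rw [← pow_add]; congr 1; omega
  rw [h1]
  field_simp

theorem md_mul' {N M : ℕ} (h : N + 2 ≤ M) :
    ((md N M : ℕ) : ℝ) * (1 / 2 ^ M) = 1 / 2 ^ (N + 1) - 1 / 2 ^ M := by
  have := md_mul h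
  linarith

/-- the ramp function -/
noncomputable def lamC (k : Fin 3) (v : V) (n N M : ℕ) : V → ℝ :=
  lam k (cc v n) (hl n) (1 / 2 ^ M) (md N M)

/-- the height of the middle of the slab `z` -/
noncomputable def midC (k : Fin 3) (v : V) (N : ℕ) (z : ℤ) : ℝ := v k + (2 * z + 1) / 2 ^ (N + 1)

theorem midC_two (v : V) (n : ℕ) (z : ℤ) : midC 2 v n z = mid v n z := rfl

/-- the collapse function of the slab `z` -/
noncomputable def muZ (k : Fin 3) (v : V) (n N M : ℕ) (z : ℤ) : V → ℝ :=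
  mu k (midC k v N z) (1 / 2 ^ M) (md N M) (lamC k v n N M)

/-- the indices of the slabs -/
noncomputable def slabs (n N : ℕ) : Finset ℤ := Finset.Ico (2 * 2 ^ (N - n)) ((2 ^ n - 3) * 2 ^ (N - n))

/-- the collapse function -/
noncomputable def muC (k : Fin 3) (v : V) (n N M : ℕ) (x : V) : ℝ :=
  ∑ z ∈ slabs n N, muZ k v n N M z x

theorem lam_update (k : Fin 3) (q : V) (c ℓ a : ℝ) (m : ℕ) :
    lam k (Function.update q k c) ℓ a m = lam k q ℓ a m := by
  funext x
  unfold lam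
  congr 2
  funext i
  by_cases h : i = k
  · simp [h]
  · simp [h]

section

variable {k : Fin 3} {v : V} {n N M : ℕ}

theorem muZ_spec (hn : 3 ≤ n) (hM : N + 2 ≤ M) (z : ℤ) :
    (∀ x, ∀ s : ℝ, 0 ≤ s → muZ k v n N M z x - s ≤ muZ k v n N M z (x + s • ev k)) ∧
    LipschitzWith (2 * (md N M + 1)) (muZ k v n N M z) ∧
    (∀ x, 1 / 2 ^ (N + 1) ≤ |x k - midC k v N z| ∨
      (∃ i, i ≠ k ∧ hl n + (1 / 2 ^ (N + 1) - 1 / 2 ^ M) ≤ |x i - cc v n i|) →
      muZ k v n N M z x = 0) ∧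
    (∀ x w : V, {t : ℝ | ¬ ∃ c, AffNear (muZ k v n N M z) (x + t • w) w c}.Countable) := by
  have hκk : ev k k = 1 := by simp [ev]
  have hκ : ∀ i, |ev k i| ≤ 1 := by
    intro i
    by_cases h : i = k
    · subst h; simp [ev]
    · simp [ev, h]
  obtain ⟨h1, h2, h3, -, h5⟩ := specMu k (Function.update (cc v n) k (midC k v N z)) (ev k) (hl n)
    (1 / 2 ^ M) (md N M) (by positivity) (md_pos hM) (hl_nonneg hn) hκk hκ
  rw [lam_update, Function.update_self] at h1 h2 h3 h5
  refine ⟨h1, h2, fun x hx => h3 x ?_, h5⟩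
  rw [md_mul hM, md_mul' hM]
  rcases hx with hx | ⟨i, hi, hx⟩
  · exact Or.inl hx
  · refine Or.inr ⟨i, hi, ?_⟩
    rw [Function.update_of_ne hi]
    exact hx

theorem lamC_eq {x : V} (hx : ∀ i, i ≠ k → |x i - cc v n i| ≤ hl n) :
    lamC k v n N M x = md N M * (1 / 2 ^ M) := by
  unfold lamC lam
  have : (fun i => if i = k then (0:ℝ) else max 0 (|x i - cc v n i| - hl n)) = 0 := by
    ext i
    by_cases h : i = k
    · simp [h]
    · simp only [h, if_false, Pi.zero_apply]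
      exact max_eq_left (by linarith [hx i h])
  rw [this, norm_zero, sub_zero]

theorem lamC_le (x : V) : lamC k v n N M x ≤ md N M * (1 / 2 ^ M) := by
  unfold lamC lam
  have := norm_nonneg (fun i => if i = k then (0:ℝ) else max 0 (|x i - cc v n i| - hl n))
  linarith

theorem continuous_lamC : Continuous (lamC k v n N M) :=
  (LR.lam_lipschitz k (cc v n) (hl n) (1 / 2 ^ M) (md N M)).continuous

/-- value in the main part -/
theorem muZ_main {z : ℤ} {x : V}
    (h2 : |x k - midC k v N z| ≤ lamC k v n N M x) :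
    muZ k v n N M z x = -(x k - midC k v N z) := by
  have h1 : |x k - midC k v N z| ≤ md N M * (1 / 2 ^ M) := h2.trans (lamC_le x)
  have hm : (0:ℝ) ≤ md N M := by positivity
  have ha : (0:ℝ) < 1 / 2 ^ M := by positivity
  have hv : ∀ t : ℝ, 0 ≤ t → t ≤ md N M * (1 / 2 ^ M) → t ≤ lamC k v n N M x →
      nu (1 / 2 ^ M) (md N M) t (lamC k v n N M x) = t := by
    intro t ht0 ht1 ht2
    unfold nu
    have h1 : t ≤ (md N M : ℝ) * ((md N M + 1) * (1 / 2 ^ M) - t) := by nlinarith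
    rw [min_eq_left (le_min h1 ht2), max_eq_right ht0]
  unfold muZ mu
  rcases le_total 0 (x k - midC k v N z) with h | h
  · rw [abs_of_nonneg h] at h1 h2
    rw [LR.nu_of_nonpos _ _ (by linarith : midC k v N z - x k ≤ 0), hv _ h h1 h2]
    ring
  · rw [abs_of_nonpos h] at h1 h2
    rw [LR.nu_of_nonpos _ _ h, hv _ (by linarith) (by linarith) (by linarith)]
    ring

/-- value in the layers -/
theorem muZ_layer (hM : N + 2 ≤ M) {z : ℤ} {x : V} (hx : ∀ i, i ≠ k → |x i - cc v n i| ≤ hl n)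
    (h1 : 1 / 2 ^ (N + 1) - 1 / 2 ^ M ≤ |x k - midC k v N z|)
    (h2 : |x k - midC k v N z| ≤ 1 / 2 ^ (N + 1)) :
    (midC k v N z ≤ x k →
      muZ k v n N M z x = md N M * (x k - (midC k v N z + 1 / 2 ^ (N + 1)))) ∧
    (x k ≤ midC k v N z →
      muZ k v n N M z x = md N M * (x k - (midC k v N z - 1 / 2 ^ (N + 1)))) := by
  have hm : (1:ℝ) ≤ md N M := by exact_mod_cast md_pos hM
  have ha : (0:ℝ) < 1 / 2 ^ M := by positivity
  rw [← md_mul' hM] at h1
  rw [← md_mul hM] at h2 ⊢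
  have hv : ∀ t : ℝ, md N M * (1 / 2 ^ M) ≤ t → t ≤ (md N M + 1) * (1 / 2 ^ M) →
      nu (1 / 2 ^ M) (md N M) t (lamC k v n N M x) =
        (md N M : ℝ) * ((md N M + 1) * (1 / 2 ^ M) - t) := by
    intro t ht0 ht1
    rw [lamC_eq hx]
    unfold nu
    have h3 : (md N M : ℝ) * ((md N M + 1) * (1 / 2 ^ M) - t) ≤ md N M * (1 / 2 ^ M) := by
      have : (md N M + 1) * (1 / 2 ^ M) - t ≤ (1 / 2 ^ M : ℝ) := by linarith
      exact mul_le_mul_of_nonneg_left this (by linarith)
    have h4 : (md N M : ℝ) * ((md N M + 1) * (1 / 2 ^ M) - t) ≤ t := by nlinarith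
    rw [min_eq_left h3, min_eq_right h4]
    exact max_eq_right (mul_nonneg (by linarith) (by linarith))
  have hpos : 0 < (md N M : ℝ) * (1 / 2 ^ M) := by positivity
  unfold muZ mu
  constructor
  · intro h
    rw [abs_of_nonneg (by linarith)] at h1 h2
    rw [LR.nu_of_nonpos _ _ (by linarith : midC k v N z - x k ≤ 0), hv _ h1 h2]
    ring
  · intro h
    rw [abs_of_nonpos (by linarith)] at h1 h2
    rw [LR.nu_of_nonpos _ _ (by linarith : x k - midC k v N z ≤ 0), hv _ (by linarith)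
      (by linarith)]
    ring

/-- inside of the section the function depends on the height only -/
theorem muZ_horiz {z : ℤ} {x y : V} (hx : ∀ i, i ≠ k → |x i - cc v n i| ≤ hl n)
    (hy : ∀ i, i ≠ k → |y i - cc v n i| ≤ hl n) (h : x k = y k) :
    muZ k v n N M z x = muZ k v n N M z y := by
  unfold muZ mu
  rw [lamC_eq hx, lamC_eq hy, h]

theorem muC_horiz {x y : V} (hx : ∀ i, i ≠ k → |x i - cc v n i| ≤ hl n)
    (hy : ∀ i, i ≠ k → |y i - cc v n i| ≤ hl n) (h : x k = y k) :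
    muC k v n N M x = muC k v n N M y :=
  Finset.sum_congr rfl fun _ _ => muZ_horiz hx hy h

theorem midC_eq (z : ℤ) : midC k v N z = v k + z / 2 ^ N + 1 / 2 ^ (N + 1) := by
  unfold midC
  have : (2:ℝ) ^ (N + 1) = 2 * 2 ^ N := by ring
  rw [this]
  field_simp
  ring

theorem half_eq : (1 / 2 ^ N : ℝ) = 2 * (1 / 2 ^ (N + 1)) := by
  have : (2:ℝ) ^ (N + 1) = 2 * 2 ^ N := by ring
  rw [this]
  field_simp

/-- other slabs do not matter -/
theorem muC_slab (hn : 3 ≤ n) (hM : N + 2 ≤ M) {z : ℤ} (hz : z ∈ slabs n N) {x : V}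
    (hx : |x k - midC k v N z| ≤ 1 / 2 ^ (N + 1)) : muC k v n N M x = muZ k v n N M z x := by
  unfold muC
  rw [Finset.sum_eq_single z]
  · intro z' _ hz'
    apply (muZ_spec hn hM z').2.2.1
    left
    have h1 : (1:ℝ) ≤ |(z:ℝ) - z'| := by
      have : (1:ℤ) ≤ |z - z'| := Int.one_le_abs (sub_ne_zero.2 (Ne.symm hz'))
      exact_mod_cast this
    have h2 : midC k v N z - midC k v N z' = ((z:ℝ) - z') / 2 ^ N := by
      rw [midC_eq, midC_eq]; ring
    have h3 : (1 / 2 ^ N : ℝ) ≤ |midC k v N z - midC k v N z'| := by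
      rw [h2, abs_div, abs_of_pos (by positivity : (0:ℝ) < 2 ^ N)]
      exact div_le_div_of_nonneg_right h1 (by positivity)
    have h4 : |midC k v N z - midC k v N z'| ≤ |x k - midC k v N z| + |x k - midC k v N z'| := by
      have h5 : midC k v N z - midC k v N z' =
          (x k - midC k v N z') - (x k - midC k v N z) := by ring
      rw [h5]
      have := abs_sub (x k - midC k v N z') (x k - midC k v N z)
      linarith
    rw [half_eq] at h3
    linarith
  · intro h; exact absurd hz h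

theorem mem_slabs {z : ℤ} (hN : n ≤ N) (hz : z ∈ slabs n N) :
    v k + 2 / 2 ^ n + 1 / 2 ^ (N + 1) ≤ midC k v N z ∧
      midC k v N z + 1 / 2 ^ (N + 1) ≤ v k + (2 ^ n - 3) / 2 ^ n := by
  obtain ⟨h1, h2⟩ := Finset.mem_Ico.1 hz
  have hp : (2:ℝ) ^ N = 2 ^ n * 2 ^ (N - n) := by rw [← pow_add]; congr 1; omega
  have h0 : (0:ℝ) < 2 ^ (N - n) := by positivity
  have h1' : (2:ℝ) * 2 ^ (N - n) ≤ z := by exact_mod_cast h1
  have h2' : (z:ℝ) + 1 ≤ (2 ^ n - 3) * 2 ^ (N - n) := by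
    have : z + 1 ≤ (2 ^ n - 3) * 2 ^ (N - n) := h2
    exact_mod_cast this
  have e1 : (2:ℝ) / 2 ^ n = 2 * 2 ^ (N - n) / 2 ^ N := by rw [hp]; field_simp
  have e2 : ((2:ℝ) ^ n - 3) / 2 ^ n = (2 ^ n - 3) * 2 ^ (N - n) / 2 ^ N := by
    rw [hp]; field_simp
  have a1 : (2:ℝ) / 2 ^ n ≤ z / 2 ^ N := by
    rw [e1]; exact div_le_div_of_nonneg_right h1' (by positivity)
  have a2 : (z:ℝ) / 2 ^ N + 1 / 2 ^ N ≤ (2 ^ n - 3) / 2 ^ n := by
    rw [e2, ← add_div]; exact div_le_div_of_nonneg_right h2' (by positivity)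
  rw [midC_eq]
  rw [half_eq] at a2
  constructor <;> linarith

/-- points which are not moved -/
theorem muC_away (hn : 3 ≤ n) (hN : n ≤ N) (hM : N + 2 ≤ M) {x : V}
    (hx : x k ≤ v k + 2 / 2 ^ n ∨ v k + (2 ^ n - 3) / 2 ^ n ≤ x k ∨
      (∃ z : ℤ, x k = v k + z / 2 ^ N) ∨
      ∃ i, i ≠ k ∧ hl n + (1 / 2 ^ (N + 1) - 1 / 2 ^ M) ≤ |x i - cc v n i|) :
    muC k v n N M x = 0 := by
  refine Finset.sum_eq_zero fun z hz => (muZ_spec hn hM z).2.2.1 x ?_
  obtain ⟨h1, h2⟩ := mem_slabs (k := k) (v := v) hN hz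
  rcases hx with h | h | ⟨z', h⟩ | h
  · left
    rw [abs_sub_comm]
    exact le_trans (by linarith) (le_abs_self _)
  · left
    exact le_trans (by linarith) (le_abs_self _)
  · left
    rw [h, midC_eq]
    have e1 : v k + (z':ℝ) / 2 ^ N - (v k + z / 2 ^ N + 1 / 2 ^ (N + 1)) =
        (2 * (z' - z) - 1) / 2 ^ (N + 1) := by
      have : (2:ℝ) ^ (N + 1) = 2 * 2 ^ N := by ring
      rw [this]
      field_simp
      ring
    rw [e1, abs_div, abs_of_pos (by positivity : (0:ℝ) < 2 ^ (N + 1))]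
    apply div_le_div_of_nonneg_right _ (by positivity)
    have : (1:ℤ) ≤ |2 * (z' - z) - 1| := Int.one_le_abs (by omega)
    exact_mod_cast this
  · right; exact h

/-- the slab of a point -/
theorem exists_slab (x : V) : ∃ z : ℤ, |x k - midC k v N z| ≤ 1 / 2 ^ (N + 1) ∧
    v k + z / 2 ^ N ≤ x k ∧ x k ≤ v k + (z + 1) / 2 ^ N := by
  refine ⟨⌊(x k - v k) * 2 ^ N⌋, ?_⟩
  have h1 := Int.floor_le ((x k - v k) * 2 ^ N)
  have h2 := (Int.lt_floor_add_one ((x k - v k) * 2 ^ N)).le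
  set z := ⌊(x k - v k) * 2 ^ N⌋
  have h3 : (z:ℝ) / 2 ^ N ≤ x k - v k := by rwa [div_le_iff₀ (by positivity)]
  have h4 : x k - v k ≤ ((z:ℝ) + 1) / 2 ^ N := by rwa [le_div_iff₀ (by positivity)]
  refine ⟨?_, by linarith, by linarith⟩
  rw [add_div, half_eq] at h4
  rw [midC_eq, abs_le]
  constructor <;> linarith

theorem ev_apply (j i : Fin 3) : ev j i = if i = j then 1 else 0 := by
  unfold ev; rw [Pi.single_apply]

/-- outside of the slabs of the core the function vanishes -/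
theorem muC_out (hn : 3 ≤ n) (hN : n ≤ N) (hM : N + 2 ≤ M) {y : V} {z : ℤ}
    (hz : z ∉ slabs n N) (hy : |y k - midC k v N z| ≤ 1 / 2 ^ (N + 1)) :
    muC k v n N M y = 0 := by
  apply muC_away hn hN hM
  rw [slabs, Finset.mem_Ico, not_and_or, not_le, not_lt] at hz
  have hp : (2:ℝ) ^ N = 2 ^ n * 2 ^ (N - n) := by rw [← pow_add]; congr 1; omega
  have h0 : (0:ℝ) < 2 ^ (N - n) := by positivity
  obtain ⟨c1, c2⟩ := abs_le.1 hy
  rw [midC_eq] at c1 c2
  rcases hz with hz | hz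
  · left
    have h1' : (z:ℝ) + 1 ≤ 2 * 2 ^ (N - n) := by
      have : z + 1 ≤ 2 * 2 ^ (N - n) := hz
      exact_mod_cast this
    have e1 : (2:ℝ) / 2 ^ n = 2 * 2 ^ (N - n) / 2 ^ N := by rw [hp]; field_simp
    have a1 : (z:ℝ) / 2 ^ N + 1 / 2 ^ N ≤ 2 / 2 ^ n := by
      rw [e1, ← add_div]; exact div_le_div_of_nonneg_right h1' (by positivity)
    rw [half_eq] at a1
    linarith
  · right; left
    have h1' : ((2:ℝ) ^ n - 3) * 2 ^ (N - n) ≤ z := by exact_mod_cast hz
    have e2 : ((2:ℝ) ^ n - 3) / 2 ^ n = (2 ^ n - 3) * 2 ^ (N - n) / 2 ^ N := by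
      rw [hp]; field_simp
    have a1 : ((2:ℝ) ^ n - 3) / 2 ^ n ≤ z / 2 ^ N := by
      rw [e2]; exact div_le_div_of_nonneg_right h1' (by positivity)
    linarith

theorem slab_abs {x : V} {z : ℤ} (h1 : v k + z / 2 ^ N ≤ x k) (h2 : x k ≤ v k + (z + 1) / 2 ^ N) :
    |x k - midC k v N z| ≤ 1 / 2 ^ (N + 1) := by
  rw [add_div, half_eq] at h2
  rw [midC_eq, abs_le]
  constructor <;> linarith

theorem add_ev_apply (x : V) (t : ℝ) : (x + t • ev k) k = x k + t := by simp [ev]

/-- every slab is mapped to itself -/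
theorem phi_slab (hn : 3 ≤ n) (hN : n ≤ N) (hM : N + 2 ≤ M) {x : V} {z : ℤ}
    (h1 : v k + z / 2 ^ N ≤ x k) (h2 : x k ≤ v k + (z + 1) / 2 ^ N) :
    v k + z / 2 ^ N ≤ x k + muC k v n N M x ∧
      x k + muC k v n N M x ≤ v k + (z + 1) / 2 ^ N := by
  by_cases hz : z ∈ slabs n N
  swap
  · rw [muC_out hn hN hM hz (slab_abs h1 h2)]
    constructor <;> linarith
  obtain ⟨hm, -, h0, -⟩ := muZ_spec (k := k) (v := v) (N := N) (M := M) hn hM z
  rw [muC_slab hn hM hz (slab_abs h1 h2)]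
  have h2' := h2
  rw [add_div, half_eq] at h2'
  constructor
  · have e := hm (x + (-(x k - (v k + z / 2 ^ N))) • ev k) (x k - (v k + z / 2 ^ N)) (by linarith)
    rw [h0 (x + (-(x k - (v k + z / 2 ^ N))) • ev k) (Or.inl ?_)] at e
    · rw [neg_smul, neg_add_cancel_right] at e
      linarith
    · rw [add_ev_apply, midC_eq]
      have : x k + -(x k - (v k + z / 2 ^ N)) - (v k + z / 2 ^ N + 1 / 2 ^ (N + 1)) =
        -(1 / 2 ^ (N + 1)) := by ring
      rw [this, abs_neg]
      exact le_abs_self _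
  · have e := hm x (v k + (z + 1) / 2 ^ N - x k) (by linarith)
    rw [h0 (x + (v k + (z + 1) / 2 ^ N - x k) • ev k) (Or.inl ?_)] at e
    · linarith
    · rw [add_ev_apply, midC_eq]
      have : x k + (v k + ((z:ℝ) + 1) / 2 ^ N - x k) - (v k + z / 2 ^ N + 1 / 2 ^ (N + 1)) =
        1 / 2 ^ (N + 1) := by
        rw [add_div, half_eq]; ring
      rw [this]
      exact le_abs_self _

theorem phi_le (hn : 3 ≤ n) (hN : n ≤ N) (hM : N + 2 ≤ M) {x : V} {z : ℤ}
    (h : x k ≤ v k + z / 2 ^ N) : x k + muC k v n N M x ≤ v k + z / 2 ^ N := by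
  obtain ⟨z0, -, h1, h2⟩ := exists_slab (k := k) (v := v) (N := N) x
  rcases lt_or_ge z0 z with hlt | hge
  · have h3 : ((z0:ℝ) + 1) / 2 ^ N ≤ z / 2 ^ N := by
      apply div_le_div_of_nonneg_right _ (by positivity)
      exact_mod_cast hlt
    linarith [(phi_slab hn hN hM h1 h2).2]
  · have h3 : (z:ℝ) / 2 ^ N ≤ z0 / 2 ^ N := by
      apply div_le_div_of_nonneg_right _ (by positivity)
      exact_mod_cast hge
    have h4 : x k = v k + z / 2 ^ N := by linarith
    rw [muC_away hn hN hM (Or.inr (Or.inr (Or.inl ⟨z, h4⟩)))]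
    linarith

theorem le_phi (hn : 3 ≤ n) (hN : n ≤ N) (hM : N + 2 ≤ M) {x : V} {z : ℤ}
    (h : v k + z / 2 ^ N ≤ x k) : v k + z / 2 ^ N ≤ x k + muC k v n N M x := by
  obtain ⟨z0, -, h1, h2⟩ := exists_slab (k := k) (v := v) (N := N) x
  rcases lt_or_ge z0 z with hlt | hge
  · have h3 : ((z0:ℝ) + 1) / 2 ^ N ≤ z / 2 ^ N := by
      apply div_le_div_of_nonneg_right _ (by positivity)
      exact_mod_cast hlt
    have h4 : x k = v k + z / 2 ^ N := by linarith
    rw [muC_away hn hN hM (Or.inr (Or.inr (Or.inl ⟨z, h4⟩)))]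
    linarith
  · have h3 : (z:ℝ) / 2 ^ N ≤ z0 / 2 ^ N := by
      apply div_le_div_of_nonneg_right _ (by positivity)
      exact_mod_cast hge
    linarith [(phi_slab hn hN hM h1 h2).1]

/-- monotonicity along the direction `k` -/
theorem muC_mono (hn : 3 ≤ n) (hN : n ≤ N) (hM : N + 2 ≤ M) (x : V) (s : ℝ) (hs : 0 ≤ s) :
    muC k v n N M x - s ≤ muC k v n N M (x + s • ev k) := by
  have hk := add_ev_apply (k := k) x s
  obtain ⟨z, -, h1, h2⟩ := exists_slab (k := k) (v := v) (N := N) x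
  rcases le_or_gt (x k + s) (v k + (z + 1) / 2 ^ N) with h3 | h3
  · have h4 : v k + z / 2 ^ N ≤ (x + s • ev k) k := by rw [hk]; linarith
    have h5 : (x + s • ev k) k ≤ v k + (z + 1) / 2 ^ N := by rw [hk]; exact h3
    by_cases hz : z ∈ slabs n N
    · rw [muC_slab hn hM hz (slab_abs h1 h2), muC_slab hn hM hz (slab_abs h4 h5)]
      exact (muZ_spec hn hM z).1 x s hs
    · rw [muC_out hn hN hM hz (slab_abs h1 h2), muC_out hn hN hM hz (slab_abs h4 h5)]
      linarith
  · have h4 := phi_le hn hN hM (x := x) (z := z + 1) (by push_cast; exact h2)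
    have h5 := le_phi hn hN hM (x := x + s • ev k) (z := z + 1) (by push_cast; rw [hk]; exact h3.le)
    rw [hk] at h5
    linarith

/-- the Lipschitz constant -/
theorem muC_lip (hn : 3 ≤ n) (hM : N + 2 ≤ M) :
    ∃ L : NNReal, LipschitzWith L (muC k v n N M) := by
  refine ⟨∑ z ∈ slabs n N, 2 * (md N M + 1), ?_⟩
  have : ∀ s : Finset ℤ, LipschitzWith (∑ _z ∈ s, (2 * (md N M + 1) : NNReal))
      (fun x => ∑ z ∈ s, muZ k v n N M z x) := by
    intro s
    induction s using Finset.induction_on with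
    | empty => simp only [Finset.sum_empty]; exact LipschitzWith.const' _
    | insert a s ha ih =>
      simp only [Finset.sum_insert ha]
      exact (muZ_spec hn hM a).2.1.add ih
  exact this _

theorem affNear_add {μ ν : V → ℝ} {x w : V} {c d : ℝ} (h1 : AffNear μ x w c)
    (h2 : AffNear ν x w d) : AffNear (fun y => μ y + ν y) x w (c + d) := by
  obtain ⟨r, hr, h1⟩ := h1
  obtain ⟨s, hs, h2⟩ := h2
  refine ⟨min r s, lt_min hr hs, fun z hz t ht => ?_⟩
  simp only
  rw [h1 z (hz.trans_le (min_le_left _ _)) t (ht.trans_le (min_le_left _ _)),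
    h2 z (hz.trans_le (min_le_right _ _)) t (ht.trans_le (min_le_right _ _))]
  ring

/-- along every line the function is locally affine, up to countably many points -/
theorem muC_affNear (hn : 3 ≤ n) (hM : N + 2 ≤ M) (x w : V) :
    {t : ℝ | ¬ ∃ c, AffNear (muC k v n N M) (x + t • w) w c}.Countable := by
  have : ∀ s : Finset ℤ, {t : ℝ | ¬ ∃ c, AffNear (fun y => ∑ z ∈ s, muZ k v n N M z y)
      (x + t • w) w c}.Countable := by
    intro s
    induction s using Finset.induction_on with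
    | empty =>
      convert Set.countable_empty
      ext t
      simp only [Finset.sum_empty, mem_ofPred_eq, mem_empty_iff_false, iff_false, not_not]
      exact ⟨0, 1, one_pos, fun z _ t _ => by simp⟩
    | insert a s ha ih =>
      refine (((muZ_spec (k := k) (v := v) hn hM a).2.2.2 x w).union ih).mono ?_
      intro t ht
      simp only [mem_union, mem_ofPred_eq] at ht ⊢
      by_contra hcon
      push Not at hcon
      obtain ⟨⟨c, hc⟩, ⟨d, hd⟩⟩ := hcon
      apply ht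
      refine ⟨c + d, ?_⟩
      have := affNear_add hc hd
      simp only [Finset.sum_insert ha]
      exact this
  exact this _

/-- the slope is determined by the values on the line -/
theorem affNear_slope {μ : V → ℝ} {x w : V} {c d : ℝ} (h : AffNear μ x w c)
    (h' : ∀ᶠ s : ℝ in 𝓝 0, μ (x + s • w) = μ x + s * d) : c = d := by
  obtain ⟨r, hr, h1⟩ := h
  obtain ⟨e, he, h2⟩ := Metric.eventually_nhds_iff.1 h'
  have hs0 : 0 < min r e / 2 := by positivity
  have hs1 : min r e / 2 < r := by linarith [min_le_left r e]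
  have hs2 : min r e / 2 < e := by linarith [min_le_right r e]
  have e1 := h1 x (by simpa using hr) (min r e / 2) (by rwa [abs_of_pos hs0])
  have e2 := h2 (y := min r e / 2) (by rw [dist_zero_right, Real.norm_eq_abs, abs_of_pos hs0]; exact hs2)
  rw [e1] at e2
  have e3 : min r e / 2 * c = min r e / 2 * d := by linarith
  exact mul_left_cancel₀ hs0.ne' e3

/-- near a point of the main part -/
theorem muC_near_main (hn : 3 ≤ n) (hM : N + 2 ≤ M) {z : ℤ} (hz : z ∈ slabs n N) {x : V}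
    (hx : ∀ i, i ≠ k → |x i - cc v n i| ≤ hl n)
    (h : |x k - midC k v N z| < 1 / 2 ^ (N + 1) - 1 / 2 ^ M) :
    ∀ᶠ y in 𝓝 x, muC k v n N M y = -(y k - midC k v N z) := by
  have c1 : Continuous fun y : V => |y k - midC k v N z| := by fun_prop
  have h0 : (0:ℝ) < 1 / 2 ^ M := by positivity
  have h1 : |x k - midC k v N z| < lamC k v n N M x := by
    rw [lamC_eq hx, md_mul' hM]; exact h
  filter_upwards [(c1.tendsto x).eventually_lt (continuous_lamC.tendsto x) h1,
    c1.tendsto x |>.eventually_lt_const h] with y hy1 hy2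
  rw [muC_slab hn hM hz (by linarith), muZ_main hy1.le]

/-- the support -/
theorem muC_tsupport (hn : 3 ≤ n) (hN : n ≤ N) (hM : N + 2 ≤ M) :
    tsupport (muC k v n N M) ⊆
      interior {x : V | ∀ i, v i + 1 / 2 ^ n ≤ x i ∧ x i ≤ v i + (2 ^ n - 2) / 2 ^ n} := by
  have hT : (0:ℝ) < 1 / 2 ^ n := by positivity
  have hNn : (1:ℝ) / 2 ^ N ≤ 1 / 2 ^ n :=
    one_div_le_one_div_of_le (by positivity) (pow_le_pow_right₀ (by norm_num) hN)
  have hh := half_eq (N := N)
  have hw : (0:ℝ) < 1 / 2 ^ M := by positivity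
  have h1 : tsupport (muC k v n N M) ⊆
      {x : V | ∀ i, |x i - cc v n i| ≤ hl n + (1 / 2 ^ (N + 1) - 1 / 2 ^ M)} := by
    apply closure_minimal
    · intro x hx
      by_contra hcon
      simp only [mem_ofPred_eq, not_forall, not_le] at hcon
      obtain ⟨i, hi⟩ := hcon
      apply hx
      apply muC_away hn hN hM
      by_cases hik : i = k
      · subst hik
        obtain ⟨b1, b2⟩ := core_bounds v n i
        rw [b1, b2]
        have hge : (0:ℝ) ≤ 1 / 2 ^ (N + 1) - 1 / 2 ^ M := by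
          have := md_mul' hM
          rw [← this]; positivity
        rcases lt_abs.1 hi with h | h
        · right; left; linarith
        · left; linarith
      · right; right; right
        exact ⟨i, hik, hi.le⟩
    · have : {x : V | ∀ i, |x i - cc v n i| ≤ hl n + (1 / 2 ^ (N + 1) - 1 / 2 ^ M)} =
          ⋂ i, {x : V | |x i - cc v n i| ≤ hl n + (1 / 2 ^ (N + 1) - 1 / 2 ^ M)} := by
        ext x; simp
      rw [this]
      exact isClosed_iInter fun i => isClosed_le (by fun_prop) continuous_const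
  refine h1.trans ?_
  have h2 : IsOpen {x : V | ∀ i, |x i - cc v n i| < hl n + 1 / 2 ^ n} := by
    have : {x : V | ∀ i, |x i - cc v n i| < hl n + 1 / 2 ^ n} =
        ⋂ i, {x : V | |x i - cc v n i| < hl n + 1 / 2 ^ n} := by
      ext x; simp
    rw [this]
    exact isOpen_iInter_of_finite fun i => isOpen_lt (by fun_prop) continuous_const
  have h3 : {x : V | ∀ i, |x i - cc v n i| ≤ hl n + (1 / 2 ^ (N + 1) - 1 / 2 ^ M)} ⊆
      {x : V | ∀ i, |x i - cc v n i| < hl n + 1 / 2 ^ n} := by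
    intro x hx i
    have := hx i
    have h4 : (0:ℝ) < 1 / 2 ^ (N + 1) := by positivity
    linarith
  refine h3.trans (interior_maximal ?_ h2)
  · intro x hx i
    obtain ⟨b1, b2⟩ := core_bounds v n i
    obtain ⟨c1, c2⟩ := abs_lt.1 (hx i)
    have e1 : v i + 1 / 2 ^ n = v i + 2 / 2 ^ n - 1 / 2 ^ n := by ring
    have e2 : v i + ((2:ℝ) ^ n - 2) / 2 ^ n = v i + (2 ^ n - 3) / 2 ^ n + 1 / 2 ^ n := by ring
    rw [e1, e2, b1, b2]
    constructor <;> linarith

end

end Vale.Agent.P073.LOC.L3
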