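import Vale.Agent.P073.LOC.Spec
import Vale.Agent.P073.AB.Sum293b

/-!
# P073, block LOC: `SpecNet1` from the good origin, NET and smoothing
-/

namespace Vale.Agent.P073.LOC.N114

open MeasureTheory Set Filter Topology Metric Vale.Agent.P073.St
open Vale.Agent.P073.SQ (ev cube Cells)
open Vale.Agent.P073.AB (cl Idx pt edge eInt squ tiles EdgeOf Part RatGood)
open Vale.Agent.P073.LOC
open P073.Net (IsTile dyc dyo SizeFn)
open scoped ContDiff ENNReal

theorem isBoundedDomain_Q1 : IsBoundedDomain Q1 := by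
  refine ⟨LOC560.isOpen_Q1, ⟨⟨fun _ => 1 / 2, fun i => by norm_num⟩, ?_⟩, 2, fun x hx => ?_⟩
  · have : Q1 = Set.pi univ fun _ : Fin 3 => Ioo (0:ℝ) 1 := by
      ext y; exact ⟨fun h k _ => h k, fun h k => h k (mem_univ k)⟩
    rw [this]
    exact isPreconnected_univ_pi fun _ => isPreconnected_Ioo
  · rw [euc, Real.sqrt_le_left (by norm_num)]
    have h : ∀ i, x i ^ 2 ≤ 1 := fun i => by nlinarith [(hx i).1, (hx i).2]
    rw [Fin.sum_univ_three]
    linarith [h 0, h 1, h 2]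

/-- an edge of generation `m` of the core is an edge of a cube of generation `m` of the core -/
theorem exists_cube {v : V} {n m : ℕ} (hn : 3 ≤ n) (hm : n ≤ m) {e : Idx × Fin 3} (he : e.1.1 = m)
    (hc : edge v e ⊆ core v n) : ∃ q ∈ IC v n m, EdgeOf e q := by
  obtain ⟨⟨m', z⟩, k⟩ := e
  simp only at he
  subst he
  have h8 := LOC560.eight_le hn
  have hm0 : (0:ℝ) < 2 ^ m' := by positivity
  have hn0 : (0:ℝ) < 2 ^ n := by positivity
  have h0 : pt v m' z ∈ core v n := hc (left_mem_segment _ _ _)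
  have h1 : pt v m' z + (1 / 2 ^ m' : ℝ) • ev k ∈ core v n := hc (right_mem_segment _ _ _)
  have hpow : (2:ℝ) ^ m' = 2 ^ n * 2 ^ (m' - n) := by
    rw [← pow_add]; congr 1; omega
  have hd0 : (0:ℝ) < 2 ^ (m' - n) := by positivity
  set lo : ℤ := 2 * 2 ^ (m' - n) with hlo
  set up : ℤ := (2 ^ n - 3) * 2 ^ (m' - n) with hup
  have hlor : (lo:ℝ) / 2 ^ m' = 2 / 2 ^ n := by
    rw [hlo, hpow]; push_cast; field_simp
  have hupr : (up:ℝ) / 2 ^ m' = (2 ^ n - 3) / 2 ^ n := by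
    rw [hup, hpow]; push_cast; field_simp
  have hlu : lo < up := by
    have : (lo:ℝ) < up := by
      rw [hlo, hup]; push_cast
      nlinarith
    exact_mod_cast this
  have key1 : ∀ i, lo ≤ z i ∧ z i ≤ up := by
    intro i
    have h := h0 i
    simp only [pt] at h
    rw [← hlor, ← hupr] at h
    have ha : (lo:ℝ) / 2 ^ m' ≤ z i / 2 ^ m' := by linarith [h.1]
    have hb : (z i:ℝ) / 2 ^ m' ≤ up / 2 ^ m' := by linarith [h.2]
    rw [div_le_div_iff_of_pos_right hm0] at ha hb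
    exact ⟨by exact_mod_cast ha, by exact_mod_cast hb⟩
  have key2 : z k + 1 ≤ up := by
    have h := (h1 k).2
    simp only [pt, Pi.add_apply, Pi.smul_apply, ev, Pi.single_eq_same, smul_eq_mul, mul_one] at h
    rw [← hupr] at h
    have hb : ((z k:ℝ) + 1) / 2 ^ m' ≤ up / 2 ^ m' := by
      rw [add_div]; linarith
    rw [div_le_div_iff_of_pos_right hm0] at hb
    exact_mod_cast hb
  set q : Fin 3 → ℤ := fun j => if j = k then z j else if z j < up then z j else z j - 1 with hq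
  have hq1 : ∀ j, lo ≤ q j ∧ q j + 1 ≤ up := by
    intro j
    have h := key1 j
    simp only [hq]
    split_ifs with h2 h3
    · rw [h2]; exact ⟨(key1 k).1, key2⟩
    · exact ⟨h.1, by omega⟩
    · constructor <;> omega
  refine ⟨(m', q), ⟨rfl, ?_⟩, rfl, ?_, ?_⟩
  · intro x hx i
    have h := hx i
    simp only at h
    have h2 := hq1 i
    have ha : (lo:ℝ) / 2 ^ m' ≤ q i / 2 ^ m' := by
      rw [div_le_div_iff_of_pos_right hm0]; exact_mod_cast h2.1
    have hb : ((q i:ℝ) + 1) / 2 ^ m' ≤ up / 2 ^ m' := by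
      rw [div_le_div_iff_of_pos_right hm0]; exact_mod_cast h2.2
    rw [hlor] at ha
    rw [hupr] at hb
    exact ⟨by linarith [h.1], by linarith [h.2]⟩
  · simp [hq]
  · intro j hj
    simp only at hj
    simp only [hq, if_neg hj]
    split_ifs with h3
    · exact Or.inl rfl
    · right; ring

theorem isCompact_far {η : ℝ} (hη : 0 < η) : IsCompact {x : V | η ≤ infDist x Q1ᶜ} ∧
    {x : V | η ≤ infDist x Q1ᶜ} ⊆ Q1 := by
  have hsub : {x : V | η ≤ infDist x Q1ᶜ} ⊆ Q1 := by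
    intro x hx
    by_contra h
    have h1 : infDist x Q1ᶜ = 0 := infDist_zero_of_mem h
    have h2 : η ≤ infDist x Q1ᶜ := hx
    linarith
  exact ⟨isCompact_of_isClosed_isBounded
    (isClosed_le continuous_const (continuous_infDist_pt _)) (LOC560.isBounded_Q1.subset hsub), hsub⟩

theorem specNetOf' (hPart : SpecPartQ) (hG : SpecGaugeH) (p : ℝ) (L : V →L[ℝ] V) (hp : 1 ≤ p)
    (hp2 : p < 2) : SpecNet1 p L := by
  have hA0 : 0 ≤ ‖L‖ ^ p := Real.rpow_nonneg (norm_nonneg _) _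
  refine ⟨6 + 1440 * ‖L‖ ^ p, by positivity, fun n m hn hm δ hδ => ?_⟩
  set d : ℝ := min (δ / 4) (1 / 2 ^ n) with hd
  have hd0 : 0 < d := lt_min (by positivity) (by positivity)
  have hd1 : d ≤ δ / 4 := min_le_left _ _
  have hd2 : d ≤ 1 / 2 ^ n := min_le_right _ _
  obtain ⟨κ, hκ, H⟩ := LOC560.exists_org hp L n m (δ := ENNReal.ofReal d)
    (ENNReal.ofReal_pos.2 hd0).ne'
  refine ⟨κ, hκ, fun Λ f F hN => ?_⟩
  obtain ⟨v, hv, -, -⟩ := H Λ f F hN (fun _ => 0) (fun _ => True) aemeasurable_const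
    (Eventually.of_forall fun _ => trivial)
  have hpart := hPart v n m hn hm hv.org
  -- the weights
  obtain ⟨w, hw0, hw⟩ := ENNReal.exists_pos_sum_of_countable (ε := ENNReal.ofReal d)
    (ENNReal.ofReal_pos.2 hd0).ne' (Idx × Fin 3)
  have hwd : ∀ e, ENNReal.ofReal (w e : ℝ) ≤ ENNReal.ofReal d := fun e => by
    rw [ENNReal.ofReal_coe_nnreal]
    exact (ENNReal.le_tsum e).trans hw.le
  have hsub : ∀ q ∈ newI v n m, dyc v q.1 q.2 ⊆ Q1 := hpart.sub
  obtain ⟨h, hh, hclose, hedge⟩ := hG p Q1 Λ f F v (newI v n m) hp hp2 isBoundedDomain_Q1 hN.dom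
    hN.homeo hN.sob hv.rat hpart
    (fun e ⟨q, hq, heq⟩ => hv.fin e ((PK.edge_sub_of_edgeOf heq).trans (hsub q hq)))
    (fun e => w e) (fun e => by exact_mod_cast hw0 e) (fun x => infDist x Q1ᶜ)
    (continuous_infDist_pt _).continuousOn (fun x hx => by
      have hcl : IsClosed (Q1ᶜ : Set V) := LOC560.isOpen_Q1.isClosed_compl
      have hne : (Q1ᶜ : Set V).Nonempty := ⟨fun _ => 2, fun h => by
        have := (h 0).2; norm_num at this⟩
      exact (hcl.notMem_iff_infDist_pos hne).1 (fun h => h hx))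
  refine ⟨v, h, hv.org, hh, fun η hη => ?_, fun e he hec => ?_, ?_⟩
  · obtain ⟨hK, hKQ⟩ := isCompact_far hη
    refine ⟨_, hKQ, hK, fun x hx => (hclose x hx.1).trans ?_⟩
    exact (not_le.1 hx.2).le
  · -- edges in the core
    obtain ⟨q, hq, heq⟩ := exists_cube hn (by omega) he hec
    have h1 := hedge e ⟨q, Or.inr hq, heq⟩
    have heQ : edge v e ⊆ Q1 := hec.trans (LOC560.core_subset hv.org)
    have h2 := hv.edge_le (le_of_eq he) heQ e.2
    have h3 : eInt v e (fun x => ENNReal.ofReal (‖fderiv ℝ h x (ev e.2) - L (ev e.2)‖ ^ p)) ≤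
        eInt v e (fun x => 2 * ENNReal.ofReal (‖fderiv ℝ h x (ev e.2) - cl (F x) (ev e.2)‖ ^ p) +
          2 * ENNReal.ofReal (‖cl (F x) (ev e.2) - L (ev e.2)‖ ^ p)) := by
      refine AB.S293.eInt_mono v e fun x => ?_
      have h4 := AB.S293.ofReal_pow_le hp hp2 (fderiv ℝ h x (ev e.2) - L (ev e.2))
        (cl (F x) (ev e.2) - L (ev e.2))
      rwa [sub_sub_sub_cancel_right] at h4
    refine h3.trans ?_
    rw [AB.S293.eInt_add v e _ _ (AB.S293.aemeas_pow hv.rat heQ (L (ev e.2)) p 2),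
      AB.S293.eInt_const_mul _ _ _ (by norm_num), AB.S293.eInt_const_mul _ _ _ (by norm_num)]
    calc 2 * eInt v e (fun x => ENNReal.ofReal (‖fderiv ℝ h x (ev e.2) - cl (F x) (ev e.2)‖ ^ p)) +
          2 * eInt v e (fun x => ENNReal.ofReal (‖cl (F x) (ev e.2) - L (ev e.2)‖ ^ p))
        ≤ 2 * ENNReal.ofReal d + 2 * ENNReal.ofReal d := by
          gcongr
          exact h1.trans (hwd e)
      _ = ENNReal.ofReal (4 * d) := by
          rw [← two_mul, ← mul_assoc, ENNReal.ofReal_mul (by norm_num)]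
          norm_num
      _ ≤ _ := ENNReal.ofReal_le_ofReal (by linarith)
  · -- edges outside of the core
    have hout : ∀ e : LOC560.OutE n v, ENNReal.ofReal ((1 / 2 ^ e.1.1.1) ^ 2) * gInt p v h e.1 ≤
        2 * (w e.1 : ℝ≥0∞) + 2 * (ENNReal.ofReal ((1 / 2 ^ e.1.1.1) ^ 2) *
          eInt v e.1 (fun x => ENNReal.ofReal (‖cl (F x) (ev e.1.2)‖ ^ p))) := by
      intro e
      obtain ⟨⟨q, hq, heq⟩, hec⟩ := e.2
      have hq' : q ∈ newI v n m := Or.inl ⟨hq, fun hs => hec ((PK.edge_sub_of_edgeOf heq).trans hs)⟩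
      have heQ : edge v e.1 ⊆ Q1 := (PK.edge_sub_of_edgeOf heq).trans (hsub q hq')
      have h1 := AB.S293.eInt_G_le hp hp2 hv.rat heQ h (hedge e.1 ⟨q, hq', heq⟩)
      have hs1 : ENNReal.ofReal (((1:ℝ) / 2 ^ e.1.1.1) ^ 2) ≤ 1 := by
        rw [ENNReal.ofReal_le_one]
        have : (1:ℝ) / 2 ^ e.1.1.1 ≤ 1 := by
          rw [div_le_one (by positivity)]
          exact one_le_pow₀ (by norm_num)
        exact pow_le_one₀ (by positivity) this
      calc ENNReal.ofReal ((1 / 2 ^ e.1.1.1) ^ 2) * gInt p v h e.1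
          ≤ ENNReal.ofReal ((1 / 2 ^ e.1.1.1) ^ 2) * (2 * ENNReal.ofReal (w e.1 : ℝ) +
            2 * eInt v e.1 (fun x => ENNReal.ofReal (‖cl (F x) (ev e.1.2)‖ ^ p))) := by
            gcongr
            exact h1
        _ = ENNReal.ofReal ((1 / 2 ^ e.1.1.1) ^ 2) * (2 * (w e.1 : ℝ≥0∞)) +
            2 * (ENNReal.ofReal ((1 / 2 ^ e.1.1.1) ^ 2) *
            eInt v e.1 (fun x => ENNReal.ofReal (‖cl (F x) (ev e.1.2)‖ ^ p))) := by
            rw [ENNReal.ofReal_coe_nnreal]; ring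
        _ ≤ _ := add_le_add (mul_le_of_le_one_left zero_le hs1) le_rfl
    refine (ENNReal.tsum_le_tsum hout).trans ?_
    rw [ENNReal.tsum_add, ENNReal.tsum_mul_left, ENNReal.tsum_mul_left]
    have hw' : ∑' e : LOC560.OutE n v, (w e.1 : ℝ≥0∞) ≤ ENNReal.ofReal (1 / 2 ^ n) := by
      refine le_trans ?_ (hw.le.trans (ENNReal.ofReal_le_ofReal hd2))
      exact ENNReal.tsum_comp_le_tsum_of_injective Subtype.val_injective
        (fun e : Idx × Fin 3 => (w e : ℝ≥0∞))
    have h2p : (2:ℝ≥0∞) ^ (p - 1) ≤ 2 := by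
      calc (2:ℝ≥0∞) ^ (p - 1) ≤ 2 ^ (1:ℝ) :=
            ENNReal.rpow_le_rpow_of_exponent_le (by norm_num) (by linarith)
        _ = 2 := ENNReal.rpow_one 2
    have ho := hv.out_le hp hn
    calc 2 * ∑' e : LOC560.OutE n v, (w e.1 : ℝ≥0∞) +
          2 * ∑' e : LOC560.OutE n v, ENNReal.ofReal ((1 / 2 ^ e.1.1.1) ^ 2) *
            eInt v e.1 (fun x => ENNReal.ofReal (‖cl (F x) (ev e.1.2)‖ ^ p))
        ≤ 2 * ENNReal.ofReal (1 / 2 ^ n) + 2 * (2 * (ENNReal.ofReal (360 / 2 ^ n) *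
            ENNReal.ofReal (‖L‖ ^ p) + ENNReal.ofReal (1 / 2 ^ n))) := by
          gcongr
          refine ho.trans ?_
          gcongr
      _ = ENNReal.ofReal ((6 + 1440 * ‖L‖ ^ p) / 2 ^ n) := by
          have e2 : (2:ℝ≥0∞) = ENNReal.ofReal 2 := by norm_num
          rw [e2, ← ENNReal.ofReal_mul (by norm_num), ← ENNReal.ofReal_mul (by positivity),
            ← ENNReal.ofReal_add (by positivity) (by positivity),
            ← ENNReal.ofReal_mul (by norm_num), ← ENNReal.ofReal_mul (by norm_num),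
            ← ENNReal.ofReal_add (by positivity) (by positivity)]
          congr 1
          ring

end Vale.Agent.P073.LOC.N114

namespace Vale.Agent.P073.LOC

/-- (NET1-of) -/
theorem specNetOf : SpecNetOf := fun hPart hG p L hp hp2 => N114.specNetOf' hPart hG p L hp hp2

end Vale.Agent.P073.LOC
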