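import Vale.Agent.P073.LOC.Geo308a
import Vale.Agent.P073.LOC.Spec

/-!
# P073, block LOC: `SpecPartQ` (helper308)
-/

namespace Vale.Agent.P073.LOC

/-- **(PQ)** -/
theorem specPartQ : SpecPartQ := fun _ _ _ hn hm hv => G308.Dat.part ⟨hv, hn, hm⟩

end Vale.Agent.P073.LOC
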