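import Vale.Agent.P073.SQ.Final

/-!
# LOC: planar squeezes of finitely many squares (S3)

The squares may have different normals; a closed set `D` (plates, rods, ...) is protected.
-/

namespace Vale.Agent.P073.LOC

open MeasureTheory Set Filter Topology Metric Vale.Agent.P073.St Vale.Agent.P073.SQ
open scoped ContDiff ENNReal

/-- the closed square with centre `a`, normal `k`, half side `σ` -/
def sqr (a : V) (k : Fin 3) (σ : ℝ) : Set V := {x | x k = a k ∧ ∀ l, l ≠ k → |x l - a l| ≤ σ}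

/-- the relative interior of the square -/
def osqr (a : V) (k : Fin 3) (σ : ℝ) : Set V := {x | x k = a k ∧ ∀ l, l ≠ k → |x l - a l| < σ}

theorem osqr_subset (a : V) (k : Fin 3) (σ : ℝ) : osqr a k σ ⊆ sqr a k σ :=
  fun _ hx => ⟨hx.1, fun l hl => (hx.2 l hl).le⟩

theorem isClosed_sqr (a : V) (k : Fin 3) (σ : ℝ) : IsClosed (sqr a k σ) := by
  have : sqr a k σ = {x : V | x k = a k} ∩ ⋂ l, ⋂ (_ : l ≠ k), {x : V | |x l - a l| ≤ σ} := by
    ext x; simp [sqr]
  rw [this]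
  refine (isClosed_eq (continuous_apply k) continuous_const).inter ?_
  exact isClosed_iInter fun l => isClosed_iInter fun _ =>
    isClosed_le ((continuous_apply l).sub continuous_const).abs continuous_const

theorem upd_mem_sqr {a : V} {k : Fin 3} {σ : ℝ} {x : V} (hx : x ∈ cube a σ) :
    Function.update x k (a k) ∈ sqr a k σ :=
  ⟨Function.update_self .., fun l hl => by rw [Function.update_of_ne hl]; exact hx l⟩

/-- equal germs on the square: equal energies -/
theorem faceE_congr' {p : ℝ} {G H : V → V} {a : V} {k : Fin 3} {σ : ℝ}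
    (h : ∀ y ∈ sqr a k σ, G =ᶠ[𝓝 y] H) : faceE p G a k σ = faceE p H a k σ := by
  unfold faceE
  refine Finset.sum_congr rfl fun j _ => ?_
  refine setLIntegral_congr_fun (SQ.isClosed_cube _ _).measurableSet fun x hx => ?_
  exact dE_congr (h _ (upd_mem_sqr hx)) j

section
variable {ι : Type} (a : ι → V) (k : ι → Fin 3) (σ : ι → ℝ) (D : Set V)

/-- the set to be missed by the neighbourhood of the square `q` -/
def YY (q : ι) : Set V := D ∪ ⋃ q' ∈ {q' | q' ≠ q}, sqr (a q') (k q') (σ q')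

/-- pairwise disjoint neighbourhoods of the open squares -/
def UU (q : ι) : Set V := {x | infEDist x (sqr (a q) (k q) (σ q)) < infEDist x (YY a k σ D q)}

variable {a k σ D}

theorem notMem_YY {q : ι} {x : V} (hx : x ∈ UU a k σ D q) : x ∉ YY a k σ D q := by
  intro h
  have hx' : infEDist x (sqr (a q) (k q) (σ q)) < infEDist x (YY a k σ D q) := hx
  rw [infEDist_zero_of_mem h] at hx'
  exact absurd hx' (not_lt.2 zero_le)

theorem sqr_subset_YY {q q' : ι} (h : q' ≠ q) : sqr (a q') (k q') (σ q') ⊆ YY a k σ D q :=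
  fun _ hx => Or.inr (mem_biUnion (show q' ∈ {q' | q' ≠ q} from h) hx)

theorem UU_disjoint {q q' : ι} (h : q ≠ q') : Disjoint (UU a k σ D q) (UU a k σ D q') := by
  rw [Set.disjoint_left]
  intro x h1 h2
  have h1' : infEDist x (sqr (a q) (k q) (σ q)) < infEDist x (YY a k σ D q) := h1
  have h2' : infEDist x (sqr (a q') (k q') (σ q')) < infEDist x (YY a k σ D q') := h2
  have e1 := infEDist_anti (x := x) (sqr_subset_YY (a := a) (k := k) (σ := σ) (D := D) h.symm)
  have e2 := infEDist_anti (x := x) (sqr_subset_YY (a := a) (k := k) (σ := σ) (D := D) h)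
  exact absurd (h1'.trans_le (e1.trans (h2'.le.trans e2))) (lt_irrefl _)

theorem mem_UU [Finite ι] (hD : IsClosed D)
    (hDo : ∀ q, Disjoint (osqr (a q) (k q) (σ q)) D)
    (hd : ∀ q q', q ≠ q' → Disjoint (osqr (a q) (k q) (σ q)) (sqr (a q') (k q') (σ q')))
    {q : ι} {x : V} (hx : x ∈ osqr (a q) (k q) (σ q)) : x ∈ UU a k σ D q := by
  have hcl : IsClosed (YY a k σ D q) :=
    hD.union ((Set.toFinite _).isClosed_biUnion fun q' _ => isClosed_sqr _ _ _)
  have hn : x ∉ YY a k σ D q := by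
    rintro (h | h)
    · exact Set.disjoint_left.1 (hDo q) hx h
    · obtain ⟨q', hq', h⟩ := mem_iUnion₂.1 h
      exact Set.disjoint_left.1 (hd q q' (Ne.symm hq')) hx h
  change infEDist x (sqr (a q) (k q) (σ q)) < infEDist x (YY a k σ D q)
  rw [infEDist_zero_of_mem (osqr_subset _ _ _ hx)]
  rw [← hcl.closure_eq] at hn
  exact infEDist_pos_iff_notMem_closure.2 hn

end

/-- a diffeomorphism of `V` onto itself which is the identity off a compact set -/
theorem suppDiffeo_of {K : Set V} {S : V → V} (hK : IsCompact K) (hS : IsDiffeo univ univ S)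
    (h : ∀ x, x ∉ K → S x = x) : SuppDiffeo K S := by
  have hcd := isDiffeo_cd hS
  obtain ⟨T, hT, -, hT2⟩ := hS
  have hcd' : ContDiffOn ℝ ∞ T univ := contDiffOn_pi.2 hT2
  exact ⟨hK, contDiffOn_univ.1 hcd, ⟨T, contDiffOn_univ.1 hcd', fun x => (hT.1 x (mem_univ x)).2,
    fun x => (hT.2 x (mem_univ x)).2⟩, h⟩

/-- **(S3)** planar squeezes of finitely many squares with disjoint relative interiors -/
theorem exists_planar (p : ℝ) (hp : 1 ≤ p) (hp2 : p < 2) : ∃ C : ℝ≥0∞, C ≠ ⊤ ∧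
    ∀ (Ω Λ : Set V) (F : V → V) (ι : Type) (_ : Finite ι) (a : ι → V) (k : ι → Fin 3) (σ : ι → ℝ)
      (D : Set V) (ε : ι → ℝ≥0∞) (δ : ℝ), IsOpen Ω → IsDiffeo Ω Λ F → IsClosed D → 0 < δ →
      (∀ q, 0 < σ q) → (∀ q, sqr (a q) (k q) (σ q) ⊆ Ω) →
      (∀ q, Disjoint (osqr (a q) (k q) (σ q)) D) →
      (∀ q q', q ≠ q' → Disjoint (osqr (a q) (k q) (σ q)) (sqr (a q') (k q') (σ q'))) →
      (∀ q, ε q ≠ 0) →
      ∃ (K : Set V) (s : V → V), SuppDiffeo K s ∧ K ⊆ Ω ∧ Disjoint K D ∧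
        (∀ x ∈ K, ∃ q, s x (k q) = x (k q) ∧ |x (k q) - a q (k q)| < δ ∧
          ∀ l, l ≠ k q → |x l - a q l| < σ q ∧ |s x l - a q l| < σ q) ∧
        ∀ q, faceE p (F ∘ s) (a q) (k q) (σ q) ≤ C * edgesE p F (a q) (k q) (σ q) + ε q := by
  obtain ⟨C, hC, hface⟩ := specFace p hp hp2
  refine ⟨C, hC, ?_⟩
  intro Ω Λ F ι _ a k σ D ε δ hΩ hF hD hδ hσ hsub hDo hd hε
  have hcd : ContDiffOn ℝ 1 F Ω := (isDiffeo_cd hF).of_le (by exact_mod_cast le_top)
  let U : ι → Set V := fun q => UU a k σ (D ∪ Ωᶜ) q ∩ {x | |x (k q) - a q (k q)| < δ}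
  have hUo : ∀ q, IsOpen (U q) := fun q =>
    (isOpen_lt continuous_infEDist continuous_infEDist).inter
      (isOpen_lt ((continuous_apply _).sub continuous_const).abs continuous_const)
  have hDo' : ∀ q, Disjoint (osqr (a q) (k q) (σ q)) (D ∪ Ωᶜ) := fun q => by
    rw [Set.disjoint_left]
    rintro x hx (h | h)
    · exact Set.disjoint_left.1 (hDo q) hx h
    · exact h (hsub q (osqr_subset _ _ _ hx))
  have hmemU : ∀ q, ∀ x : V, x (k q) = a q (k q) → (∀ l, l ≠ k q → |x l - a q l| < σ q) →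
      x ∈ U q := fun q x hx hx' =>
    ⟨mem_UU (hD.union hΩ.isClosed_compl) hDo' hd ⟨hx, hx'⟩, by
      change |x (k q) - a q (k q)| < δ
      rw [hx, sub_self, abs_zero]; exact hδ⟩
  have hex := fun q => hface (a q) (k q) (σ q) (U q) Ω F (fun _ => 0) (ε q) (hσ q) (hUo q)
    (hmemU q) hΩ (fun x hx hx' => hsub q ⟨hx, hx'⟩) hcd continuous_const (fun _ => zero_le) (hε q)
  choose K s h1 h2 h3 h4 _ using hex
  have hKU : ∀ q, K q ⊆ UU a k σ (D ∪ Ωᶜ) q := fun q x hx => (h2 q hx).1.1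
  have hKΩ : ∀ q, K q ⊆ Ω := fun q x hx => by
    by_contra hcon
    exact notMem_YY (hKU q hx) (Or.inl (Or.inr hcon))
  have hKD : ∀ q, Disjoint (K q) D := fun q => by
    rw [Set.disjoint_left]
    exact fun x hx hxD => notMem_YY (hKU q hx) (Or.inl (Or.inl hxD))
  have hKd : ∀ q q', q ≠ q' → Disjoint (K q) (K q') := fun q q' h =>
    (UU_disjoint h).mono (hKU q) (hKU q')
  have hoff : ∀ q q', q ≠ q' → ∀ x ∈ sqr (a q') (k q') (σ q'), x ∉ K q := fun q q' h x hx hxK =>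
    notMem_YY (hKU q hxK) (sqr_subset_YY h.symm hx)
  obtain ⟨S, hS, hS1, hS2, hS3⟩ := specGlue univ ι K s isOpen_univ h1 (fun q => subset_univ _) hKd
    (fun x _ => ⟨univ, univ_mem, Set.toFinite _⟩)
  refine ⟨⋃ q, K q, S, suppDiffeo_of (isCompact_iUnion fun q => (h1 q).compact) hS fun x hx =>
    hS2 x fun q hq => hx (mem_iUnion.2 ⟨q, hq⟩), iUnion_subset hKΩ, ?_, ?_, fun q => ?_⟩
  · rw [Set.disjoint_left]
    intro x hx hxD
    obtain ⟨q, hq⟩ := mem_iUnion.1 hx
    exact Set.disjoint_left.1 (hKD q) hq hxD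
  · intro x hx
    obtain ⟨q, hq⟩ := mem_iUnion.1 hx
    refine ⟨q, ?_, (h2 q hq).1.2, fun l hl => ⟨(h2 q hq).2 l hl, ?_⟩⟩
    · rw [hS1 q x hq]; exact h3 q x
    · rw [hS1 q x hq]
      exact (h2 q ((h1 q).mapsTo hq)).2 l hl
  · rw [faceE_congr' (H := F ∘ s q) fun y hy => comp_congr
      (hS3 q y (mem_univ y) fun j hj => hoff j q hj y hy)]
    exact h4 q

end Vale.Agent.P073.LOC
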