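import Vale.Agent.P073.LOC.Planar696
import Vale.Agent.P073.AB.Sum293a

/-!
# LOC: planar squeezes of finitely many dyadic squares (S3)
-/

namespace Vale.Agent.P073.LOC

open MeasureTheory Set Filter Topology Metric Vale.Agent.P073.St Vale.Agent.P073.SQ
open Vale.Agent.P073.AB (Idx pt edge eInt squ sqE)
open Vale.Agent.P073.AB.P86 (sc rel)
open scoped ContDiff ENNReal

theorem sqr_eq_squ (v : V) (s : Idx × Fin 3) : sqr (sc v s) s.2 (1 / 2 / 2 ^ s.1.1) = squ v s := by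
  ext x
  rw [← AB.P86.mem_squ_iff]
  refine and_congr_right fun h => ⟨fun h' l => ?_, fun h' l _ => h' l⟩
  by_cases hl : l = s.2
  · subst hl
    rw [h, sub_self, abs_zero]
    positivity
  · exact h' l hl

theorem osqr_eq_rel (v : V) (s : Idx × Fin 3) :
    osqr (sc v s) s.2 (1 / 2 / 2 ^ s.1.1) = rel v s := by
  ext x
  exact AB.P86.mem_rel_iff v s x

theorem isClosed_squ (v : V) (s : Idx × Fin 3) : IsClosed (squ v s) := by
  rw [← sqr_eq_squ]; exact isClosed_sqr _ _ _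

/-- the open cylinder over the relative interior of a square -/
def ocyl (v : V) (s : Idx × Fin 3) : Set V :=
  {x | ∀ k, k ≠ s.2 → v k + s.1.2 k / 2 ^ s.1.1 < x k ∧ x k < v k + (s.1.2 k + 1) / 2 ^ s.1.1}

theorem mem_ocyl_iff (v : V) (s : Idx × Fin 3) (x : V) :
    (∀ l, l ≠ s.2 → |x l - sc v s l| < 1 / 2 / 2 ^ s.1.1) ↔ x ∈ ocyl v s := by
  refine forall_congr' fun l => ?_
  refine imp_congr_right fun hl => ?_
  simp only [sc, if_neg hl]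
  exact AB.P86.abslt (v l) (x l) (s.1.2 l) s.1.1

/-- **(S3)** planar squeezes of finitely many dyadic squares -/
theorem exists_planarD (p : ℝ) (hp : 1 ≤ p) (hp2 : p < 2) : ∃ C : ℝ≥0∞, C ≠ ⊤ ∧
    ∀ (Ω Λ : Set V) (F : V → V) (v : V) (S : Set (Idx × Fin 3)) (D : Set V)
      (ε : Idx × Fin 3 → ℝ≥0∞) (δ : ℝ), IsOpen Ω → IsDiffeo Ω Λ F → S.Finite → IsClosed D →
      0 < δ → (∀ s ∈ S, squ v s ⊆ Ω) → (∀ s ∈ S, Disjoint (rel v s) D) →
      (∀ s ∈ S, ∀ s' ∈ S, s ≠ s' → Disjoint (rel v s) (squ v s')) → (∀ s ∈ S, ε s ≠ 0) →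
      ∃ (K : Set V) (s₀ : V → V), SuppDiffeo K s₀ ∧ K ⊆ Ω ∧ Disjoint K D ∧
        (∀ x ∈ K, ∃ s ∈ S, s₀ x s.2 = x s.2 ∧ |x s.2 - (v s.2 + s.1.2 s.2 / 2 ^ s.1.1)| < δ ∧
          x ∈ ocyl v s ∧ s₀ x ∈ ocyl v s) ∧
        ∀ s ∈ S, faceE p (F ∘ s₀) (sc v s) s.2 (1 / 2 / 2 ^ s.1.1) ≤
          C * (ENNReal.ofReal ((1 / 2 ^ s.1.1) ^ 2) * ∑ e ∈ sqE s, eInt v e (dE p F e.2)) +
            ε s := by
  obtain ⟨C, hC, h⟩ := exists_planar p hp hp2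
  refine ⟨C, hC, ?_⟩
  intro Ω Λ F v S D ε δ hΩ hF hS hD hδ hsub hDo hd hε
  haveI : Finite S := hS
  obtain ⟨K, s₀, h1, h2, h3, h4, h5⟩ := h Ω Λ F S inferInstance (fun s => sc v s.1)
    (fun s => s.1.2) (fun s => 1 / 2 / 2 ^ s.1.1.1) D (fun s => ε s.1) δ hΩ hF hD hδ
    (fun s => by positivity) (fun s => by rw [sqr_eq_squ]; exact hsub s.1 s.2)
    (fun s => by rw [osqr_eq_rel]; exact hDo s.1 s.2)
    (fun s s' hne => by
      rw [osqr_eq_rel, sqr_eq_squ]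
      exact hd s.1 s.2 s'.1 s'.2 fun h => hne (Subtype.ext h)) (fun s => hε s.1 s.2)
  refine ⟨K, s₀, h1, h2, h3, fun x hx => ?_, fun s hs => ?_⟩
  · obtain ⟨s, a1, a2, a3⟩ := h4 x hx
    refine ⟨s.1, s.2, a1, ?_, ?_, ?_⟩
    · simpa [sc] using a2
    · exact (mem_ocyl_iff v s.1 x).1 fun l hl => (a3 l hl).1
    · exact (mem_ocyl_iff v s.1 _).1 fun l hl => (a3 l hl).2
  · have := h5 ⟨s, hs⟩
    rwa [AB.S293.edgesE_eq] at this

end Vale.Agent.P073.LOC
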