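import Vale.Agent.P073.LOC.SumA696
import Vale.Agent.P073.AB.Sum293e

/-!
# LOC, rank two, S4: all clauses of `Sec` except for the middle planes
-/

namespace Vale.Agent.P073.LOC

open MeasureTheory Set Filter Topology Metric Vale.Agent.P073.St
open Vale.Agent.P073.SQ (ev cube SuppDiffeo dE faceE edgesE)
open Vale.Agent.P073.AB (cl Idx pt edge eInt squ tiles EdgeOf EdgeOfSq RatGood MinSq sqE)
open Vale.Agent.P073.AB.P86 (sc rel)
open P073.Net (IsTile dyc dyo SizeFn)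
open P073.Plate (pbox prel)
open scoped ContDiff ENNReal

/-! ## geometry of edges and plates -/

theorem core_subset_Q1 {v : V} {n : ℕ} (hv : ∀ i, 0 ≤ v i ∧ v i < 1 / 2 ^ n) : core v n ⊆ Q1 := by
  intro x hx i
  have h1 := hx i
  have h2 := hv i
  have h3 : (0:ℝ) < 2 / 2 ^ n := by positivity
  have h4 : ((2:ℝ) ^ n - 3) / 2 ^ n = 1 - 3 * (1 / 2 ^ n) := by
    field_simp
  have h5 : (0:ℝ) < 1 / 2 ^ n := by positivity
  constructor
  · linarith
  · rw [h4] at h1; linarith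

theorem prel_subset_squ (v : V) (s : Idx × Fin 3) {δ : ℝ} (hδ : 0 ≤ δ) :
    prel v s δ ⊆ squ v s := fun x hx =>
  ⟨hx.1, fun k hk => ⟨by linarith [(hx.2 k hk).1], by linarith [(hx.2 k hk).2]⟩⟩

/-- corners of a planar box -/
theorem pbox_corner {v : V} {s s' : Idx × Fin 3} (h2 : s.2 = 2) (h2' : s'.2 = 2) {δ : ℝ}
    (hδ : δ ≤ 0) (h : pbox v s δ 0 ⊆ squ v s') (i : Fin 3) (hi : i ≠ 2) :
    v i + s'.1.2 i / 2 ^ s'.1.1 ≤ v i + s.1.2 i / 2 ^ s.1.1 + δ ∧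
      v i + (s.1.2 i + 1) / 2 ^ s.1.1 - δ ≤ v i + (s'.1.2 i + 1) / 2 ^ s'.1.1 := by
  have hp : (0:ℝ) < 1 / 2 ^ s.1.1 := by positivity
  have hdiv : ∀ k : Fin 3, ((s.1.2 k : ℝ) + 1) / 2 ^ s.1.1 = s.1.2 k / 2 ^ s.1.1 + 1 / 2 ^ s.1.1 :=
    fun k => by rw [add_div]
  constructor
  · have h1 : (fun k => if k = 2 then v k + s.1.2 k / 2 ^ s.1.1 else
        v k + s.1.2 k / 2 ^ s.1.1 + δ : V) ∈ pbox v s δ 0 := by
      refine ⟨by simp [h2], fun k hk => ?_⟩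
      rw [h2] at hk
      simp only [if_neg hk]
      exact ⟨le_rfl, by rw [hdiv]; linarith⟩
    have h3 := (h h1).2 i (by rw [h2']; exact hi)
    simp only [if_neg hi] at h3
    exact h3.1
  · have h1 : (fun k => if k = 2 then v k + s.1.2 k / 2 ^ s.1.1 else
        v k + (s.1.2 k + 1) / 2 ^ s.1.1 - δ : V) ∈ pbox v s δ 0 := by
      refine ⟨by simp [h2], fun k hk => ?_⟩
      rw [h2] at hk
      simp only [if_neg hk]
      exact ⟨by rw [hdiv]; linarith, le_rfl⟩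
    have h3 := (h h1).2 i (by rw [h2']; exact hi)
    simp only [if_neg hi] at h3
    exact h3.2

/-- corners of a square -/
theorem squ_corner {v : V} {n : ℕ} {s : Idx × Fin 3} (h2 : s.2 = 2) (h : squ v s ⊆ core v n)
    (i : Fin 3) (hi : i ≠ 2) :
    v i + 2 / 2 ^ n ≤ v i + s.1.2 i / 2 ^ s.1.1 ∧
      v i + (s.1.2 i + 1) / 2 ^ s.1.1 ≤ v i + (2 ^ n - 3) / 2 ^ n := by
  have hp : (0:ℝ) < 1 / 2 ^ s.1.1 := by positivity
  have hdiv : ∀ k : Fin 3, ((s.1.2 k : ℝ) + 1) / 2 ^ s.1.1 = s.1.2 k / 2 ^ s.1.1 + 1 / 2 ^ s.1.1 :=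
    fun k => by rw [add_div]
  constructor
  · have h1 : (fun k => v k + s.1.2 k / 2 ^ s.1.1 : V) ∈ squ v s :=
      ⟨by simp, fun k _ => ⟨le_rfl, by rw [hdiv]; linarith⟩⟩
    exact (h h1 i).1
  · have h1 : (fun k => if k = 2 then v k + s.1.2 k / 2 ^ s.1.1 else
        v k + (s.1.2 k + 1) / 2 ^ s.1.1 : V) ∈ squ v s := by
      refine ⟨by simp [h2], fun k hk => ?_⟩
      rw [h2] at hk
      simp only [if_neg hk]
      exact ⟨by rw [hdiv]; linarith, le_rfl⟩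
    have h3 := (h h1 i).2
    simpa only [if_neg hi] using h3

theorem exists_ne_ne (k : Fin 3) : ∃ l : Fin 3, l ≠ 2 ∧ l ≠ k := by
  revert k; decide

/-- a plate does not meet the edges of generation `m` -/
theorem medge_disj {v : V} {m n₂ : ℕ} {z : Fin 3 → ℤ} {δ : ℝ} (hδ : 0 ≤ δ)
    (h : ∃ w, pbox v (plq n₂ z) (-(1 / 2 ^ n₂)) 0 ⊆ squ v ((m, w), 2)) {e : Idx × Fin 3}
    (he : e.1.1 = m) : Disjoint (edge v e) (prel v (plq n₂ z) δ) := by
  rw [Set.disjoint_left]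
  rintro x hx hx'
  obtain ⟨w, hw⟩ := h
  obtain ⟨l, hl2, hle⟩ := exists_ne_ne e.2
  have hp : (0:ℝ) < 1 / 2 ^ n₂ := by positivity
  have h1 := pbox_corner (s := plq n₂ z) (s' := ((m, w), 2)) rfl rfl (by linarith) hw l hl2
  have h2 := hx'.2 l hl2
  have h3 := (AB.Gr.mem_edge.1 hx).1 l hle
  rw [he] at h3
  simp only [plq] at h1 h2
  have h4 : (w l : ℝ) / 2 ^ m < e.1.2 l / 2 ^ m := by linarith
  have h5 : (e.1.2 l : ℝ) / 2 ^ m < (w l + 1) / 2 ^ m := by linarith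
  rw [div_lt_div_iff_of_pos_right (by positivity)] at h4 h5
  have h6 : w l < e.1.2 l := by exact_mod_cast h4
  have h7 : e.1.2 l < w l + 1 := by exact_mod_cast h5
  omega

/-- the relative interior of a square in a middle plane lies in the interior of the core -/
theorem prel_subset_interior {v : V} {n : ℕ} {s : Idx × Fin 3} (h2 : s.2 = 2)
    (h : squ v s ⊆ core v n) (hmid : IsMid v n (pt v s.1.1 s.1.2 2)) {δ : ℝ} (hδ : 0 ≤ δ) :
    prel v s δ ⊆ interior (core v n) := by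
  have hopen : IsOpen {x : V | ∀ i, v i + 2 / 2 ^ n < x i ∧ x i < v i + (2 ^ n - 3) / 2 ^ n} := by
    have : {x : V | ∀ i, v i + 2 / 2 ^ n < x i ∧ x i < v i + (2 ^ n - 3) / 2 ^ n} =
        ⋂ i, {x : V | v i + 2 / 2 ^ n < x i ∧ x i < v i + (2 ^ n - 3) / 2 ^ n} := by ext x; simp
    rw [this]
    exact isOpen_iInter_of_finite fun i =>
      (isOpen_lt continuous_const (continuous_apply i)).inter
        (isOpen_lt (continuous_apply i) continuous_const)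
  refine subset_trans ?_ (interior_maximal (fun x hx i => ⟨(hx i).1.le, (hx i).2.le⟩) hopen)
  rintro x ⟨hx1, hx2⟩ i
  by_cases hi : i = 2
  · subst hi
    obtain ⟨z, hz1, hz2, hz3⟩ := hmid
    rw [h2] at hx1
    have h3 : x 2 = mid v n z := by rw [hx1, ← hz3]; rfl
    rw [h3]
    unfold mid
    have hp : (0:ℝ) < 2 ^ n := by positivity
    have hz1' : (2:ℝ) ≤ z := by exact_mod_cast hz1
    have hz2' : (z:ℝ) + 1 ≤ 2 ^ n - 3 := by exact_mod_cast hz2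
    have e1 : (2 * (z:ℝ) + 1) / 2 ^ (n + 1) = (z + 1 / 2) / 2 ^ n := by
      rw [pow_succ]; field_simp
    rw [e1]
    constructor
    · have : (2:ℝ) / 2 ^ n < (z + 1 / 2) / 2 ^ n := by
        rw [div_lt_div_iff_of_pos_right hp]; linarith
      linarith
    · have : ((z:ℝ) + 1 / 2) / 2 ^ n < (2 ^ n - 3) / 2 ^ n := by
        rw [div_lt_div_iff_of_pos_right hp]; linarith
      linarith
  · have h3 := squ_corner h2 h i hi
    have h4 := hx2 i (by rw [h2]; exact hi)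
    constructor <;> linarith [h3.1, h3.2, h4.1, h4.2]

/-! ## the composed map -/

theorem suppDiffeo_isDiffeo {K Ω : Set V} {s₀ : V → V} (h : SuppDiffeo K s₀) (hK : K ⊆ Ω) :
    IsDiffeo Ω Ω s₀ := by
  obtain ⟨t, ht, h1, h2⟩ := h.inv
  have hs : ∀ x ∈ Ω, s₀ x ∈ Ω := fun x hx => by
    by_cases hxK : x ∈ K
    · exact hK (h.mapsTo hxK)
    · rw [h.supp x hxK]; exact hx
  have htK : ∀ y, y ∉ K → t y = y := fun y hy => by
    conv_lhs => rw [← h.supp y hy]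
    exact h1 y
  have ht' : SuppDiffeo K t := ⟨h.compact, ht, ⟨s₀, h.smooth, h2, h1⟩, htK⟩
  have hts : ∀ y ∈ Ω, t y ∈ Ω := fun y hy => by
    by_cases hyK : y ∈ K
    · exact hK (ht'.mapsTo hyK)
    · rw [htK y hyK]; exact hy
  refine ⟨t, ⟨fun x hx => ⟨hs x hx, h1 x⟩, fun y hy => ⟨hts y hy, h2 y⟩⟩, ?_, ?_⟩
  · exact contDiffOn_pi.1 h.smooth.contDiffOn
  · exact contDiffOn_pi.1 ht.contDiffOn

theorem bdClose_comp {K Ω : Set V} {f G s₀ : V → V} (h : SuppDiffeo K s₀) (hK : K ⊆ Ω)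
    (hc : BdClose Ω f G) : BdClose Ω f (G ∘ s₀) := by
  intro δ hδ
  obtain ⟨K', hK', hKc, hKx⟩ := hc δ hδ
  refine ⟨K' ∪ K, union_subset hK' hK, hKc.union h.compact, fun x hx => ?_⟩
  rw [Function.comp, h.supp x fun hxK => hx.2 (Or.inr hxK)]
  exact hKx x ⟨hx.1, fun hxK => hx.2 (Or.inl hxK)⟩

end Vale.Agent.P073.LOC
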