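import Vale.Agent.P073.LOC.Spec752
import Vale.Agent.P073.LOC.Planar696
import Vale.Agent.P073.Spec.Plate

/-!
# P073, block LOC, rank two: the section output from the choice and from the plates

The plates are the squares `squ v ((n₂, z), 2)`, `z ∈ J`, in the middle planes of the core.
-/

namespace Vale.Agent.P073.LOC

open MeasureTheory Set Filter Topology Metric Vale.Agent.P073.St
open Vale.Agent.P073.SQ (ev cube Cells)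
open Vale.Agent.P073.AB (cl Idx pt edge eInt squ tiles EdgeOf EdgeOfSq RatGood MinSq)
open P073.Net (IsTile dyc dyo SizeFn)
open P073.Plate (pbox prel)
open scoped ContDiff ENNReal

/-! ## The net -/

/-- the partition of `Q1`: Whitney cubes outside of the core, generation `m` in the core (the same
as `newI v n m` of helper752) -/
def part (v : V) (n m : ℕ) : Set Idx :=
  {q | (q ∈ tiles Q1 n v ∧ ¬ dyc v q.1 q.2 ⊆ core v n) ∨ (q.1 = m ∧ dyc v q.1 q.2 ⊆ core v n)}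

/-- the heights of the middle planes -/
def IsMid (v : V) (n : ℕ) (h : ℝ) : Prop := ∃ z : ℤ, 2 ≤ z ∧ z < 2 ^ n - 3 ∧ h = mid v n z

/-- horizontal edges of generation `n₀` in the middle planes, in the core -/
def FineE (v : V) (n n₀ : ℕ) (e : Idx × Fin 3) : Prop :=
  e.1.1 = n₀ ∧ e.2 ≠ 2 ∧ edge v e ⊆ core v n ∧ IsMid v n (pt v e.1.1 e.1.2 2)

/-- the edges of the net -/
def NetE (v : V) (n m n₀ : ℕ) (e : Idx × Fin 3) : Prop :=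
  (∃ q ∈ tiles Q1 n v, EdgeOf e q) ∨ (e.1.1 = m ∧ edge v e ⊆ core v n) ∨ FineE v n n₀ e

/-- the squares of the cell complex: the minimal squares of the partition, except that the middle
planes of the core are subdivided into squares of generation `n₀` -/
def sqT (v : V) (n m n₀ : ℕ) : Set (Idx × Fin 3) :=
  {s | (MinSq v (part v n m) s ∧
      ¬ (s.2 = 2 ∧ squ v s ⊆ core v n ∧ IsMid v n (pt v s.1.1 s.1.2 2))) ∨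
    (s.2 = 2 ∧ s.1.1 = n₀ ∧ squ v s ⊆ core v n ∧ IsMid v n (pt v s.1.1 s.1.2 2))}

/-- energy of `F` on the edge `e` -/
noncomputable def fInt (p : ℝ) (v : V) (F : V → Mat) (e : Idx × Fin 3) : ℝ≥0∞ :=
  eInt v e (fun x => ENNReal.ofReal (‖cl (F x) (ev e.2)‖ ^ p))

/-- the plate -/
def plq (n₂ : ℕ) (z : Fin 3 → ℤ) : Idx × Fin 3 := ((n₂, z), 2)

/-! ## The choice -/

/-- The choice for rank two: origin `v`, generation `n₂` of the plates, fine generation `n₀`,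
plates `J`, affine maps `A z` with linear part `B z` (invertible, the direction `ev 2` of `B z` is
only transversal). -/
structure Choice2 (p ε θ M κ C : ℝ) (k₁ k₀ n m : ℕ) (L : V →L[ℝ] V) (Λ : Set V) (f : V → V)
    (F : V → Mat) where
  /-- origin -/
  v : V
  org : ∀ i, 0 ≤ v i ∧ v i < 1 / 2 ^ n
  /-- generation of the plates -/
  n₂ : ℕ
  /-- fine generation -/
  n₀ : ℕ
  eqn : n₀ = n₂ + k₁ + k₀
  le : m ≤ n₂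
  /-- plates -/
  J : Finset (Fin 3 → ℤ)
  sub : ∀ z ∈ J, squ v (plq n₂ z) ⊆ core v n
  mid : ∀ z ∈ J, IsMid v n (pt v n₂ z 2)
  /-- the plate is well inside a square of generation `m` -/
  lone : ∀ z ∈ J, ∃ w, pbox v (plq n₂ z) (-(1 / 2 ^ n₂)) 0 ⊆ squ v ((m, w), 2)
  /-- affine maps -/
  A : (Fin 3 → ℤ) → V → V
  /-- their linear parts -/
  B : (Fin 3 → ℤ) → V →L[ℝ] V
  aff : ∀ z x y, A z y - A z x = B z (y - x)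
  below : ∀ z ∈ J, ∀ w, θ * ‖w‖ ≤ ‖B z w‖
  above : ∀ z ∈ J, ∀ w, ‖B z w‖ ≤ M * ‖w‖
  lin : ∀ z ∈ J, ∀ j, j ≠ 2 → ‖B z (ev j) - L (ev j)‖ ≤ ε
  rat : RatGood v Q1 f F
  fin : ∀ e : Idx × Fin 3, edge v e ⊆ Q1 → n ≤ e.1.1 → fInt p v F e ≠ ⊤
  own : ∀ z ∈ J, ∀ e : Idx × Fin 3, e.1.1 = n₀ → e.2 ≠ 2 → edge v e ⊆ squ v (plq n₂ z) →
    (∀ x ∈ edge v e, ‖f x - A z x‖ ≤ κ / 2 ^ n₀) ∧
    eInt v e (fun x => ENNReal.ofReal (‖cl (F x) (ev e.2) - B z (ev e.2)‖ ^ p)) ≤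
      ENNReal.ofReal (κ / 2 ^ n₀)
  foreign : ∀ z ∈ J, ∀ e : Idx × Fin 3, NetE v n m n₀ e → ¬ edge v e ⊆ squ v (plq n₂ z) →
    ∀ x ∈ edge v e, f x ∉ A z '' pbox v (plq n₂ z) (1 / 2 ^ n₀) (1 / 2 ^ n₀)
  inside : ∀ z ∈ J, A z '' pbox v (plq n₂ z) (1 / 2 ^ n₀) (1 / 2 ^ n₀) ⊆ Λ
  disj : ∀ z ∈ J, ∀ z' ∈ J, z ≠ z' →
    Disjoint (A z '' pbox v (plq n₂ z) (1 / 2 ^ n₀) (1 / 2 ^ n₀))
      (A z' '' pbox v (plq n₂ z') (1 / 2 ^ n₀) (1 / 2 ^ n₀))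
  /-- horizontal edges of generation `m` in the interface planes and in the middle planes -/
  hor : ∀ e : Idx × Fin 3, e.1.1 = m → edge v e ⊆ core v n → e.2 ≠ 2 →
    (2 ^ (m - (n + 1)) : ℤ) ∣ e.1.2 2 → fInt p v F e ≤ ENNReal.ofReal (C / 2 ^ m)
  /-- vertical edges of generation `m` in the core -/
  ver : ∀ e : Idx × Fin 3, e.1.1 = m → edge v e ⊆ core v n → e.2 = 2 →
    fInt p v F e ≤ ENNReal.ofReal ε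
  /-- edges of the Whitney partition outside of the core -/
  out : ∑' e : {e : Idx × Fin 3 // (∃ q ∈ tiles Q1 n v, EdgeOf e q) ∧ ¬ edge v e ⊆ core v n},
    ENNReal.ofReal ((1 / 2 ^ e.1.1.1) ^ 2) * fInt p v F e.1 ≤ ENNReal.ofReal (C / 2 ^ n)
  /-- fine edges outside of the plates -/
  bad : ∑' e : {e : Idx × Fin 3 // FineE v n n₀ e ∧ ∀ z ∈ J, ¬ edge v e ⊆ squ v (plq n₂ z)},
    ENNReal.ofReal (1 / 2 ^ n₀) * fInt p v F e.1 ≤ ENNReal.ofReal ε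
  /-- the part of each middle plane outside of the plates -/
  area : ∀ z' : ℤ, 2 ≤ z' → z' < 2 ^ n - 3 →
    volume {x | x ∈ core v n ∧
      ∀ z ∈ J, Function.update x 2 (LOC.mid v n z') ∉ squ v (plq n₂ z)} ≤ ENNReal.ofReal ε

/-- rank two with kernel `ev 2` -/
def Rank2 (L : V →L[ℝ] V) : Prop :=
  L (ev 2) = 0 ∧ ∀ s t : ℝ, s • L (ev 0) + t • L (ev 1) = 0 → s = 0 ∧ t = 0

/-- **(S1)** the choice, from PACK for `k = 2` -/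
def SpecChoice2 : Prop :=
  ∀ (p : ℝ) (L : V →L[ℝ] V), 1 ≤ p → p < 2 → Rank2 L → ∃ C > 0, ∃ θ > 0, ∃ M > 0,
    ∀ n m : ℕ, 3 ≤ n → n + 2 ≤ m → ∀ ε > 0, ∀ k₁ k₀ : ℕ, 1 ≤ k₁ → ∀ κ' > 0, ∃ κ > 0,
    ∀ (Λ : Set V) (f : V → V) (F : V → Mat), Near p κ L Λ f F →
      Nonempty (Choice2 p ε θ M κ' C k₁ k₀ n m L Λ f F)

/-- **(S2)** NET + GB of rank two + SM -/
def SpecGaugeSec2 : Prop :=
  ∀ (p θ M : ℝ), 1 ≤ p → p < 2 → 0 < θ → 0 < M → ∃ C' > 0, ∀ k₁ : ℕ, 3 ≤ k₁ → ∃ k₀ ≥ 1,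
    ∃ κ > 0, ∀ (n m : ℕ) (ε C : ℝ) (L : V →L[ℝ] V) (Λ : Set V) (f : V → V) (F : V → Mat),
    3 ≤ n → n + 2 ≤ m → IsBoundedDomain Λ → IsHomeo Q1 Λ f → ContinuousOn f (closure Q1) →
    IsSobolev p Q1 f F → ∀ c : Choice2 p ε θ M κ C k₁ k₀ n m L Λ f F,
    ∀ δ : Idx × Fin 3 → ℝ, (∀ e, 0 < δ e) → ∀ δ₀ > 0,
    ∃ G : V → V, IsDiffeo Q1 Λ G ∧ BdClose Q1 f G ∧
      (∀ e : Idx × Fin 3, NetE c.v n m c.n₀ e →
        (∀ z ∈ c.J, Disjoint (edge c.v e) (prel c.v (plq c.n₂ z) (1 / 2 ^ (c.n₂ + k₁)))) →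
        eInt c.v e (fun x => ENNReal.ofReal (‖fderiv ℝ G x (ev e.2) - cl (F x) (ev e.2)‖ ^ p)) ≤
          ENNReal.ofReal (δ e)) ∧
      ∀ z ∈ c.J,
        ∑ j ∈ Finset.univ.erase (2 : Fin 3),
          ∫⁻ x in {x | x ∈ core c.v n ∧ Function.update x 2 (pt c.v c.n₂ z 2) ∈
              pbox c.v (plq c.n₂ z) (2 / 2 ^ (c.n₂ + k₁)) 0},
            ENNReal.ofReal (‖fderiv ℝ G (Function.update x 2 (pt c.v c.n₂ z 2)) (ev j) -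
              c.B z (ev j)‖ ^ p) ≤ ENNReal.ofReal δ₀ ∧
        -- edges of generation `n₂ + k₁` of the gap
        ∀ e : Idx × Fin 3, e.1.1 = c.n₂ + k₁ →
          edge c.v e ⊆ pbox c.v (plq c.n₂ z) (1 / 2 ^ (c.n₂ + k₁)) 0 \
            prel c.v (plq c.n₂ z) (2 / 2 ^ (c.n₂ + k₁)) →
          ¬ edge c.v e ⊆ pbox c.v (plq c.n₂ z) (1 / 2 ^ (c.n₂ + k₁)) 0 \
            prel c.v (plq c.n₂ z) (1 / 2 ^ (c.n₂ + k₁)) →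
          eInt c.v e (fun x => ENNReal.ofReal (‖fderiv ℝ G x (ev e.2)‖ ^ p)) ≤
            ENNReal.ofReal (C' / 2 ^ (c.n₂ + k₁))

/-- **(S4)** sums -/
def SpecSumSec2 : Prop :=
  SpecChoice2 → SpecGaugeSec2 → ∀ (p : ℝ) (L : V →L[ℝ] V), 1 ≤ p → p < 2 → Rank2 L → SpecSec p L

/-! ## Geometry of the plane squares -/

section

variable (v : V) (n n₂ k₁ n₀ : ℕ) (J : Finset (Fin 3 → ℤ)) (z : Fin 3 → ℤ)

/-- fine squares which are in no plate -/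
def sqU : Set (Fin 3 → ℤ) :=
  {w | squ v ((n₀, w), 2) ⊆ core v n ∧ IsMid v n (pt v n₀ w 2) ∧
    ∀ z ∈ J, ¬ squ v ((n₀, w), 2) ⊆ squ v (plq n₂ z)}

/-- fine squares of the frame of the plate `z` -/
def sqF : Set (Fin 3 → ℤ) :=
  {w | squ v ((n₀, w), 2) ⊆ squ v (plq n₂ z) ∧
    ¬ squ v ((n₀, w), 2) ⊆ pbox v (plq n₂ z) (1 / 2 ^ (n₂ + k₁)) 0}

/-- squares of the gap of the plate `z` -/
def sqG : Set (Fin 3 → ℤ) :=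
  {w | squ v ((n₂ + k₁, w), 2) ⊆ pbox v (plq n₂ z) (1 / 2 ^ (n₂ + k₁)) 0 ∧
    ¬ squ v ((n₂ + k₁, w), 2) ⊆ pbox v (plq n₂ z) (2 / 2 ^ (n₂ + k₁)) 0}

/-- the squares which are squeezed -/
def SqAll : Set Idx :=
  {q | (q.1 = n₀ ∧ q.2 ∈ sqU v n n₂ n₀ J) ∨ (∃ z ∈ J, q.1 = n₀ ∧ q.2 ∈ sqF v n₂ k₁ n₀ z) ∨
    ∃ z ∈ J, q.1 = n₂ + k₁ ∧ q.2 ∈ sqG v n₂ k₁ z}

end

/-- the hypotheses of the geometric statements -/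
structure Geo2 (v : V) (n m n₂ k₁ k₀ n₀ : ℕ) (J : Finset (Fin 3 → ℤ)) : Prop where
  org : ∀ i, 0 ≤ v i ∧ v i < 1 / 2 ^ n
  hn : 3 ≤ n
  hm : n + 2 ≤ m
  hn₂ : m ≤ n₂
  hk₁ : 3 ≤ k₁
  hk₀ : 1 ≤ k₀
  eqn : n₀ = n₂ + k₁ + k₀
  sub : ∀ z ∈ J, squ v (plq n₂ z) ⊆ core v n
  mid : ∀ z ∈ J, IsMid v n (pt v n₂ z 2)

/-- **(GEO2a)** cover and disjointness -/
def SpecGeo2a : Prop :=
  ∀ (v : V) (n m n₂ k₁ k₀ n₀ : ℕ) (J : Finset (Fin 3 → ℤ)), Geo2 v n m n₂ k₁ k₀ n₀ J →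
    (SqAll v n n₂ k₁ n₀ J).Finite ∧
    (∀ q ∈ SqAll v n n₂ k₁ n₀ J, squ v (q, 2) ⊆ core v n ∧ IsMid v n (pt v q.1 q.2 2) ∧
      -- the relative interior
      prel v (q, 2) 0 ⊆ interior (core v n) ∧
      (∀ q' ∈ SqAll v n n₂ k₁ n₀ J, q ≠ q' → Disjoint (prel v (q, 2) 0) (squ v (q', 2))) ∧
      (∀ z ∈ J, Disjoint (prel v (q, 2) 0) (pbox v (plq n₂ z) (2 / 2 ^ (n₂ + k₁)) 0)) ∧
      (∀ e : Idx × Fin 3, e.1.1 = m → edge v e ⊆ core v n →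
        Disjoint (prel v (q, 2) 0) (edge v e))) ∧
    (∀ w ∈ sqU v n n₂ n₀ J, ∀ z ∈ J, Disjoint (prel v ((n₀, w), 2) 0) (squ v (plq n₂ z))) ∧
    (∀ e : Idx × Fin 3, n ≤ e.1.1 → ¬ edge v e ⊆ core v n →
      Disjoint (edge v e) (interior (core v n))) ∧
    ∀ h, IsMid v n h → ∀ x ∈ core v n,
      (∃ z ∈ J, pt v n₂ z 2 = h ∧
        Function.update x 2 h ∈ pbox v (plq n₂ z) (2 / 2 ^ (n₂ + k₁)) 0) ∨
      ∃ q ∈ SqAll v n n₂ k₁ n₀ J, pt v q.1 q.2 2 = h ∧ Function.update x 2 h ∈ squ v (q, 2)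

/-- **(GEO2b)** edges -/
def SpecGeo2b : Prop :=
  ∀ (v : V) (n m n₂ k₁ k₀ n₀ : ℕ) (J : Finset (Fin 3 → ℤ)), Geo2 v n m n₂ k₁ k₀ n₀ J →
    (∀ w, (w ∈ sqU v n n₂ n₀ J ∨ ∃ z ∈ J, w ∈ sqF v n₂ k₁ n₀ z) →
      ∀ e, EdgeOfSq e ((n₀, w), 2) → FineE v n n₀ e ∧
        ∀ z ∈ J, Disjoint (edge v e) (prel v (plq n₂ z) (1 / 2 ^ (n₂ + k₁)))) ∧
    (∀ z ∈ J, ∀ w ∈ sqF v n₂ k₁ n₀ z, ∀ e, EdgeOfSq e ((n₀, w), 2) →
      edge v e ⊆ squ v (plq n₂ z)) ∧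
    ∀ z ∈ J, ∀ w ∈ sqG v n₂ k₁ z, ∀ e, EdgeOfSq e ((n₂ + k₁, w), 2) →
      (edge v e ⊆ pbox v (plq n₂ z) (1 / 2 ^ (n₂ + k₁)) 0 \
          prel v (plq n₂ z) (2 / 2 ^ (n₂ + k₁)) ∧
        ¬ edge v e ⊆ pbox v (plq n₂ z) (1 / 2 ^ (n₂ + k₁)) 0 \
          prel v (plq n₂ z) (1 / 2 ^ (n₂ + k₁))) ∨
      ∃ T : Finset (Idx × Fin 3), T.card = 2 ^ k₀ ∧
        (∀ e' ∈ T, e'.2 = e.2 ∧ FineE v n n₀ e' ∧ edge v e' ⊆ squ v (plq n₂ z) ∧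
          ∀ z' ∈ J, Disjoint (edge v e') (prel v (plq n₂ z') (1 / 2 ^ (n₂ + k₁)))) ∧
        ∀ H : V → ℝ≥0∞, Measurable H → eInt v e H ≤ ∑ e' ∈ T, eInt v e' H

/-- **(GEO2c)** counting -/
def SpecGeo2c : Prop :=
  ∀ (v : V) (n m n₂ k₁ k₀ n₀ : ℕ) (J : Finset (Fin 3 → ℤ)), Geo2 v n m n₂ k₁ k₀ n₀ J →
    (∀ z ∈ J, (sqF v n₂ k₁ n₀ z).Finite ∧
      (sqF v n₂ k₁ n₀ z).ncard ≤ 4 * 2 ^ k₀ * 2 ^ (k₁ + k₀)) ∧
    (∀ z ∈ J, (sqG v n₂ k₁ z).Finite ∧ (sqG v n₂ k₁ z).ncard ≤ 4 * 2 ^ k₁) ∧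
    (∀ h, IsMid v n h → {z | z ∈ J ∧ pt v n₂ z 2 = h}.ncard ≤ 4 ^ n₂) ∧
    (∀ e, {w | EdgeOfSq e ((n₀, w), 2)}.Finite ∧ {w | EdgeOfSq e ((n₀, w), 2)}.ncard ≤ 2) ∧
    ∀ z ∈ J, {e : Idx × Fin 3 | edge v e ⊆ squ v (plq n₂ z) ∧
        ∃ w ∈ sqU v n n₂ n₀ J, EdgeOfSq e ((n₀, w), 2)}.Finite ∧
      {e : Idx × Fin 3 | edge v e ⊆ squ v (plq n₂ z) ∧
        ∃ w ∈ sqU v n n₂ n₀ J, EdgeOfSq e ((n₀, w), 2)}.ncard ≤ 4 * 2 ^ (k₁ + k₀)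

end Vale.Agent.P073.LOC
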