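import Vale.Agent.P073.LOC.Spec752

/-!
# P073, block LOC: the collapse of many strips at once

`muS k v n a b` : the sum of the collapse functions `LR.mu` of the strips of generation `a` of the
core, in direction `k`; the layers have thickness `1 / 2 ^ b`.  Used with `k = 2`, `a = n` (LOC3D)
and with `k = 1`, `a` large (SEC1).
-/

namespace Vale.Agent.P073.LOC

open MeasureTheory Set Filter Topology Metric Vale.Agent.P073.St
open Vale.Agent.P073.SQ (ev cube SuppDiffeo)
open Vale.Agent.P073.LR (AffNear)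
open scoped ContDiff ENNReal

/-- centre of the core -/
noncomputable def ctr (v : V) (n : ℕ) : V := fun i => v i + (1 - 1 / 2 ^ n) / 2

/-- half side of the core -/
noncomputable def hs (n : ℕ) : ℝ := (1 - 5 / 2 ^ n) / 2

/-- half thickness of the main part of a strip of generation `a`, in units of `1 / 2 ^ b` -/
def hM (a b : ℕ) : ℕ := 2 ^ (b - a - 1) - 1

/-- middle of the strip `i` of generation `a` in direction `k` -/
noncomputable def smid (k : Fin 3) (v : V) (a : ℕ) (i : ℤ) : ℝ := v k + (2 * i + 1) / 2 ^ (a + 1)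

/-- the strips of generation `a` in the core -/
noncomputable def strips (n a : ℕ) : Finset ℤ := Finset.Ico (2 * 2 ^ (a - n)) ((2 ^ n - 3) * 2 ^ (a - n))

/-- the ramp function -/
noncomputable def lamS (k : Fin 3) (v : V) (n a b : ℕ) : V → ℝ :=
  LR.lam k (ctr v n) (hs n) (1 / 2 ^ b) (hM a b)

/-- the collapse function of all strips -/
noncomputable def muS (k : Fin 3) (v : V) (n a b : ℕ) (x : V) : ℝ :=
  ∑ i ∈ strips n a, LR.mu k (smid k v a i) (1 / 2 ^ b) (hM a b) (lamS k v n a b) x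

/-- properties of the collapse function; `T = 1 / 2 ^ n` -/
structure StripFacts (k : Fin 3) (v : V) (n a b : ℕ) : Prop where
  lip : ∃ L : NNReal, LipschitzWith L (muS k v n a b)
  mono : ∀ x, ∀ s : ℝ, 0 ≤ s → muS k v n a b x - s ≤ muS k v n a b (x + s • ev k)
  /-- the support -/
  supp : ∀ x, muS k v n a b x ≠ 0 → |x k - ctr v n k| < hs n ∧
    ∀ l, l ≠ k → |x l - ctr v n l| < hs n + 1 / 2 ^ (n + 1)
  /-- the interface planes of the strips are fixed -/
  zero : ∀ x, (∃ i : ℤ, x k = v k + i / 2 ^ a) → muS k v n a b x = 0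
  affZero : ∀ x l, l ≠ k → (∃ i : ℤ, x k = v k + i / 2 ^ a) → lamS k v n a b x ≠ 0 →
    AffNear (muS k v n a b) x (ev l) 0
  /-- in the open range of the core in direction `l`, `muS` does not depend on `x l` -/
  affIn : ∀ x l, l ≠ k → |x l - ctr v n l| < hs n → AffNear (muS k v n a b) x (ev l) 0
  /-- the main part of a strip goes to its middle plane -/
  main : ∀ x, ∀ i ∈ strips n a, (∀ l, l ≠ k → |x l - ctr v n l| ≤ hs n) →
    |x k - smid k v a i| ≤ 1 / 2 ^ (a + 1) - 1 / 2 ^ b →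
    muS k v n a b x = -(x k - smid k v a i)
  affMain : ∀ x, ∀ i ∈ strips n a, (∀ l, l ≠ k → |x l - ctr v n l| ≤ hs n) →
    |x k - smid k v a i| < 1 / 2 ^ (a + 1) - 1 / 2 ^ b →
    ∀ w, AffNear (muS k v n a b) x w (-w k)
  /-- the two layers of a strip are stretched linearly -/
  layer : ∀ x, ∀ i ∈ strips n a, (∀ l, l ≠ k → |x l - ctr v n l| ≤ hs n) →
    (1 / 2 ^ (a + 1) - 1 / 2 ^ b ≤ x k - smid k v a i → x k - smid k v a i ≤ 1 / 2 ^ (a + 1) →
      muS k v n a b x = -(hM a b * (1 / 2 ^ (a + 1) - (x k - smid k v a i)))) ∧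
    (1 / 2 ^ (a + 1) - 1 / 2 ^ b ≤ smid k v a i - x k → smid k v a i - x k ≤ 1 / 2 ^ (a + 1) →
      muS k v n a b x = hM a b * (1 / 2 ^ (a + 1) - (smid k v a i - x k)))
  affLayer : ∀ x, ∀ i ∈ strips n a, (∀ l, l ≠ k → |x l - ctr v n l| ≤ hs n) →
    1 / 2 ^ (a + 1) - 1 / 2 ^ b < |x k - smid k v a i| → |x k - smid k v a i| < 1 / 2 ^ (a + 1) →
    ∀ w, AffNear (muS k v n a b) x w (hM a b * w k)
  /-- away from the core nothing happens -/
  affOff : ∀ x, (hs n < |x k - ctr v n k| ∨ ∃ l, l ≠ k ∧ hs n + 1 / 2 ^ (n + 1) ≤ |x l - ctr v n l|) →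
    ∀ w, AffNear (muS k v n a b) x w 0
  /-- a partition of the range of the core -/
  cover : ∀ t, |t - ctr v n k| ≤ hs n → ∃ i ∈ strips n a, |t - smid k v a i| ≤ 1 / 2 ^ (a + 1)

/-- (STRIPS) owner helper894 -/
def SpecStrips : Prop :=
  ∀ (k : Fin 3) (v : V) (n a b : ℕ), 3 ≤ n → n ≤ a → a + 2 ≤ b → StripFacts k v n a b

/-- (STRIPS-lim) the collapse is a limit of diffeomorphisms (from `SpecStrips`, `LR.SpecColl`);
`K` is in the union of the cubes of generation `n` which touch the core -/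
def SpecStripLim : Prop :=
  ∀ (k : Fin 3) (v : V) (n a b : ℕ), 3 ≤ n → n ≤ a → a + 2 ≤ b →
    ∃ (K : Set V) (S : ℕ → V → V) (B : ℝ), IsCompact K ∧
      (∀ x ∈ K, ∀ i, |x i - ctr v n i| < hs n + 1 / 2 ^ n) ∧
      (∀ j, SuppDiffeo K (S j)) ∧
      (∀ j x w, ‖fderiv ℝ (S j) x w‖ ≤ B * ‖w‖) ∧
      (∀ j x l, l ≠ k → S j x l = x l) ∧
      (∀ x, Tendsto (fun j => S j x) atTop (𝓝 (x + muS k v n a b x • ev k))) ∧
      ∀ x w c, AffNear (muS k v n a b) x w c →
        Tendsto (fun j => fderiv ℝ (S j) x w) atTop (𝓝 (w + c • ev k))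

end Vale.Agent.P073.LOC
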