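import Vale.Agent.P073.LOC.S4A696
import Vale.Agent.P073.AB.Tiles907

/-!
# LOC, rank two, S4: the squeeze, and the edges of `Sec`
-/

namespace Vale.Agent.P073.LOC

open MeasureTheory Set Filter Topology Metric Vale.Agent.P073.St
open Vale.Agent.P073.SQ (ev cube SuppDiffeo dE faceE edgesE)
open Vale.Agent.P073.AB (cl Idx pt edge eInt squ tiles EdgeOf EdgeOfSq RatGood MinSq sqE)
open Vale.Agent.P073.AB.P86 (sc rel)
open P073.Net (IsTile dyc dyo SizeFn)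
open P073.Plate (pbox prel)
open scoped ContDiff ENNReal

/-! ## the protected set -/

theorem isClosed_edge (v : V) (e : Idx × Fin 3) : IsClosed (edge v e) := by
  have : edge v e = (⋂ j, ⋂ (_ : j ≠ e.2), {x : V | x j = v j + e.1.2 j / 2 ^ e.1.1}) ∩
      ({x : V | v e.2 + e.1.2 e.2 / 2 ^ e.1.1 ≤ x e.2} ∩
        {x : V | x e.2 ≤ v e.2 + (e.1.2 e.2 + 1) / 2 ^ e.1.1}) := by
    ext x
    rw [AB.Gr.mem_edge]
    simp
  rw [this]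
  refine IsClosed.inter ?_ (IsClosed.inter ?_ ?_)
  · exact isClosed_iInter fun j => isClosed_iInter fun _ =>
      isClosed_eq (continuous_apply j) continuous_const
  · exact isClosed_le continuous_const (continuous_apply _)
  · exact isClosed_le (continuous_apply _) continuous_const

theorem isClosed_pbox (v : V) (s : Idx × Fin 3) (δ τ : ℝ) : IsClosed (pbox v s δ τ) := by
  have : pbox v s δ τ = {x : V | |x s.2 - (v s.2 + s.1.2 s.2 / 2 ^ s.1.1)| ≤ τ} ∩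
      ⋂ i, ⋂ (_ : i ≠ s.2), {x : V | v i + s.1.2 i / 2 ^ s.1.1 + δ ≤ x i ∧
        x i ≤ v i + (s.1.2 i + 1) / 2 ^ s.1.1 - δ} := by
    ext x
    simp [pbox]
  rw [this]
  refine IsClosed.inter ?_ ?_
  · exact isClosed_le ((continuous_apply _).sub continuous_const).abs continuous_const
  · exact isClosed_iInter fun j => isClosed_iInter fun _ =>
      (isClosed_le continuous_const (continuous_apply _)).inter
        (isClosed_le (continuous_apply _) continuous_const)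

theorem finite_medges (v : V) (n m : ℕ) :
    {e : Idx × Fin 3 | e.1.1 = m ∧ edge v e ⊆ core v n}.Finite := by
  have h1 : ((fun a : (Fin 3 → ℤ) × Fin 3 => (((m, a.1), a.2) : Idx × Fin 3)) ''
      ({z | ∀ i, z i ∈ Icc (0:ℤ) (2 ^ m)} ×ˢ univ)).Finite :=
    ((Set.Finite.pi' fun _ => finite_Icc _ _).prod finite_univ).image _
  refine h1.subset ?_
  rintro ⟨⟨g, z⟩, k⟩ ⟨rfl, he⟩
  refine ⟨(z, k), ⟨fun i => ?_, mem_univ _⟩, rfl⟩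
  have h2 := he (AB.S308.pt_mem_edge ((g, z), k)) i
  simp only [pt] at h2
  have h3 : (0:ℝ) < 2 ^ g := by positivity
  have h4 : (0:ℝ) < 2 ^ n := by positivity
  have h5 : (0:ℝ) ≤ z i / 2 ^ g := by
    have : (0:ℝ) < 2 / 2 ^ n := by positivity
    linarith [h2.1]
  have h6 : (z i : ℝ) / 2 ^ g ≤ 1 := by
    have : ((2:ℝ) ^ n - 3) / 2 ^ n ≤ 1 := by rw [div_le_one h4]; linarith
    linarith [h2.2]
  rw [div_le_one h3] at h6
  have h7 : 0 ≤ (z i : ℝ) := by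
    by_contra hcon
    exact absurd h5 (not_le.2 (div_neg_of_neg_of_pos (not_le.1 hcon) h3))
  exact ⟨by exact_mod_cast h7, by exact_mod_cast h6⟩

/-- the set which the squeeze does not touch -/
def DD (v : V) (n m n₂ k₁ : ℕ) (J : Finset (Fin 3 → ℤ)) : Set V :=
  (interior (core v n))ᶜ ∪
    ((⋃ e ∈ {e : Idx × Fin 3 | e.1.1 = m ∧ edge v e ⊆ core v n}, edge v e) ∪
      ⋃ z ∈ J, pbox v (plq n₂ z) (2 / 2 ^ (n₂ + k₁)) 0)

theorem isClosed_DD (v : V) (n m n₂ k₁ : ℕ) (J : Finset (Fin 3 → ℤ)) :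
    IsClosed (DD v n m n₂ k₁ J) := by
  refine isOpen_interior.isClosed_compl.union (IsClosed.union ?_ ?_)
  · exact (finite_medges v n m).isClosed_biUnion fun e _ => isClosed_edge v e
  · exact J.finite_toSet.isClosed_biUnion fun z _ => isClosed_pbox _ _ _ _

theorem rel_eq_prel (v : V) (s : Idx × Fin 3) : rel v s = prel v s 0 := by
  ext x
  simp [rel, prel]

/-! ## the squeeze -/

variable {p ε θ M κ C : ℝ} {k₁ k₀ n m : ℕ} {L : V →L[ℝ] V} {Λ : Set V} {f : V → V} {F : V → Mat}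

/-- the output of the gauge -/
structure GOut (c : Choice2 p ε θ M κ C k₁ k₀ n m L Λ f F) (G : V → V) (δ : Idx × Fin 3 → ℝ)
    (δ₀ C' : ℝ) : Prop where
  diffeo : IsDiffeo Q1 Λ G
  close : BdClose Q1 f G
  net : ∀ e : Idx × Fin 3, NetE c.v n m c.n₀ e →
    (∀ z ∈ c.J, Disjoint (edge c.v e) (prel c.v (plq c.n₂ z) (1 / 2 ^ (c.n₂ + k₁)))) →
    eInt c.v e (fun x => ENNReal.ofReal (‖fderiv ℝ G x (ev e.2) - cl (F x) (ev e.2)‖ ^ p)) ≤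
      ENNReal.ofReal (δ e)
  plate : ∀ z ∈ c.J, ∑ j ∈ Finset.univ.erase (2 : Fin 3),
    ∫⁻ x in {x | x ∈ core c.v n ∧ Function.update x 2 (pt c.v c.n₂ z 2) ∈
        pbox c.v (plq c.n₂ z) (2 / 2 ^ (c.n₂ + k₁)) 0},
      ENNReal.ofReal (‖fderiv ℝ G (Function.update x 2 (pt c.v c.n₂ z 2)) (ev j) -
        c.B z (ev j)‖ ^ p) ≤ ENNReal.ofReal δ₀
  gap : ∀ z ∈ c.J, ∀ e : Idx × Fin 3, e.1.1 = c.n₂ + k₁ →
    edge c.v e ⊆ pbox c.v (plq c.n₂ z) (1 / 2 ^ (c.n₂ + k₁)) 0 \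
      prel c.v (plq c.n₂ z) (2 / 2 ^ (c.n₂ + k₁)) →
    ¬ edge c.v e ⊆ pbox c.v (plq c.n₂ z) (1 / 2 ^ (c.n₂ + k₁)) 0 \
      prel c.v (plq c.n₂ z) (1 / 2 ^ (c.n₂ + k₁)) →
    eInt c.v e (fun x => ENNReal.ofReal (‖fderiv ℝ G x (ev e.2)‖ ^ p)) ≤
      ENNReal.ofReal (C' / 2 ^ (c.n₂ + k₁))

/-- the output of the planar squeezes -/
structure SqOut (c : Choice2 p ε θ M κ C k₁ k₀ n m L Λ f F) (G : V → V) (Cp : ℝ≥0∞)
    (η : Idx → ℝ≥0∞) (K : Set V) (s₀ : V → V) : Prop where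
  supp : SuppDiffeo K s₀
  sub : K ⊆ Q1
  disj : Disjoint K (DD c.v n m c.n₂ k₁ c.J)
  face : ∀ q ∈ SqAll c.v n c.n₂ k₁ c.n₀ c.J,
    faceE p (G ∘ s₀) (sc c.v (q, 2)) 2 (1 / 2 / 2 ^ q.1) ≤
      Cp * (ENNReal.ofReal ((1 / 2 ^ q.1) ^ 2) *
        ∑ e ∈ sqE (q, 2), eInt c.v e (dE p G e.2)) + η q

theorem Choice2.geo (c : Choice2 p ε θ M κ C k₁ k₀ n m L Λ f F) (hn : 3 ≤ n) (hm : n + 2 ≤ m)
    (hk₁ : 3 ≤ k₁) (hk₀ : 1 ≤ k₀) : Geo2 c.v n m c.n₂ k₁ k₀ c.n₀ c.J :=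
  ⟨c.org, hn, hm, c.le, hk₁, hk₀, c.eqn, c.sub, c.mid⟩

theorem isOpen_Q1' : IsOpen Q1 := by
  have : Q1 = ⋂ i : Fin 3, {x : V | 0 < x i ∧ x i < 1} := by ext x; simp [Q1]
  rw [this]
  exact isOpen_iInter_of_finite fun i =>
    (isOpen_lt continuous_const (continuous_apply i)).inter
      (isOpen_lt (continuous_apply i) continuous_const)

theorem exists_sqOut (hp : 1 ≤ p) (hp2 : p < 2) (hgeo : SpecGeo2a) : ∃ Cp : ℝ≥0∞, Cp ≠ ⊤ ∧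
    ∀ {ε θ M κ C : ℝ} {k₁ k₀ n m : ℕ} {L : V →L[ℝ] V} {Λ : Set V} {f : V → V} {F : V → Mat}
      (c : Choice2 p ε θ M κ C k₁ k₀ n m L Λ f F) (G : V → V) (η : Idx → ℝ≥0∞), 3 ≤ n →
      n + 2 ≤ m → 3 ≤ k₁ → 1 ≤ k₀ → IsDiffeo Q1 Λ G → (∀ q, η q ≠ 0) →
      ∃ (K : Set V) (s₀ : V → V), SqOut c G Cp η K s₀ := by
  obtain ⟨C₁, hC₁, h⟩ := exists_planarD p hp hp2
  refine ⟨C₁, hC₁, ?_⟩
  intro ε θ M κ C k₁ k₀ n m L Λ f F c G η hn hm hk₁ hk₀ hG hη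
  obtain ⟨g1, g2, g3, g4, g5⟩ := hgeo _ _ _ _ _ _ _ _ (c.geo hn hm hk₁ hk₀)
  set A := SqAll c.v n c.n₂ k₁ c.n₀ c.J with hA
  obtain ⟨K, s₀, h1, h2, h3, h4, h5⟩ := h Q1 Λ G c.v ((fun q : Idx => ((q, 2) : Idx × Fin 3)) '' A)
    (DD c.v n m c.n₂ k₁ c.J) (fun s => η s.1) 1 isOpen_Q1' hG (g1.image _)
    (isClosed_DD _ _ _ _ _ _) one_pos
    (by
      rintro _ ⟨q, hq, rfl⟩
      exact (g2 q hq).1.trans (core_subset_Q1 c.org))
    (by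
      rintro _ ⟨q, hq, rfl⟩
      obtain ⟨a1, a2, a3, a4, a5, a6⟩ := g2 q hq
      rw [rel_eq_prel, Set.disjoint_left]
      rintro x hx (hx' | hx' | hx')
      · exact hx' (a3 hx)
      · obtain ⟨e, ⟨he, he'⟩, hxe⟩ := mem_iUnion₂.1 hx'
        exact Set.disjoint_left.1 (a6 e he he') hx hxe
      · obtain ⟨z, hz, hxz⟩ := mem_iUnion₂.1 hx'
        exact Set.disjoint_left.1 (a5 z hz) hx hxz)
    (by
      rintro _ ⟨q, hq, rfl⟩ _ ⟨q', hq', rfl⟩ hne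
      obtain ⟨a1, a2, a3, a4, a5, a6⟩ := g2 q hq
      rw [rel_eq_prel]
      exact a4 q' hq' fun h => hne (by rw [h]))
    (fun s _ => hη s.1)
  exact ⟨K, s₀, h1, h2, h3, fun q hq => h5 _ ⟨q, hq, rfl⟩⟩

/-! ## the edges -/

section edges

variable {c : Choice2 p ε θ M κ C k₁ k₀ n m L Λ f F} {G : V → V} {δ : Idx × Fin 3 → ℝ}
  {δ₀ C' : ℝ} {Cp : ℝ≥0∞} {η : Idx → ℝ≥0∞} {K : Set V} {s₀ : V → V}

theorem SqOut.medge (h : SqOut c G Cp η K s₀) {e : Idx × Fin 3} (he : e.1.1 = m)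
    (he' : edge c.v e ⊆ core c.v n) : gInt p c.v (G ∘ s₀) e = gInt p c.v G e := by
  refine gInt_comp_off h.supp (h.disj.symm.mono_left ?_)
  exact fun x hx => Or.inr (Or.inl (mem_biUnion (show e ∈ {e : Idx × Fin 3 | e.1.1 = m ∧
    edge c.v e ⊆ core c.v n} from ⟨he, he'⟩) hx))

theorem SqOut.oedge (hgeo : SpecGeo2a) (hn : 3 ≤ n) (hm : n + 2 ≤ m) (hk₁ : 3 ≤ k₁)
    (hk₀ : 1 ≤ k₀) (h : SqOut c G Cp η K s₀) {e : Idx × Fin 3} (he : n ≤ e.1.1)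
    (he' : ¬ edge c.v e ⊆ core c.v n) : gInt p c.v (G ∘ s₀) e = gInt p c.v G e := by
  obtain ⟨g1, g2, g3, g4, g5⟩ := hgeo _ _ _ _ _ _ _ _ (c.geo hn hm hk₁ hk₀)
  refine gInt_comp_off h.supp (h.disj.symm.mono_left ?_)
  exact fun x hx => Or.inl (Set.disjoint_left.1 (g4 e he he') hx)

/-- energy of `G` on an edge of generation `m` of the core -/
theorem GOut.medge (hp : 1 ≤ p) (hp2 : p < 2) (hG : GOut c G δ δ₀ C') {e : Idx × Fin 3}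
    (he : e.1.1 = m) (he' : edge c.v e ⊆ core c.v n) :
    gInt p c.v G e ≤ 2 * ENNReal.ofReal (δ e) + 2 * fInt p c.v F e := by
  have h1 := hG.net e (Or.inr (Or.inl ⟨he, he'⟩)) fun z hz =>
    medge_disj (by positivity) (c.lone z hz) he
  exact AB.S293.eInt_G_le hp hp2 c.rat (he'.trans (core_subset_Q1 c.org)) G h1

/-- energy of `G` on an edge of a tile outside of the core -/
theorem GOut.oedge (hgeo : SpecGeo2a) (hn : 3 ≤ n) (hm : n + 2 ≤ m) (hk₁ : 3 ≤ k₁)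
    (hk₀ : 1 ≤ k₀) (hp : 1 ≤ p) (hp2 : p < 2) (hG : GOut c G δ δ₀ C') {e : Idx × Fin 3}
    (hq : ∃ q ∈ tiles Q1 n c.v, EdgeOf e q) (he : n ≤ e.1.1) (heQ : edge c.v e ⊆ Q1)
    (he' : ¬ edge c.v e ⊆ core c.v n) :
    gInt p c.v G e ≤ 2 * ENNReal.ofReal (δ e) + 2 * fInt p c.v F e := by
  obtain ⟨g1, g2, g3, g4, g5⟩ := hgeo _ _ _ _ _ _ _ _ (c.geo hn hm hk₁ hk₀)
  have h1 := hG.net e (Or.inl hq) fun z hz => by
    refine (g4 e he he').mono_right ?_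
    exact prel_subset_interior (s := plq c.n₂ z) rfl (c.sub z hz) (c.mid z hz) (by positivity)
  exact AB.S293.eInt_G_le hp hp2 c.rat heQ G h1

/-- on the plates the derivative is unchanged -/
theorem SqOut.plate (h : SqOut c G Cp η K s₀) {z : Fin 3 → ℤ} (hz : z ∈ c.J) {y : V}
    (hy : y ∈ pbox c.v (plq c.n₂ z) (2 / 2 ^ (c.n₂ + k₁)) 0) :
    fderiv ℝ (G ∘ s₀) y = fderiv ℝ G y := by
  refine fderiv_comp_off h.supp fun hyK => ?_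
  exact Set.disjoint_left.1 h.disj hyK (Or.inr (Or.inr (mem_biUnion (show z ∈ c.J from hz) hy)))

theorem SqOut.diffeo (h : SqOut c G Cp η K s₀) (hG : IsDiffeo Q1 Λ G) :
    IsDiffeo Q1 Λ (G ∘ s₀) :=
  SQ.isDiffeo_comp (suppDiffeo_isDiffeo h.supp h.sub) hG

theorem SqOut.close (h : SqOut c G Cp η K s₀) (hG : BdClose Q1 f G) :
    BdClose Q1 f (G ∘ s₀) := bdClose_comp h.supp h.sub hG

/-- horizontal edges -/
theorem GOut.hor (hp : 1 ≤ p) (hp2 : p < 2) (hG : GOut c G δ δ₀ C') (hC : 0 ≤ C)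
    {e : Idx × Fin 3} (he : e.1.1 = m) (he' : edge c.v e ⊆ core c.v n) (h2 : e.2 ≠ 2)
    (hd : (2 ^ (m - (n + 1)) : ℤ) ∣ e.1.2 2) (hδ : δ e ≤ C / 2 ^ m) :
    gInt p c.v G e ≤ ENNReal.ofReal (4 * C / 2 ^ m) := by
  have h1 := hG.medge hp hp2 he he'
  have h3 := c.hor e he he' h2 hd
  calc gInt p c.v G e ≤ 2 * ENNReal.ofReal (C / 2 ^ m) + 2 * ENNReal.ofReal (C / 2 ^ m) := by
        refine h1.trans ?_
        gcongr
    _ = ENNReal.ofReal (4 * C / 2 ^ m) := by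
        have e2 : (2:ℝ≥0∞) = ENNReal.ofReal 2 := by norm_num
        rw [e2, ← ENNReal.ofReal_mul (by norm_num),
          ← ENNReal.ofReal_add (by positivity) (by positivity)]
        congr 1
        ring

/-- vertical edges -/
theorem GOut.ver (hp : 1 ≤ p) (hp2 : p < 2) (hG : GOut c G δ δ₀ C') (hε : 0 ≤ ε)
    {e : Idx × Fin 3} (he : e.1.1 = m) (he' : edge c.v e ⊆ core c.v n) (h2 : e.2 = 2)
    (hδ : δ e ≤ ε) : gInt p c.v G e ≤ ENNReal.ofReal (4 * ε) := by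
  have h1 := hG.medge hp hp2 he he'
  have h3 := c.ver e he he' h2
  calc gInt p c.v G e ≤ 2 * ENNReal.ofReal ε + 2 * ENNReal.ofReal ε := by
        refine h1.trans ?_
        gcongr
    _ = ENNReal.ofReal (4 * ε) := by
        have e2 : (2:ℝ≥0∞) = ENNReal.ofReal 2 := by norm_num
        rw [e2, ← ENNReal.ofReal_mul (by norm_num),
          ← ENNReal.ofReal_add (by positivity) (by positivity)]
        congr 1
        ring

theorem isBounded_Q1 : Bornology.IsBounded Q1 := by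
  refine (Metric.isBounded_Icc (0 : V) 1).subset fun x hx => ⟨fun i => (hx i).1.le, fun i => ?_⟩
  exact (hx i).2.le

theorem nonempty_Q1 : Q1.Nonempty := ⟨fun _ => 1 / 2, fun i => by norm_num⟩

/-- edges of the tiles -/
theorem edge_of_tile {v : V} {e : Idx × Fin 3}
    (hq : ∃ q ∈ tiles Q1 n v, EdgeOf e q) : n ≤ e.1.1 ∧ edge v e ⊆ Q1 := by
  obtain ⟨-, h1, h2, -, -⟩ := AB.specTiles Q1 n v isOpen_Q1' isBounded_Q1 nonempty_Q1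
  obtain ⟨q, hq, he⟩ := hq
  exact ⟨by rw [he.1]; exact h2 q hq, (AB.Gr.edge_subset_dyc he).trans (h1.sub q hq)⟩

/-- outer edges -/
theorem GOut.out (hgeo : SpecGeo2a) (hn : 3 ≤ n) (hm : n + 2 ≤ m) (hk₁ : 3 ≤ k₁)
    (hk₀ : 1 ≤ k₀) (hp : 1 ≤ p) (hp2 : p < 2) (hG : GOut c G δ δ₀ C') (hC : 0 ≤ C)
    (hδ : ∑' e : {e : Idx × Fin 3 // (∃ q ∈ tiles Q1 n c.v, EdgeOf e q) ∧
      ¬ edge c.v e ⊆ core c.v n}, ENNReal.ofReal (δ e.1) ≤ ENNReal.ofReal (C / 2 ^ n)) :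
    ∑' e : {e : Idx × Fin 3 // (∃ q ∈ tiles Q1 n c.v, EdgeOf e q) ∧ ¬ edge c.v e ⊆ core c.v n},
      ENNReal.ofReal ((1 / 2 ^ e.1.1.1) ^ 2) * gInt p c.v G e.1 ≤
        ENNReal.ofReal (4 * C / 2 ^ n) := by
  have h1 : ∀ e : {e : Idx × Fin 3 // (∃ q ∈ tiles Q1 n c.v, EdgeOf e q) ∧
      ¬ edge c.v e ⊆ core c.v n}, ENNReal.ofReal ((1 / 2 ^ e.1.1.1) ^ 2) * gInt p c.v G e.1 ≤
        2 * ENNReal.ofReal (δ e.1) +
          2 * (ENNReal.ofReal ((1 / 2 ^ e.1.1.1) ^ 2) * fInt p c.v F e.1) := by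
    intro e
    obtain ⟨a1, a2⟩ := edge_of_tile e.2.1
    have h2 := hG.oedge hgeo hn hm hk₁ hk₀ hp hp2 e.2.1 a1 a2 e.2.2
    have h3 : ENNReal.ofReal ((1 / 2 ^ e.1.1.1) ^ 2) ≤ 1 := by
      rw [← ENNReal.ofReal_one]
      apply ENNReal.ofReal_le_ofReal
      apply pow_le_one₀ (by positivity)
      rw [div_le_one (by positivity)]
      exact one_le_pow₀ (by norm_num)
    calc ENNReal.ofReal ((1 / 2 ^ e.1.1.1) ^ 2) * gInt p c.v G e.1 ≤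
          ENNReal.ofReal ((1 / 2 ^ e.1.1.1) ^ 2) *
            (2 * ENNReal.ofReal (δ e.1) + 2 * fInt p c.v F e.1) := by gcongr
      _ = ENNReal.ofReal ((1 / 2 ^ e.1.1.1) ^ 2) * (2 * ENNReal.ofReal (δ e.1)) +
          2 * (ENNReal.ofReal ((1 / 2 ^ e.1.1.1) ^ 2) * fInt p c.v F e.1) := by ring
      _ ≤ 1 * (2 * ENNReal.ofReal (δ e.1)) +
          2 * (ENNReal.ofReal ((1 / 2 ^ e.1.1.1) ^ 2) * fInt p c.v F e.1) := by gcongr
      _ = _ := by rw [one_mul]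
  calc _ ≤ ∑' e : {e : Idx × Fin 3 // (∃ q ∈ tiles Q1 n c.v, EdgeOf e q) ∧
      ¬ edge c.v e ⊆ core c.v n}, (2 * ENNReal.ofReal (δ e.1) +
          2 * (ENNReal.ofReal ((1 / 2 ^ e.1.1.1) ^ 2) * fInt p c.v F e.1)) :=
        ENNReal.tsum_le_tsum h1
    _ ≤ 2 * ENNReal.ofReal (C / 2 ^ n) + 2 * ENNReal.ofReal (C / 2 ^ n) := by
        rw [ENNReal.tsum_add, ENNReal.tsum_mul_left, ENNReal.tsum_mul_left]
        gcongr
        exact c.out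
    _ = ENNReal.ofReal (4 * C / 2 ^ n) := by
        have e2 : (2:ℝ≥0∞) = ENNReal.ofReal 2 := by norm_num
        rw [e2, ← ENNReal.ofReal_mul (by norm_num),
          ← ENNReal.ofReal_add (by positivity) (by positivity)]
        congr 1
        ring

end edges

/-- **(S3)** the squeeze, in the form for the sums -/
theorem exists_squeeze (hp : 1 ≤ p) (hp2 : p < 2) (hgeo : SpecGeo2a) : ∃ Cp : ℝ≥0∞, Cp ≠ ⊤ ∧
    ∀ {ε θ M κ C : ℝ} {k₁ k₀ n m : ℕ} {L : V →L[ℝ] V} {Λ : Set V} {f : V → V} {F : V → Mat}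
      (c : Choice2 p ε θ M κ C k₁ k₀ n m L Λ f F) (G : V → V) (η : Idx → ℝ≥0∞), 3 ≤ n →
      n + 2 ≤ m → 3 ≤ k₁ → 1 ≤ k₀ → IsDiffeo Q1 Λ G → BdClose Q1 f G → (∀ q, η q ≠ 0) →
      ∃ s₀ : V → V, IsDiffeo Q1 Λ (G ∘ s₀) ∧ BdClose Q1 f (G ∘ s₀) ∧
        (∀ e : Idx × Fin 3, ((e.1.1 = m ∧ edge c.v e ⊆ core c.v n) ∨
          (n ≤ e.1.1 ∧ ¬ edge c.v e ⊆ core c.v n)) → gInt p c.v (G ∘ s₀) e = gInt p c.v G e) ∧
        (∀ z ∈ c.J, ∀ y ∈ pbox c.v (plq c.n₂ z) (2 / 2 ^ (c.n₂ + k₁)) 0,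
          fderiv ℝ (G ∘ s₀) y = fderiv ℝ G y) ∧
        ∀ q ∈ SqAll c.v n c.n₂ k₁ c.n₀ c.J,
          faceE p (G ∘ s₀) (sc c.v (q, 2)) 2 (1 / 2 / 2 ^ q.1) ≤
            Cp * (ENNReal.ofReal ((1 / 2 ^ q.1) ^ 2) *
              ∑ e ∈ sqE (q, 2), eInt c.v e (dE p G e.2)) + η q := by
  obtain ⟨Cp, hCp, h⟩ := exists_sqOut hp hp2 hgeo
  refine ⟨Cp, hCp, ?_⟩
  intro ε θ M κ C k₁ k₀ n m L Λ f F c G η hn hm hk₁ hk₀ hG hc hη
  obtain ⟨K, s₀, hs⟩ := h c G η hn hm hk₁ hk₀ hG hη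
  refine ⟨s₀, hs.diffeo hG, hs.close hc, ?_, fun z hz y hy => hs.plate hz hy, hs.face⟩
  rintro e (⟨h1, h2⟩ | ⟨h1, h2⟩)
  · exact hs.medge h1 h2
  · exact hs.oedge hgeo hn hm hk₁ hk₀ h1 h2

end Vale.Agent.P073.LOC
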