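import Vale.Agent.P073.LOC.Sec2
import Vale.Agent.P073.LOC.PlanarD696
import Vale.Agent.P073.AB.Sum308d

/-!
# LOC, rank two: tools for the sums (S4)
-/

namespace Vale.Agent.P073.LOC

open MeasureTheory Set Filter Topology Metric Vale.Agent.P073.St
open Vale.Agent.P073.SQ (ev cube SuppDiffeo dE faceE edgesE)
open Vale.Agent.P073.AB (cl Idx pt edge eInt squ tiles EdgeOf EdgeOfSq RatGood MinSq sqE)
open Vale.Agent.P073.AB.P86 (sc rel)
open P073.Net (IsTile dyc dyo SizeFn)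
open P073.Plate (pbox prel)
open scoped ContDiff ENNReal

/-! ## planar integrals -/

/-- the planar square of a dyadic square with normal `2`, in two coordinates -/
def sq2 (v : V) (q : Idx) : Set (Fin 2 → ℝ) :=
  {y | ∀ l, v ((2 : Fin 3).succAbove l) + q.2 ((2 : Fin 3).succAbove l) / 2 ^ q.1 ≤ y l ∧
    y l ≤ v ((2 : Fin 3).succAbove l) + (q.2 ((2 : Fin 3).succAbove l) + 1) / 2 ^ q.1}

theorem measurableSet_sq2 (v : V) (q : Idx) : MeasurableSet (sq2 v q) := by
  have : sq2 v q = Icc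
      (fun l => v ((2 : Fin 3).succAbove l) + q.2 ((2 : Fin 3).succAbove l) / 2 ^ q.1)
      (fun l => v ((2 : Fin 3).succAbove l) +
        (q.2 ((2 : Fin 3).succAbove l) + 1) / 2 ^ q.1) := by
    ext y
    exact ⟨fun h => ⟨fun l => (h l).1, fun l => (h l).2⟩, fun h l => ⟨h.1 l, h.2 l⟩⟩
  rw [this]
  exact measurableSet_Icc

theorem removeNth_mem_sq2 {v : V} {q : Idx} {x : V}
    (h : ∀ k, k ≠ 2 → v k + q.2 k / 2 ^ q.1 ≤ x k ∧ x k ≤ v k + (q.2 k + 1) / 2 ^ q.1) :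
    (2 : Fin 3).removeNth x ∈ sq2 v q := fun l => h _ (Fin.succAbove_ne 2 l)

theorem dyc_eq_sq2 (v : V) (q : Idx) : dyc v q.1 q.2 =
    {x : V | x 2 ∈ Icc (v 2 + q.2 2 / 2 ^ q.1) (v 2 + (q.2 2 + 1) / 2 ^ q.1) ∧
      (2 : Fin 3).removeNth x ∈ sq2 v q} := by
  ext x
  constructor
  · intro h
    exact ⟨h 2, removeNth_mem_sq2 fun k _ => h k⟩
  · rintro ⟨h1, h2⟩ k
    rcases Fin.eq_self_or_eq_succAbove 2 k with rfl | ⟨m, rfl⟩
    · exact h1
    · exact h2 m

/-- a planar integral over a part of the core is a volume integral over a dyadic cube -/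
theorem int_squ_le (v : V) (n : ℕ) (q : Idx) (c : ℝ) {H : V → ℝ≥0∞} (hH : Measurable H) :
    ∫⁻ x in {x | x ∈ core v n ∧ Function.update x 2 c ∈ squ v (q, 2)}, H (Function.update x 2 c) ≤
      ENNReal.ofReal (2 ^ q.1) * ∫⁻ x in dyc v q.1 q.2, H (Function.update x 2 c) := by
  have hsub : {x | x ∈ core v n ∧ Function.update x 2 c ∈ squ v (q, 2)} ⊆
      {x : V | x 2 ∈ Icc (v 2 + 2 / 2 ^ n) (v 2 + 2 / 2 ^ n + 1) ∧
        (2 : Fin 3).removeNth x ∈ sq2 v q} := by
    rintro x ⟨h1, h2⟩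
    refine ⟨⟨(h1 2).1, (h1 2).2.trans ?_⟩, removeNth_mem_sq2 fun k hk => ?_⟩
    · have : ((2:ℝ) ^ n - 3) / 2 ^ n ≤ 1 := by
        rw [div_le_one (by positivity)]; linarith
      have h3 : (0:ℝ) ≤ 2 / 2 ^ n := by positivity
      linarith
    · have := h2.2 k hk
      rwa [Function.update_of_ne hk] at this
  calc ∫⁻ x in {x | x ∈ core v n ∧ Function.update x 2 c ∈ squ v (q, 2)},
        H (Function.update x 2 c) ≤ ∫⁻ x in {x : V | x 2 ∈ Icc (v 2 + 2 / 2 ^ n)
        (v 2 + 2 / 2 ^ n + 1) ∧ (2 : Fin 3).removeNth x ∈ sq2 v q},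
        H (Function.update x 2 c) := lintegral_mono_set hsub
    _ = ∫⁻ y in sq2 v q, H ((2 : Fin 3).insertNth c y) := by
        rw [SQ.Edge.fubini_const 2 c measurableSet_Icc (measurableSet_sq2 v q) hH,
          Real.volume_Icc, show v 2 + 2 / 2 ^ n + 1 - (v 2 + 2 / 2 ^ n) = (1:ℝ) by ring,
          ENNReal.ofReal_one, one_mul]
    _ = ENNReal.ofReal (2 ^ q.1) * ∫⁻ x in dyc v q.1 q.2, H (Function.update x 2 c) := by
        rw [dyc_eq_sq2, SQ.Edge.fubini_const 2 c measurableSet_Icc (measurableSet_sq2 v q) hH,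
          Real.volume_Icc, ← mul_assoc, ← ENNReal.ofReal_mul (by positivity)]
        have : (2:ℝ) ^ q.1 * (v 2 + (q.2 2 + 1) / 2 ^ q.1 - (v 2 + q.2 2 / 2 ^ q.1)) = 1 := by
          field_simp
          ring
        rw [this, ENNReal.ofReal_one, one_mul]

/-- the area of a dyadic square -/
theorem vol_squ_le (v : V) (n : ℕ) (q : Idx) (c : ℝ) :
    volume {x | x ∈ core v n ∧ Function.update x 2 c ∈ squ v (q, 2)} ≤
      ENNReal.ofReal (1 / 4 ^ q.1) := by
  have h := int_squ_le v n q c (H := fun _ => 1) measurable_const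
  rw [setLIntegral_one, setLIntegral_one, AB.S308.volume_dyc] at h
  refine h.trans ?_
  rw [← ENNReal.ofReal_mul (by positivity)]
  apply ENNReal.ofReal_le_ofReal
  have h1 : (8:ℝ) ^ q.1 = 2 ^ q.1 * 4 ^ q.1 := by rw [← mul_pow]; norm_num
  rw [h1]
  have h2 : (0:ℝ) < 2 ^ q.1 := by positivity
  field_simp
  exact le_rfl

/-! ## edges outside of the support -/

theorem edge_pt_mem (v : V) (e : Idx × Fin 3) {t : ℝ} (ht : t ∈ Icc (0:ℝ) 1) :
    pt v e.1.1 e.1.2 + t • ((1 / 2 ^ e.1.1 : ℝ) • ev e.2) ∈ edge v e := by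
  unfold edge
  rw [segment_eq_image']
  refine ⟨t, ht, ?_⟩
  simp

theorem eventually_id {K : Set V} {s₀ : V → V} (h : SuppDiffeo K s₀) {x : V} (hx : x ∉ K) :
    s₀ =ᶠ[𝓝 x] id := by
  filter_upwards [h.compact.isClosed.isOpen_compl.mem_nhds hx] with y hy
  exact h.supp y hy

theorem fderiv_comp_off {K : Set V} {s₀ G : V → V} (h : SuppDiffeo K s₀) {x : V} (hx : x ∉ K) :
    fderiv ℝ (G ∘ s₀) x = fderiv ℝ G x := by
  have h1 : G ∘ s₀ =ᶠ[𝓝 x] G := by
    filter_upwards [eventually_id h hx] with y hy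
    simp only [Function.comp, hy, id]
  exact h1.fderiv_eq

/-- edges outside of the support keep their energy -/
theorem gInt_comp_off {p : ℝ} {K : Set V} {s₀ G : V → V} (h : SuppDiffeo K s₀) {v : V}
    {e : Idx × Fin 3} (he : Disjoint (edge v e) K) : gInt p v (G ∘ s₀) e = gInt p v G e := by
  unfold gInt eInt
  congr 1
  refine setLIntegral_congr_fun measurableSet_Icc fun t ht => ?_
  simp only
  rw [fderiv_comp_off h (Set.disjoint_left.1 he (edge_pt_mem v e ht))]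

end Vale.Agent.P073.LOC
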