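import Vale.Agent.P073.LOC.CollSpec
import Vale.Agent.P073.AB.Sum293e

/-!
# P073, block LOC-3D: the sum of the energies of the cells (L3B)
-/

namespace Vale.Agent.P073.LOC.S293

open MeasureTheory Set Filter Topology Metric Vale.Agent.P073.St
open Vale.Agent.P073.SQ (ev cube Cells dE faceE edgesE)
open Vale.Agent.P073.AB (cl Idx pt edge eInt squ tiles EdgeOf MinSq Part sqE)
open Vale.Agent.P073.AB.P86 (sc)
open Vale.Agent.P073.AB.S293 (ratio sum_sqE_le)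
open P073.Net (IsTile dyc dyo SizeFn)
open scoped ContDiff ENNReal

variable {p C δ : ℝ} {n m : ℕ} {L : V →L[ℝ] V} {Λ : Set V} {f G : V → V} {v : V}

theorem pow8 (m : ℕ) : ((1 / 2 ^ m : ℝ)) ^ 2 * (1 / 2 ^ m) = 1 / 8 ^ m := by
  rw [← pow_succ, div_pow, one_pow, ← pow_mul, mul_comm m, pow_mul]; norm_num

open Classical in
/-- a fine square -/
theorem fine_le (D : CollOut p C δ n m L Λ f G v) (hC : 0 ≤ C) (s : Idx × Fin 3)
    (hs : s.1.1 = m) (c : Prop)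
    (h : (c ∧ ∃ r ∈ newP v n m, squ v s ⊆ dyc v r.1 r.2) ∨ (¬ c ∧ ∀ e ∈ sqE s, e ∈ ME v n m)) :
    (if c then faceE p G (sc v s) s.2 (1 / 2 / 2 ^ s.1.1)
      else edgesE p G (sc v s) s.2 (1 / 2 / 2 ^ s.1.1)) ≤ ENNReal.ofReal (4 * C / 8 ^ m) := by
  rcases h with ⟨h1, h2⟩ | ⟨h1, h2⟩
  · rw [if_pos h1, hs]
    refine (D.ctrl s hs h2).trans (ENNReal.ofReal_le_ofReal ?_)
    gcongr
    linarith
  · rw [if_neg h1, AB.S293.edgesE_eq]
    have h4 : ∑ e ∈ sqE s, eInt v e (dE p G e.2) ≤ 4 * ENNReal.ofReal (C / 2 ^ m) :=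
      sum_sqE_le fun e he => D.me e (h2 e he)
    calc ENNReal.ofReal ((1 / 2 ^ s.1.1) ^ 2) * ∑ e ∈ sqE s, eInt v e (dE p G e.2)
        ≤ ENNReal.ofReal ((1 / 2 ^ s.1.1) ^ 2) * (4 * ENNReal.ofReal (C / 2 ^ m)) := by gcongr
      _ = ENNReal.ofReal (4 * C / 8 ^ m) := by
          have e4 : (4:ℝ≥0∞) = ENNReal.ofReal 4 := by norm_num
          rw [hs, e4, ← ENNReal.ofReal_mul (by norm_num), ← ENNReal.ofReal_mul (by positivity)]
          congr 1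
          calc ((1 / 2 ^ m : ℝ)) ^ 2 * (4 * (C / 2 ^ m))
              = (4 * C) * ((1 / 2 ^ m) ^ 2 * (1 / 2 ^ m)) := by ring
            _ = 4 * C / 8 ^ m := by rw [pow8]; ring

section cells

variable (hQ : IsOpen Q1) (hI : Part Q1 v (newI v n m)) (hP : newP v n m ⊆ newI v n m)

theorem mem_bd (i : (AB.P86.cells hQ hI hP).ι) (t : (AB.P86.cells hQ hI hP).κ) :
    t ∈ (AB.P86.cells hQ hI hP).bd i ↔ squ v t.1 ⊆ dyc v i.1.1 i.1.2 :=
  Set.Finite.mem_toFinset _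

open Classical in
/-- the outer cubes -/
theorem en_outer (D : CollOut p C δ n m L Λ f G v) (hC : 0 ≤ C)
    (i : (AB.P86.cells hQ hI hP).ι)
    (h2 : ∀ s, MinSq v (newI v n m) s → squ v s ⊆ dyc v i.1.1 i.1.2 → ¬ squ v s ⊆ core v n →
        i.1.1 ≤ s.1.1 ∧ s.1.1 ≤ i.1.1 + 2 ∧ (∀ r ∈ newP v n m, ¬ squ v s ⊆ dyc v r.1 r.2) ∧
        ∀ e ∈ sqE s, e ∈ OE v n ∪ TE v n)
    (h3 : ∀ s, MinSq v (newI v n m) s → squ v s ⊆ dyc v i.1.1 i.1.2 → squ v s ⊆ core v n →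
        i.1.1 = n ∧ s.1.1 = m ∧
        ((∃ r ∈ newP v n m, squ v s ⊆ dyc v r.1 r.2) ∨
          (∀ r ∈ newP v n m, ¬ squ v s ⊆ dyc v r.1 r.2) ∧ ∀ e ∈ sqE s, e ∈ ME v n m)) :
    (AB.P86.cells hQ hI hP).en p G i ≤
      (∑ t ∈ ((AB.P86.cells hQ hI hP).bd i).filter (fun t => ¬ squ v t.1 ⊆ core v n),
        ∑ e ∈ sqE t.1, 4 * (ENNReal.ofReal ((1 / 2 ^ e.1.1) ^ 2) * gInt p v G e)) +
      ((((AB.P86.cells hQ hI hP).bd i).filter (fun t => squ v t.1 ⊆ core v n)).card : ℝ≥0∞) *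
        ENNReal.ofReal (4 * C / (2 ^ n * 4 ^ m)) := by
  set g : (AB.P86.cells hQ hI hP).κ → ℝ≥0∞ := fun t =>
    ENNReal.ofReal ((1 / 2 / 2 ^ i.1.1 : ℝ) / (1 / 2 / 2 ^ t.1.1.1)) *
      (if t ∈ (AB.P86.cells hQ hI hP).ctrl then faceE p G (sc v t.1) t.1.2 (1 / 2 / 2 ^ t.1.1.1)
        else edgesE p G (sc v t.1) t.1.2 (1 / 2 / 2 ^ t.1.1.1)) with hg
  have hen : (AB.P86.cells hQ hI hP).en p G i = ∑ t ∈ (AB.P86.cells hQ hI hP).bd i, g t := rfl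
  rw [hen, ← Finset.sum_filter_not_add_sum_filter _ (fun t => squ v t.1 ⊆ core v n) g]
  refine add_le_add ?_ ?_
  · refine Finset.sum_le_sum fun t ht => ?_
    rw [Finset.mem_filter, mem_bd] at ht
    obtain ⟨a1, a2, a3, a4⟩ := h2 t.1 t.2.1 ht.1 ht.2
    have hc : t ∉ (AB.P86.cells hQ hI hP).ctrl := fun ⟨r, hr, hsub⟩ => a3 r hr hsub
    simp only [hg]
    rw [if_neg hc, AB.S293.edgesE_eq, ratio, ← Finset.mul_sum]
    have e1 : ENNReal.ofReal (2 ^ t.1.1.1 / 2 ^ i.1.1) ≤ 4 := by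
      have : (2:ℝ) ^ t.1.1.1 / 2 ^ i.1.1 ≤ 4 := by
        rw [div_le_iff₀ (by positivity)]
        calc (2:ℝ) ^ t.1.1.1 ≤ 2 ^ (i.1.1 + 2) := pow_le_pow_right₀ (by norm_num) a2
          _ = 4 * 2 ^ i.1.1 := by rw [pow_add]; ring
      calc ENNReal.ofReal (2 ^ t.1.1.1 / 2 ^ i.1.1) ≤ ENNReal.ofReal 4 :=
            ENNReal.ofReal_le_ofReal this
        _ = 4 := by norm_num
    have e2 : ENNReal.ofReal ((1 / 2 ^ t.1.1.1) ^ 2) * ∑ e ∈ sqE t.1, eInt v e (dE p G e.2) =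
        ∑ e ∈ sqE t.1, ENNReal.ofReal ((1 / 2 ^ e.1.1) ^ 2) * gInt p v G e := by
      rw [Finset.mul_sum]
      refine Finset.sum_congr rfl fun e he => ?_
      rw [(AB.mem_sqE.1 he).1]
      rfl
    rw [e2]
    gcongr
  · rw [← nsmul_eq_mul, ← Finset.sum_const]
    refine Finset.sum_le_sum fun t ht => ?_
    rw [Finset.mem_filter, mem_bd] at ht
    obtain ⟨a1, a2, a3⟩ := h3 t.1 t.2.1 ht.1 ht.2
    simp only [hg]
    have hf := fine_le D hC t.1 a2 (t ∈ (AB.P86.cells hQ hI hP).ctrl) (by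
      rcases a3 with h | ⟨h, h'⟩
      · exact Or.inl ⟨h, h⟩
      · exact Or.inr ⟨fun ⟨r, hr, hsub⟩ => h r hr hsub, h'⟩)
    have e1 : ENNReal.ofReal ((1 / 2 / 2 ^ i.1.1 : ℝ) / (1 / 2 / 2 ^ t.1.1.1)) =
        ENNReal.ofReal (2 ^ m / 2 ^ n) := by rw [ratio, a1, a2]
    rw [e1]
    calc ENNReal.ofReal (2 ^ m / 2 ^ n) * _ ≤ ENNReal.ofReal (2 ^ m / 2 ^ n) *
          ENNReal.ofReal (4 * C / 8 ^ m) := by gcongr
      _ = ENNReal.ofReal (4 * C / (2 ^ n * 4 ^ m)) := by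
          rw [← ENNReal.ofReal_mul (by positivity)]
          congr 1
          have e8 : (8:ℝ) ^ m = 4 ^ m * 2 ^ m := by rw [← mul_pow]; norm_num
          rw [e8]
          field_simp

open Classical in
/-- the cubes of the layers -/
theorem en_inner (D : CollOut p C δ n m L Λ f G v) (hC : 0 ≤ C)
    (i : (AB.P86.cells hQ hI hP).ι) (hi : i.1.1 = m)
    (h4 : ∀ s, MinSq v (newI v n m) s → squ v s ⊆ dyc v i.1.1 i.1.2 → s.1.1 = m ∧
        ((∃ r ∈ newP v n m, squ v s ⊆ dyc v r.1 r.2) ∨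
          (∀ r ∈ newP v n m, ¬ squ v s ⊆ dyc v r.1 r.2) ∧ ∀ e ∈ sqE s, e ∈ ME v n m)) :
    (AB.P86.cells hQ hI hP).en p G i ≤
      (((AB.P86.cells hQ hI hP).bd i).card : ℝ≥0∞) * ENNReal.ofReal (4 * C / 8 ^ m) := by
  rw [← nsmul_eq_mul, ← Finset.sum_const]
  refine Finset.sum_le_sum fun t ht => ?_
  rw [mem_bd] at ht
  obtain ⟨a2, a3⟩ := h4 t.1 t.2.1 ht
  have hf := fine_le D hC t.1 a2 (t ∈ (AB.P86.cells hQ hI hP).ctrl) (by
    rcases a3 with h | ⟨h, h'⟩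
    · exact Or.inl ⟨h, h⟩
    · exact Or.inr ⟨fun ⟨r, hr, hsub⟩ => h r hr hsub, h'⟩)
  refine le_trans (le_of_eq ?_) hf
  have e1 : ENNReal.ofReal ((1 / 2 / 2 ^ i.1.1 : ℝ) / (1 / 2 / 2 ^ t.1.1.1)) = 1 := by
    rw [ratio, hi, a2, div_self (by positivity), ENNReal.ofReal_one]
  show ENNReal.ofReal ((1 / 2 / 2 ^ i.1.1 : ℝ) / (1 / 2 / 2 ^ t.1.1.1)) * _ = _
  rw [e1, one_mul]
  rfl

open Classical in
/-- **total energy** -/
theorem sum_en {C₀ : ℝ} (hC₀ : 0 < C₀) (D : CollOut p C δ n m L Λ f G v) (hC : 0 ≤ C)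
    (g2 : ∀ q ∈ newI v n m \ newP v n m, q ∈ IO v n → ∀ s, MinSq v (newI v n m) s →
        squ v s ⊆ dyc v q.1 q.2 → ¬ squ v s ⊆ core v n →
        q.1 ≤ s.1.1 ∧ s.1.1 ≤ q.1 + 2 ∧ (∀ r ∈ newP v n m, ¬ squ v s ⊆ dyc v r.1 r.2) ∧
        ∀ e ∈ sqE s, e ∈ OE v n ∪ TE v n)
    (g3 : ∀ q ∈ newI v n m \ newP v n m, q ∈ IO v n → ∀ s, MinSq v (newI v n m) s →
        squ v s ⊆ dyc v q.1 q.2 → squ v s ⊆ core v n → q.1 = n ∧ s.1.1 = m ∧
        ((∃ r ∈ newP v n m, squ v s ⊆ dyc v r.1 r.2) ∨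
          (∀ r ∈ newP v n m, ¬ squ v s ⊆ dyc v r.1 r.2) ∧ ∀ e ∈ sqE s, e ∈ ME v n m))
    (g4 : ∀ q ∈ newI v n m \ newP v n m, q ∉ IO v n → q.1 = m ∧ ∀ s, MinSq v (newI v n m) s →
        squ v s ⊆ dyc v q.1 q.2 → s.1.1 = m ∧
        ((∃ r ∈ newP v n m, squ v s ⊆ dyc v r.1 r.2) ∨
          (∀ r ∈ newP v n m, ¬ squ v s ⊆ dyc v r.1 r.2) ∧ ∀ e ∈ sqE s, e ∈ ME v n m))
    (g5 : ∀ g : Idx × Fin 3 → ℝ≥0∞,
        ∑' i : {i : (AB.P86.cells hQ hI hP).ι // i.1 ∈ IO v n},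
          ∑ t ∈ ((AB.P86.cells hQ hI hP).bd i.1).filter (fun t => ¬ squ v t.1 ⊆ core v n),
            ∑ e ∈ sqE t.1, g e ≤
        ENNReal.ofReal C₀ * ∑' e : ↥(OE v n ∪ TE v n), g e.1)
    (g6 : ∑' i : {i : (AB.P86.cells hQ hI hP).ι // i.1 ∈ IO v n},
        ((((AB.P86.cells hQ hI hP).bd i.1).filter (fun t => squ v t.1 ⊆ core v n)).card : ℝ≥0∞) ≤
          ENNReal.ofReal (C₀ * 4 ^ m))
    (g6' : ∑' i : {i : (AB.P86.cells hQ hI hP).ι // i.1 ∉ IO v n},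
        (((AB.P86.cells hQ hI hP).bd i.1).card : ℝ≥0∞) ≤ ENNReal.ofReal (C₀ * (2 ^ n * 4 ^ m)))
    (g7 : (TE v n).Finite) (g7' : ((TE v n).ncard : ℝ) ≤ C₀ * 4 ^ n) :
    ∑' i, (AB.P86.cells hQ hI hP).en p G i ≤
      ENNReal.ofReal (4 * C₀ * C * (2 + C₀) / 2 ^ n + 4 * C₀ * C * 2 ^ n / 2 ^ m) := by
  have e4 : (4:ℝ≥0∞) = ENNReal.ofReal 4 := by norm_num
  set S : Set (AB.P86.cells hQ hI hP).ι := {i | i.1 ∈ IO v n} with hS
  have hsplit := ENNReal.summable.tsum_add_tsum_compl (s := S)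
    (f := (AB.P86.cells hQ hI hP).en p G) ENNReal.summable
  rw [← hsplit]
  set g : Idx × Fin 3 → ℝ≥0∞ := fun e =>
    4 * (ENNReal.ofReal ((1 / 2 ^ e.1.1) ^ 2) * gInt p v G e) with hg
  have s1 : ∑' e : OE v n, g e.1 ≤ ENNReal.ofReal (4 * C / 2 ^ n) := by
    simp only [hg]
    rw [ENNReal.tsum_mul_left, e4]
    refine (mul_le_mul_right D.oe (ENNReal.ofReal 4)).trans (le_of_eq ?_)
    rw [← ENNReal.ofReal_mul (by norm_num)]
    congr 1
    ring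
  have s2 : ∑' e : TE v n, g e.1 ≤ ENNReal.ofReal (4 * C * C₀ / 2 ^ n) := by
    calc ∑' e : TE v n, g e.1 ≤ ∑' _e : TE v n, ENNReal.ofReal (4 * C / 8 ^ n) := by
          refine ENNReal.tsum_le_tsum fun e => ?_
          simp only [hg]
          rw [e.2.1, e4]
          calc ENNReal.ofReal 4 * (ENNReal.ofReal ((1 / 2 ^ n) ^ 2) * gInt p v G e.1)
              ≤ ENNReal.ofReal 4 * (ENNReal.ofReal ((1 / 2 ^ n) ^ 2) *
                ENNReal.ofReal (C / 2 ^ n)) := by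
                gcongr
                exact D.te e.1 e.2
            _ = ENNReal.ofReal (4 * C / 8 ^ n) := by
                rw [← ENNReal.ofReal_mul (by positivity), ← ENNReal.ofReal_mul (by norm_num)]
                congr 1
                calc (4:ℝ) * ((1 / 2 ^ n) ^ 2 * (C / 2 ^ n)) =
                      4 * C * ((1 / 2 ^ n) ^ 2 * (1 / 2 ^ n)) := by ring
                  _ = 4 * C / 8 ^ n := by rw [pow8]; ring
      _ = ENNReal.ofReal ((TE v n).ncard * (4 * C / 8 ^ n)) := by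
          rw [ENNReal.tsum_set_const, ← g7.cast_ncard_eq, ENat.toENNReal_coe,
            ← ENNReal.ofReal_natCast, ← ENNReal.ofReal_mul (by positivity)]
      _ ≤ _ := by
          refine ENNReal.ofReal_le_ofReal ?_
          calc ((TE v n).ncard : ℝ) * (4 * C / 8 ^ n) ≤ C₀ * 4 ^ n * (4 * C / 8 ^ n) := by gcongr
            _ = 4 * C * C₀ / 2 ^ n := by
                have e8 : (8:ℝ) ^ n = 4 ^ n * 2 ^ n := by rw [← mul_pow]; norm_num
                rw [e8]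
                field_simp
  have t1 : ∑' i : S, (AB.P86.cells hQ hI hP).en p G i ≤
      ENNReal.ofReal (4 * C₀ * C * (2 + C₀) / 2 ^ n) := by
    calc ∑' i : S, (AB.P86.cells hQ hI hP).en p G i
        ≤ ∑' i : S, ((∑ t ∈ ((AB.P86.cells hQ hI hP).bd i.1).filter
            (fun t => ¬ squ v t.1 ⊆ core v n), ∑ e ∈ sqE t.1, g e) +
          ((((AB.P86.cells hQ hI hP).bd i.1).filter
            (fun t => squ v t.1 ⊆ core v n)).card : ℝ≥0∞) *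
              ENNReal.ofReal (4 * C / (2 ^ n * 4 ^ m))) :=
          ENNReal.tsum_le_tsum fun i => en_outer hQ hI hP D hC i.1 (g2 i.1.1 i.1.2 i.2)
            (g3 i.1.1 i.1.2 i.2)
      _ = (∑' i : S, ∑ t ∈ ((AB.P86.cells hQ hI hP).bd i.1).filter
            (fun t => ¬ squ v t.1 ⊆ core v n), ∑ e ∈ sqE t.1, g e) +
          (∑' i : S, ((((AB.P86.cells hQ hI hP).bd i.1).filter
            (fun t => squ v t.1 ⊆ core v n)).card : ℝ≥0∞)) *
              ENNReal.ofReal (4 * C / (2 ^ n * 4 ^ m)) := by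
          rw [ENNReal.tsum_add, ENNReal.tsum_mul_right]
      _ ≤ ENNReal.ofReal C₀ * (ENNReal.ofReal (4 * C / 2 ^ n) +
            ENNReal.ofReal (4 * C * C₀ / 2 ^ n)) +
          ENNReal.ofReal (C₀ * 4 ^ m) * ENNReal.ofReal (4 * C / (2 ^ n * 4 ^ m)) := by
          gcongr
          · refine (g5 g).trans ?_
            gcongr
            exact (ENNReal.tsum_union_le g (OE v n) (TE v n)).trans (add_le_add s1 s2)
          · exact g6
      _ = ENNReal.ofReal (4 * C₀ * C * (2 + C₀) / 2 ^ n) := by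
          rw [← ENNReal.ofReal_add (by positivity) (by positivity), ← ENNReal.ofReal_mul hC₀.le,
            ← ENNReal.ofReal_mul (by positivity),
            ← ENNReal.ofReal_add (by positivity) (by positivity)]
          congr 1
          field_simp
          ring
  have t2 : ∑' i : ↑Sᶜ, (AB.P86.cells hQ hI hP).en p G i ≤
      ENNReal.ofReal (4 * C₀ * C * 2 ^ n / 2 ^ m) := by
    calc ∑' i : ↑Sᶜ, (AB.P86.cells hQ hI hP).en p G i
        ≤ ∑' i : ↑Sᶜ, (((AB.P86.cells hQ hI hP).bd i.1).card : ℝ≥0∞) *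
          ENNReal.ofReal (4 * C / 8 ^ m) := by
          refine ENNReal.tsum_le_tsum fun i => ?_
          obtain ⟨h1, h2⟩ := g4 i.1.1 i.1.2 i.2
          exact en_inner hQ hI hP D hC i.1 h1 h2
      _ = (∑' i : ↑Sᶜ, (((AB.P86.cells hQ hI hP).bd i.1).card : ℝ≥0∞)) *
          ENNReal.ofReal (4 * C / 8 ^ m) := ENNReal.tsum_mul_right
      _ ≤ ENNReal.ofReal (C₀ * (2 ^ n * 4 ^ m)) * ENNReal.ofReal (4 * C / 8 ^ m) := by
          gcongr
          exact g6'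
      _ = ENNReal.ofReal (4 * C₀ * C * 2 ^ n / 2 ^ m) := by
          rw [← ENNReal.ofReal_mul (by positivity)]
          congr 1
          have e8 : (8:ℝ) ^ m = 4 ^ m * 2 ^ m := by rw [← mul_pow]; norm_num
          rw [e8]
          field_simp
  refine (add_le_add t1 t2).trans ?_
  rw [← ENNReal.ofReal_add (by positivity) (by positivity)]

end cells

end Vale.Agent.P073.LOC.S293
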